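import Vale.Agent.P340.Typing

/-!
# The paradox

If the rules of `λU⁻` occur in a specification, Hurkens' term inhabits a variable `b : g` in
the context `b : g`, so it has no normal form. No hypothesis on the specification is needed.
-/

namespace Vale.Agent.P340

universe u
variable {S : Type u}

open Expr Relation

variable {P : Spec S}

/-! ### From `D` back to `Der` -/

/-- Contexts whose entries have derivable sorts. -/
inductive CtxOK (P : Spec S) : List (Expr S) → Prop
  | nil : CtxOK P []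
  | cons {Γ : List (Expr S)} {A : Expr S} {s : S} :
      CtxOK P Γ → Der P Γ A (.sort s) → CtxOK P (A :: Γ)

theorem CtxOK.axm {Γ : List (Expr S)} (h : CtxOK P Γ) {s t : S} (ha : P.ax s t) :
    Der P Γ (.sort s) (.sort t) := by
  induction h with
  | nil => exact Der.axm ha
  | cons _ hA ih => exact Der.weak ih hA

theorem CtxOK.var {Γ : List (Expr S)} (h : CtxOK P Γ) {i : ℕ} {A : Expr S}
    (hl : Lookup Γ i A) : Der P Γ (.var i) A := by
  induction hl with
  | zero => cases h with | cons _ hA => exact Der.var hA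
  | succ _ ih => cases h with | cons h hA => exact Der.weak (ih h) hA

theorem Der.dom_sort {Γ : List (Expr S)} {A B T : Expr S} (h : Der P Γ (.pi A B) T) :
    ∃ a, Der P Γ A (.sort a) := by
  generalize hX : Expr.pi A B = X at h
  induction h generalizing A B with
  | prod hA _ _ => cases hX; exact ⟨_, hA⟩
  | conv _ _ _ ih => exact ih hX
  | @weak Γ M T₀ A₀ s _ hA₀ ih =>
    cases M with
    | pi A₁ B₁ =>
      cases hX
      obtain ⟨a, ha⟩ := ih rfl
      exact ⟨a, Der.weak ha hA₀⟩
    | var i => cases hX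
    | sort s => cases hX
    | app M N => cases hX
    | lam M N => cases hX
  | axm => cases hX
  | var => cases hX
  | abs => cases hX
  | app => cases hX

theorem D.toDer {Γ : List (Expr S)} {M T : Expr S} (h : D P Γ M T) (hΓ : CtxOK P Γ) :
    Der P Γ M T := by
  induction h with
  | axm ha => exact hΓ.axm ha
  | var hl => exact hΓ.var hl
  | prod _ _ hr ih₁ ih₂ => exact Der.prod (ih₁ hΓ) (ih₂ (hΓ.cons (ih₁ hΓ))) hr
  | abs _ _ ih₁ ih₂ =>
    obtain ⟨a, ha⟩ := (ih₂ hΓ).dom_sort
    exact Der.abs (ih₁ (hΓ.cons ha)) (ih₂ hΓ)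
  | app _ _ ih₁ ih₂ => exact Der.app (ih₁ hΓ) (ih₂ hΓ)
  | conv _ _ hc ih₁ ih₂ => exact Der.conv (ih₁ hΓ) (ih₂ hΓ) hc

/-! ### The terms -/

/-- The arrow. -/
def arrT (A B : Expr S) : Expr S := .pi A B.shift

/-- Predicates on `X`. -/
def powT (g : S) (X : Expr S) : Expr S := .pi X (.sort g)

/-- The universe `U`. -/
def uT (g k : S) : Expr S :=
  .pi (.sort k) (arrT (arrT (powT g (powT g (.var 0))) (.var 0)) (powT g (powT g (.var 0))))

/-- The map `τ : ℘℘U → U`. -/
def tauT (g k : S) : Expr S :=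
  .lam (powT g (powT g (uT g k)))
    (.lam (.sort k)
      (.lam (arrT (powT g (powT g (.var 0))) (.var 0))
        (.lam (powT g (.var 1))
          (.app (.var 3)
            (.lam (uT g k)
              (.app (.var 1) (.app (.var 2) (.app (.app (.var 0) (.var 3)) (.var 2)))))))))

/-- The map `σ : U → ℘℘U`. -/
def sigT (g k : S) (x : Expr S) : Expr S := .app (.app x (uT g k)) (tauT g k)

/-- The composite `τ ∘ σ`. -/
def gT (g k : S) (x : Expr S) : Expr S := .app (tauT g k) (sigT g k x)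

/-- `p` is inductive. -/
def phiT (g k : S) (p : Expr S) : Expr S :=
  .pi (uT g k) (arrT (.app (sigT g k (.var 0)) p.shift) (.app p.shift (.var 0)))

/-- The element `Ω`. -/
def omT (g k : S) : Expr S :=
  .app (tauT g k) (.lam (powT g (uT g k)) (phiT g k (.var 0)))

/-- `x` is well founded. -/
def elT (g k : S) (x : Expr S) : Expr S :=
  .pi (powT g (uT g k))
    (arrT (.app (sigT g k x.shift) (.var 0)) (.app (.var 0) (gT g k x.shift)))

/-- The predicate `Δ`, for the proposition named by the variable `i`. -/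
def delT (g k : S) (i : ℕ) : Expr S := .lam (uT g k) (arrT (elT g k (.var 0)) (.var (i + 1)))

/-- The proof that `Δ` is inductive. -/
def proofA (g k : S) : Expr S :=
  .lam (uT g k) (.lam (.app (sigT g k (.var 0)) (delT g k 1)) (.lam (elT g k (.var 1))
    (.app (.app (.app (.var 0) (delT g k 3)) (.var 1))
      (.lam (powT g (uT g k)) (.app (.var 1) (.lam (uT g k) (.app (.var 1) (gT g k (.var 0)))))))))

/-- The proof that `Ω` is well founded. -/
def proofB (g k : S) : Expr S :=
  .lam (powT g (uT g k)) (.lam (.app (sigT g k (omT g k)) (.var 0))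
    (.app (.app (.var 0) (omT g k)) (.lam (uT g k) (.app (.var 1) (gT g k (.var 0))))))

/-- The looping term. -/
def loopT (g k : S) : Expr S :=
  .app (.app (.app (proofA g k) (omT g k))
    (.lam (uT g k) (.app (proofA g k).shift (gT g k (.var 0))))) (proofB g k)

/-- The composite `p ∘ τ ∘ σ`. -/
def compT (g k : S) (p : Expr S) : Expr S :=
  .lam (uT g k) (.app p.shift (gT g k (.var 0)))

/-! ### Computation -/

@[simp] theorem uT_ren (g k : S) (ρ : ℕ → ℕ) : (uT g k).ren ρ = uT g k := rfl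
@[simp] theorem uT_sub (g k : S) (σ : ℕ → Expr S) : (uT g k).sub σ = uT g k := rfl
@[simp] theorem tauT_ren (g k : S) (ρ : ℕ → ℕ) : (tauT g k).ren ρ = tauT g k := rfl
@[simp] theorem tauT_sub (g k : S) (σ : ℕ → Expr S) : (tauT g k).sub σ = tauT g k := rfl
@[simp] theorem omT_ren (g k : S) (ρ : ℕ → ℕ) : (omT g k).ren ρ = omT g k := rfl
@[simp] theorem omT_sub (g k : S) (σ : ℕ → Expr S) : (omT g k).sub σ = omT g k := rfl

@[simp] theorem sigT_ren (g k : S) (x : Expr S) (ρ : ℕ → ℕ) :
    (sigT g k x).ren ρ = sigT g k (x.ren ρ) := by simp [sigT, Expr.ren]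

@[simp] theorem sigT_sub (g k : S) (x : Expr S) (σ : ℕ → Expr S) :
    (sigT g k x).sub σ = sigT g k (x.sub σ) := by simp [sigT, Expr.sub]

@[simp] theorem gT_ren (g k : S) (x : Expr S) (ρ : ℕ → ℕ) :
    (gT g k x).ren ρ = gT g k (x.ren ρ) := by simp [gT, Expr.ren]

@[simp] theorem gT_sub (g k : S) (x : Expr S) (σ : ℕ → Expr S) :
    (gT g k x).sub σ = gT g k (x.sub σ) := by simp [gT, Expr.sub]

@[simp] theorem elT_ren (g k : S) (x : Expr S) (ρ : ℕ → ℕ) :
    (elT g k x).ren ρ = elT g k (x.ren ρ) := by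
  simp [elT, arrT, powT, Expr.ren, Expr.shift, ren_ren, upRen, Function.comp_def]

@[simp] theorem elT_sub (g k : S) (x : Expr S) (σ : ℕ → Expr S) :
    (elT g k x).sub σ = elT g k (x.sub σ) := by
  simp [elT, arrT, powT, Expr.sub, Expr.shift, Expr.ren, upRen, sub_ren_comp, ren_sub_comp,
    Expr.up, ren_ren, Function.comp_def]

@[simp] theorem compT_ren (g k : S) (p : Expr S) (ρ : ℕ → ℕ) :
    (compT g k p).ren ρ = compT g k (p.ren ρ) := by
  simp [compT, Expr.ren, shift_ren, upRen]

@[simp] theorem delT_ren_succ (g k : S) (i : ℕ) :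
    (delT g k i).ren Nat.succ = delT g k (i + 1) := by
  simp [delT, arrT, Expr.ren, Expr.shift, upRen]

theorem compT_app (g k : S) (p x : Expr S) :
    Beta (.app (compT g k p) x) (.app p (gT g k x)) := by
  have := Beta.redex (uT g k) (.app p.shift (gT g k (.var 0))) x
  simpa [compT, inst, Expr.sub, shift_sub_scons, sub_var, scons] using this

theorem delT_app (g k : S) (i : ℕ) (x : Expr S) :
    Beta (.app (delT g k i) x) (arrT (elT g k x) (.var i)) := by
  have := Beta.redex (uT g k) (arrT (elT g k (.var 0)) (.var (i + 1))) x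
  simpa [delT, arrT, inst, Expr.sub, Expr.shift, Expr.ren, scons, Expr.up] using this

/-- The four steps of `τ t X f p`. -/
theorem tauT_app (g k : S) (t X f p : Expr S) :
    Steps (.app (.app (.app (.app (tauT g k) t) X) f) p)
      (.app t (.lam (uT g k)
        (.app p.shift (.app f.shift (.app (.app (.var 0) X.shift) f.shift))))) := by
  have h₁ : Beta (.app (tauT g k) t)
      (.lam (.sort k) (.lam (arrT (powT g (powT g (.var 0))) (.var 0)) (.lam (powT g (.var 1))
        (.app t.shift.shift.shift (.lam (uT g k)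
          (.app (.var 1) (.app (.var 2) (.app (.app (.var 0) (.var 3)) (.var 2))))))))) :=
    Beta.redex _ _ _
  have h₂ : ∀ t : Expr S, Beta (.app (.lam (.sort k)
      (.lam (arrT (powT g (powT g (.var 0))) (.var 0)) (.lam (powT g (.var 1))
        (.app t.shift.shift.shift (.lam (uT g k)
          (.app (.var 1) (.app (.var 2) (.app (.app (.var 0) (.var 3)) (.var 2))))))))) X)
      (.lam (arrT (powT g (powT g X)) X) (.lam (powT g X.shift)
        (.app t.shift.shift (.lam (uT g k)
          (.app (.var 1) (.app (.var 2) (.app (.app (.var 0) X.shift.shift.shift) (.var 2)))))))) := by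
    intro t
    refine Eq.mp (congrArg (Beta _) ?_) (Beta.redex _ _ _)
    simp [inst, arrT, powT, Expr.sub, shift_sub, shift_sub_scons, sub_var, Expr.up, scons,
      Expr.shift, Expr.ren, upRen, sub_ren_comp, ren_sub_comp, ren_ren, Function.comp_def,
      ren_eq_sub, sub_sub]
  have h₃ : Beta (.app (.lam (arrT (powT g (powT g X)) X) (.lam (powT g X.shift)
        (.app t.shift.shift (.lam (uT g k)
          (.app (.var 1) (.app (.var 2) (.app (.app (.var 0) X.shift.shift.shift) (.var 2)))))))) f)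
      (.lam (powT g X) (.app t.shift (.lam (uT g k)
          (.app (.var 1) (.app f.shift.shift (.app (.app (.var 0) X.shift.shift) f.shift.shift)))))) := by
    refine Eq.mp (congrArg (Beta _) ?_) (Beta.redex _ _ _)
    simp [inst, powT, Expr.sub, shift_sub, shift_sub_scons, sub_var, Expr.up, scons]
    rfl
  have h₄ : Beta (.app (.lam (powT g X) (.app t.shift (.lam (uT g k)
          (.app (.var 1) (.app f.shift.shift (.app (.app (.var 0) X.shift.shift) f.shift.shift)))))) p)
      (.app t (.lam (uT g k)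
        (.app p.shift (.app f.shift (.app (.app (.var 0) X.shift) f.shift))))) := by
    refine Eq.mp (congrArg (Beta _) ?_) (Beta.redex _ _ _)
    simp [inst, Expr.sub, shift_sub, shift_sub_scons, sub_var, Expr.up, scons]
  exact (((Steps.single (Beta.appL _ (Beta.appL _ (Beta.appL _ h₁)))).trans
    (Steps.single (Beta.appL _ (Beta.appL _ (h₂ t))))).trans
    (Steps.single (Beta.appL _ h₃))).trans (Steps.single h₄)

theorem sigT_gT (g k : S) (x p : Expr S) :
    Steps (.app (sigT g k (gT g k x)) p) (.app (sigT g k x) (compT g k p)) :=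
  tauT_app g k (sigT g k x) (uT g k) (tauT g k) p

theorem sigT_omT (g k : S) (p : Expr S) :
    Steps (.app (sigT g k (omT g k)) p) (phiT g k (compT g k p)) := by
  refine (tauT_app g k (.lam (powT g (uT g k)) (phiT g k (.var 0))) (uT g k) (tauT g k) p).trans
    (Steps.single ?_)
  refine Eq.mp (congrArg (Beta _) ?_) (Beta.redex _ _ _)
  simp [inst, phiT, arrT, compT, Expr.sub, Expr.shift, Expr.ren, upRen, scons, Expr.up,
    sigT, gT]

theorem conv_sigT_omT (g k : S) (q : Expr S) :
    Conv (.app (sigT g k (omT g k)) q)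
      (.pi (uT g k) (arrT (.app (sigT g k (gT g k (.var 0))) q.shift)
        (.app q.shift (gT g k (.var 0))))) := by
  refine (sigT_omT g k q).conv.trans (Conv.pi (Conv.refl _) (Conv.pi ?_ (Conv.shift ?_)))
  · rw [Expr.shift, compT_ren]
    exact (sigT_gT g k _ _).conv.symm
  · rw [Expr.shift, compT_ren]
    exact Conv.step (compT_app g k _ _)

theorem conv_elT_gT (g k : S) (x : Expr S) :
    Conv (.pi (powT g (uT g k)) (arrT (.app (sigT g k x.shift) (compT g k (.var 0)))
        (.app (compT g k (.var 0)) (gT g k x.shift)))) (elT g k (gT g k x)) := by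
  refine Conv.pi (Conv.refl _) (Conv.pi ?_ (Conv.shift ?_))
  · rw [Expr.shift, Expr.shift, gT_ren]
    exact (sigT_gT g k _ _).conv.symm
  · rw [Expr.shift, Expr.shift, gT_ren]
    exact Conv.step (compT_app g k _ _)

/-! ### Typings -/

/-- A shifted copy of the rules of `λU⁻`, with chosen sorts. -/
structure UMinus (P : Spec S) (g k K : S) : Prop where
  gk : P.ax g k
  kK : P.ax k K
  gg : P.rule g g g
  kg : P.rule k g g
  kk : P.rule k k k
  Kk : P.rule K k k

variable {g k K : S} {Γ : List (Expr S)}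

theorem D.app' {A B M N C : Expr S} (h : D P Γ M (.pi A B)) (hN : D P Γ N A)
    (e : B.inst N = C) : D P Γ (.app M N) C :=
  e ▸ D.app h hN

theorem D.lam' {A B M : Expr S} {a b c : S} (hA : D P Γ A (.sort a))
    (hB : D P (A :: Γ) B (.sort b)) (hr : P.rule a b c) (hM : D P (A :: Γ) M B) :
    D P Γ (.lam A M) (.pi A B) :=
  D.abs hM (D.prod hA hB hr)

theorem D.arr {A B : Expr S} {a b c : S} (hA : D P Γ A (.sort a)) (hB : D P Γ B (.sort b))
    (hr : P.rule a b c) : D P Γ (arrT A B) (.sort c) :=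
  D.prod hA (hB.weaken A) hr

namespace UMinus

variable (h : UMinus P g k K)
include h

theorem pow {X : Expr S} (hX : D P Γ X (.sort k)) : D P Γ (powT g X) (.sort k) :=
  D.prod hX (D.axm h.gk) h.kk

theorem u_typed : D P Γ (uT g k) (.sort k) := by
  have v : D P (Expr.sort k :: Γ) (.var 0) (.sort k) := D.var Lookup.zero
  exact D.prod (D.axm h.kK)
    (D.arr (D.arr (h.pow (h.pow v)) v h.kk) (h.pow (h.pow v)) h.kk) h.Kk

theorem ppU : D P Γ (powT g (powT g (uT g k))) (.sort k) := h.pow (h.pow h.u_typed)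

theorem tau_typed : D P Γ (tauT g k) (arrT (powT g (powT g (uT g k))) (uT g k)) := by
  refine D.lam' h.ppU h.u_typed h.kk ?_
  have v₀ : D P (Expr.sort k :: powT g (powT g (uT g k)) :: Γ) (.var 0) (.sort k) :=
    D.var Lookup.zero
  refine D.lam' (D.axm h.kK) (D.arr (D.arr (h.pow (h.pow v₀)) v₀ h.kk)
    (h.pow (h.pow v₀)) h.kk) h.Kk ?_
  have hF := D.arr (h.pow (h.pow v₀)) v₀ h.kk
  refine D.lam' hF ((h.pow (h.pow v₀)).weaken _) h.kk ?_
  have v₁ : D P (arrT (powT g (powT g (.var 0))) (.var 0) :: Expr.sort k ::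
      powT g (powT g (uT g k)) :: Γ) (.var 1) (.sort k) := D.var (Lookup.succ Lookup.zero)
  refine D.lam' (h.pow v₁) (D.axm h.gk) h.kk ?_
  have vt : D P (powT g (.var 1) :: arrT (powT g (powT g (.var 0))) (.var 0) :: Expr.sort k ::
      powT g (powT g (uT g k)) :: Γ) (.var 3) (powT g (powT g (uT g k))) :=
    D.var (Lookup.succ (Lookup.succ (Lookup.succ Lookup.zero)))
  refine D.app' vt (D.lam' h.u_typed (D.axm h.gk) h.kk ?_) rfl
  let Δ' : List (Expr S) := uT g k :: powT g (.var 1) ::
    arrT (powT g (powT g (.var 0))) (.var 0) :: Expr.sort k :: powT g (powT g (uT g k)) :: Γ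
  have vx : D P Δ' (.var 0) (uT g k) := D.var Lookup.zero
  have vp : D P Δ' (.var 1) (powT g (.var 3)) := D.var (Lookup.succ Lookup.zero)
  have vf : D P Δ' (.var 2) (arrT (powT g (powT g (.var 3))) (.var 3)) :=
    D.var (Lookup.succ (Lookup.succ Lookup.zero))
  have vX : D P Δ' (.var 3) (.sort k) :=
    D.var (Lookup.succ (Lookup.succ (Lookup.succ Lookup.zero)))
  have e₁ : D P Δ' (.app (.var 0) (.var 3))
      (arrT (arrT (powT g (powT g (.var 3))) (.var 3)) (powT g (powT g (.var 3)))) :=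
    D.app' vx vX rfl
  have e₂ : D P Δ' (.app (.app (.var 0) (.var 3)) (.var 2)) (powT g (powT g (.var 3))) :=
    D.app' e₁ vf rfl
  exact D.app' vp (D.app' vf e₂ rfl) rfl

theorem sig_typed {x : Expr S} (hx : D P Γ x (uT g k)) :
    D P Γ (sigT g k x) (powT g (powT g (uT g k))) := by
  have e₁ : D P Γ (.app x (uT g k))
      (arrT (arrT (powT g (powT g (uT g k))) (uT g k)) (powT g (powT g (uT g k)))) :=
    D.app' hx h.u_typed rfl
  exact D.app' e₁ h.tau_typed rfl

theorem g_typed {x : Expr S} (hx : D P Γ x (uT g k)) : D P Γ (gT g k x) (uT g k) :=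
  D.app' h.tau_typed (h.sig_typed hx) rfl

theorem pred_app {p x : Expr S} (hp : D P Γ p (powT g (uT g k))) (hx : D P Γ x (uT g k)) :
    D P Γ (.app p x) (.sort g) :=
  D.app' hp hx rfl

theorem sig_app {x p : Expr S} (hx : D P Γ x (uT g k)) (hp : D P Γ p (powT g (uT g k))) :
    D P Γ (.app (sigT g k x) p) (.sort g) :=
  D.app' (h.sig_typed hx) hp rfl

theorem phi_typed {p : Expr S} (hp : D P Γ p (powT g (uT g k))) :
    D P Γ (phiT g k p) (.sort g) := by
  have hp' : D P (uT g k :: Γ) p.shift (powT g (uT g k)) := hp.weaken _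
  have hx : D P (uT g k :: Γ) (.var 0) (uT g k) := D.var Lookup.zero
  exact D.prod h.u_typed (D.arr (h.sig_app hx hp') (h.pred_app hp' hx) h.gg) h.kg

theorem om_typed : D P Γ (omT g k) (uT g k) :=
  D.app' h.tau_typed
    (D.lam' (h.pow h.u_typed) (D.axm h.gk) h.kk
      (h.phi_typed (D.var Lookup.zero))) rfl

theorem el_typed {x : Expr S} (hx : D P Γ x (uT g k)) : D P Γ (elT g k x) (.sort g) := by
  have hx' : D P (powT g (uT g k) :: Γ) x.shift (uT g k) := hx.weaken _
  have hp : D P (powT g (uT g k) :: Γ) (.var 0) (powT g (uT g k)) := D.var Lookup.zero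
  exact D.prod (h.pow h.u_typed)
    (D.arr (h.sig_app hx' hp) (h.pred_app hp (h.g_typed hx')) h.gg) h.kg

theorem del_typed {i : ℕ} (hb : D P Γ (.var i) (.sort g)) :
    D P Γ (delT g k i) (powT g (uT g k)) := by
  have hb' : D P (uT g k :: Γ) (.var (i + 1)) (.sort g) := hb.weaken _
  exact D.lam' h.u_typed (D.axm h.gk) h.kk
    (D.arr (h.el_typed (D.var Lookup.zero)) hb' h.gg)

theorem comp_typed {i : ℕ} (hp : D P Γ (.var i) (powT g (uT g k))) :
    D P Γ (.lam (uT g k) (.app (.var (i + 1)) (gT g k (.var 0)))) (powT g (uT g k)) := by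
  have hp' : D P (uT g k :: Γ) (.var (i + 1)) (powT g (uT g k)) := hp.weaken _
  exact D.lam' h.u_typed (D.axm h.gk) h.kk
    (h.pred_app hp' (h.g_typed (D.var Lookup.zero)))

theorem proofA_typed : D P [Expr.sort g] (proofA g k) (phiT g k (delT g k 0)) := by
  have hb₀ : D P [Expr.sort g] (.var 0) (.sort g) := D.var Lookup.zero
  let Γ₁ : List (Expr S) := [uT g k, Expr.sort g]
  have hb₁ : D P Γ₁ (.var 1) (.sort g) := hb₀.weaken _
  have hx₁ : D P Γ₁ (.var 0) (uT g k) := D.var Lookup.zero
  have hT₂ := h.sig_app hx₁ (h.del_typed hb₁)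
  let Γ₂ : List (Expr S) := .app (sigT g k (.var 0)) (delT g k 1) :: Γ₁
  have hb₂ : D P Γ₂ (.var 2) (.sort g) := hb₁.weaken _
  have hx₂ : D P Γ₂ (.var 1) (uT g k) := hx₁.weaken _
  have hT₃ := h.el_typed hx₂
  let Γ₃ : List (Expr S) := elT g k (.var 1) :: Γ₂
  have hb₃ : D P Γ₃ (.var 3) (.sort g) := hb₂.weaken _
  have hx₃ : D P Γ₃ (.var 2) (uT g k) := hx₂.weaken _
  have h3 : D P Γ₃ (.var 0) (elT g k (.var 2)) := by
    have := D.var (P := P) (Lookup.zero (Γ := Γ₂) (A := elT g k (.var 1)))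
    simpa [Expr.shift, Expr.ren] using this
  have h2 : D P Γ₃ (.var 1) (.app (sigT g k (.var 2)) (delT g k 3)) := by
    have := D.var (P := P) (Lookup.succ (B := elT g k (.var 1))
      (Lookup.zero (Γ := Γ₁) (A := .app (sigT g k (.var 0)) (delT g k 1))))
    simpa [Expr.shift, Expr.ren] using this
  have e₁ : D P Γ₃ (.app (.var 0) (delT g k 3))
      (arrT (.app (sigT g k (.var 2)) (delT g k 3)) (.app (delT g k 3) (gT g k (.var 2)))) :=
    D.app' h3 (h.del_typed hb₃)
      (by simp [inst, arrT, Expr.sub, Expr.shift, Expr.ren, Expr.up, scons, sub_ren_comp,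
        ren_sub_comp, upRen])
  have e₂ : D P Γ₃ (.app (.app (.var 0) (delT g k 3)) (.var 1))
      (arrT (elT g k (gT g k (.var 2))) (.var 3)) :=
    D.conv (D.app' e₁ h2 (shift_inst _ _)) (D.arr (h.el_typed (h.g_typed hx₃)) hb₃ h.gg)
      (Conv.step (delT_app g k _ _))
  let Γ₄ : List (Expr S) := powT g (uT g k) :: Γ₃
  have hp₄ : D P Γ₄ (.var 0) (powT g (uT g k)) := D.var Lookup.zero
  have h3₄ : D P Γ₄ (.var 1) (elT g k (.var 3)) := by
    have := h3.weaken (powT g (uT g k))
    simpa [Expr.shift, Expr.ren] using this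
  have hx₄ : D P Γ₄ (.var 3) (uT g k) := hx₃.weaken _
  have hq : D P Γ₄ (compT g k (.var 0)) (powT g (uT g k)) := h.comp_typed hp₄
  have e₃ : D P Γ₄ (.app (.var 1) (compT g k (.var 0)))
      (arrT (.app (sigT g k (.var 3)) (compT g k (.var 0)))
        (.app (compT g k (.var 0)) (gT g k (.var 3)))) :=
    D.app' h3₄ hq
      (by simp [inst, arrT, compT, Expr.sub, Expr.shift, Expr.ren, Expr.up, scons, sub_ren_comp,
        ren_sub_comp, upRen])
  have e₄ : D P Γ₃ (.lam (powT g (uT g k)) (.app (.var 1) (compT g k (.var 0))))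
      (elT g k (gT g k (.var 2))) :=
    D.conv
      (D.lam' (h.pow h.u_typed)
        (D.arr (h.sig_app hx₄ hq) (h.pred_app hq (h.g_typed hx₄)) h.gg) h.kg e₃)
      (h.el_typed (h.g_typed hx₃)) (conv_elT_gT g k (.var 2))
  have e₅ : D P Γ₃ (.app (.app (.app (.var 0) (delT g k 3)) (.var 1))
      (.lam (powT g (uT g k)) (.app (.var 1) (compT g k (.var 0))))) (.var 3) :=
    D.app' e₂ e₄ (shift_inst _ _)
  have hinner : D P Γ₂ (.pi (elT g k (.var 1)) (.var 3)) (.sort g) :=
    D.prod hT₃ hb₃ h.gg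
  refine D.conv
    (D.lam' h.u_typed (D.prod hT₂ hinner h.gg) h.kg
      (D.lam' hT₂ hinner h.gg (D.lam' hT₃ hb₃ h.gg e₅)))
    (h.phi_typed (h.del_typed hb₀)) ?_
  have e : Conv (Expr.app (delT g k 0).shift (.var 0)).shift
      (Expr.pi (elT g k (.var 1)) (.var 3)) := by
    have := (Conv.step (delT_app g k 1 (.var 0))).shift
    simpa [Expr.shift, Expr.ren, arrT, upRen] using this
  refine Conv.pi (Conv.refl _) (Conv.pi ?_ e.symm)
  simpa [Expr.shift] using Conv.refl (Expr.app (sigT g k (.var 0)) (delT g k 1))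

theorem proofB_typed : D P [Expr.sort g] (proofB g k) (elT g k (omT g k)) := by
  let Γ₁ : List (Expr S) := [powT g (uT g k), Expr.sort g]
  have hp₁ : D P Γ₁ (.var 0) (powT g (uT g k)) := D.var Lookup.zero
  have hS₁ : D P Γ₁ (.app (sigT g k (omT g k)) (.var 0)) (.sort g) := h.sig_app h.om_typed hp₁
  let Γ₂ : List (Expr S) := .app (sigT g k (omT g k)) (.var 0) :: Γ₁
  have hp₂ : D P Γ₂ (.var 1) (powT g (uT g k)) := hp₁.weaken _
  have hq₂ : D P Γ₂ (compT g k (.var 1)) (powT g (uT g k)) := h.comp_typed hp₂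
  have hS₂ : D P Γ₂ (.var 0) (.app (sigT g k (omT g k)) (.var 1)) := by
    have := D.var (P := P) (Lookup.zero (Γ := Γ₁) (A := .app (sigT g k (omT g k)) (.var 0)))
    simpa [Expr.shift, Expr.ren] using this
  have h1 : D P Γ₂ (.var 0) (phiT g k (compT g k (.var 1))) :=
    D.conv hS₂ (h.phi_typed hq₂) (sigT_omT g k _).conv
  have e₁ : D P Γ₂ (.app (.var 0) (omT g k))
      (arrT (.app (sigT g k (omT g k)) (compT g k (.var 1)))
        (.app (compT g k (.var 1)) (omT g k))) :=
    D.app' h1 h.om_typed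
      (by simp [inst, arrT, compT, Expr.sub, Expr.shift, Expr.ren, Expr.up, scons, upRen])
  let Γ₃ : List (Expr S) := uT g k :: Γ₂
  have hp₃ : D P Γ₃ (.var 2) (powT g (uT g k)) := hp₂.weaken _
  have hx₃ : D P Γ₃ (.var 0) (uT g k) := D.var Lookup.zero
  have hq₃ : D P Γ₃ (compT g k (.var 2)) (powT g (uT g k)) := h.comp_typed hp₃
  have hS₃ : D P Γ₃ (.var 1) (.app (sigT g k (omT g k)) (.var 2)) := by
    have := hS₂.weaken (uT g k)
    simpa [Expr.shift, Expr.ren] using this
  have h1₃ : D P Γ₃ (.var 1) (phiT g k (compT g k (.var 2))) :=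
    D.conv hS₃ (h.phi_typed hq₃) (sigT_omT g k _).conv
  have e₂ : D P Γ₃ (.app (.var 1) (gT g k (.var 0)))
      (arrT (.app (sigT g k (gT g k (.var 0))) (compT g k (.var 2)))
        (.app (compT g k (.var 2)) (gT g k (.var 0)))) :=
    D.app' h1₃ (h.g_typed hx₃)
      (by simp [inst, arrT, compT, Expr.sub, Expr.shift, Expr.ren, Expr.up, scons, upRen])
  have e₃ : D P Γ₂ (.lam (uT g k) (.app (.var 1) (gT g k (.var 0))))
      (.app (sigT g k (omT g k)) (compT g k (.var 1))) := by
    refine D.conv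
      (D.lam' h.u_typed
        (D.arr (h.sig_app (h.g_typed hx₃) hq₃) (h.pred_app hq₃ (h.g_typed hx₃)) h.gg) h.kg e₂)
      (h.sig_app h.om_typed hq₂) ?_
    have := (conv_sigT_omT g k (compT g k (.var 1))).symm
    simpa [Expr.shift, Expr.ren] using this
  have hgoal : D P Γ₂ (.app (.var 1) (gT g k (omT g k))) (.sort g) :=
    h.pred_app hp₂ (h.g_typed h.om_typed)
  have e₄ : D P Γ₂ (.app (.app (.var 0) (omT g k))
      (.lam (uT g k) (.app (.var 1) (gT g k (.var 0))))) (.app (.var 1) (gT g k (omT g k))) :=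
    D.conv (D.app' e₁ e₃ (shift_inst _ _)) hgoal (Conv.step (compT_app g k _ _))
  refine D.conv
    (D.lam' (h.pow h.u_typed) (D.prod hS₁ hgoal h.gg) h.kg (D.lam' hS₁ hgoal h.gg e₄))
    (h.el_typed h.om_typed) ?_
  simpa [elT, arrT, Expr.shift, Expr.ren] using Conv.refl (elT g k (omT g k))

theorem loop_typed : D P [Expr.sort g] (loopT g k) (.var 0) := by
  have hb : D P [Expr.sort g] (.var 0) (.sort g) := D.var Lookup.zero
  let Γ₁ : List (Expr S) := [uT g k, Expr.sort g]
  have hb₁ : D P Γ₁ (.var 1) (.sort g) := hb.weaken _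
  have hx₁ : D P Γ₁ (.var 0) (uT g k) := D.var Lookup.zero
  have hA₁ : D P Γ₁ (proofA g k).shift (phiT g k (delT g k 0)).shift :=
    h.proofA_typed.weaken (uT g k)
  have e₁ : D P Γ₁ (.app (proofA g k).shift (gT g k (.var 0)))
      (arrT (.app (sigT g k (gT g k (.var 0))) (delT g k 1))
        (.app (delT g k 1) (gT g k (.var 0)))) := by
    have hA₂ : D P Γ₁ (proofA g k).shift (phiT g k (delT g k 1)) := by
      have e : (phiT g k (delT g k 0)).shift = phiT g k (delT g k 1) := by
        simp [phiT, arrT, delT, Expr.shift, Expr.ren, upRen]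
      rw [← e]
      exact hA₁
    exact D.app' hA₂ (h.g_typed hx₁)
      (by simp [inst, arrT, delT, Expr.sub, Expr.shift, Expr.ren, Expr.up, scons, upRen])
  have e₂ : D P [Expr.sort g] (.lam (uT g k) (.app (proofA g k).shift (gT g k (.var 0))))
      (.app (sigT g k (omT g k)) (delT g k 0)) := by
    refine D.conv
      (D.lam' h.u_typed
        (D.arr (h.sig_app (h.g_typed hx₁) (h.del_typed hb₁))
          (h.pred_app (h.del_typed hb₁) (h.g_typed hx₁)) h.gg) h.kg e₁)
      (h.sig_app h.om_typed (h.del_typed hb)) ?_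
    have := (conv_sigT_omT g k (delT g k 0)).symm
    simpa [Expr.shift, Expr.ren] using this
  have e₃ : D P [Expr.sort g] (.app (proofA g k) (omT g k))
      (arrT (.app (sigT g k (omT g k)) (delT g k 0)) (.app (delT g k 0) (omT g k))) :=
    D.app' h.proofA_typed h.om_typed
      (by simp [inst, arrT, delT, Expr.sub, Expr.shift, Expr.ren, Expr.up, scons, upRen])
  have e₄ : D P [Expr.sort g] (.app (.app (proofA g k) (omT g k))
      (.lam (uT g k) (.app (proofA g k).shift (gT g k (.var 0)))))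
      (arrT (elT g k (omT g k)) (.var 0)) :=
    D.conv (D.app' e₃ e₂ (shift_inst _ _)) (D.arr (h.el_typed h.om_typed) hb h.gg)
      (Conv.step (delT_app g k _ _))
  exact D.app' e₄ h.proofB_typed (shift_inst _ _)

theorem ctx_ok : CtxOK P [Expr.sort g] := CtxOK.cons CtxOK.nil (Der.axm h.gk)

theorem loop_legal : Legal P (loopT g k) :=
  ⟨[Expr.sort g], .var 0, Or.inl (h.loop_typed.toDer h.ctx_ok)⟩

end UMinus

/-! ### No normal expression inhabits the variable -/

theorem normal_fun_is_lam {g : S} {M : Expr S} : ∀ {A B : Expr S}, (∀ M', ¬ Beta M M') →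
    D P [Expr.sort g] M (.pi A B) → ∃ A' M', M = .lam A' M' := by
  induction M with
  | var i =>
    intro A B _ h
    obtain ⟨T, hl, hc⟩ := gen_var h
    cases hl with
    | zero => exact absurd hc Conv.not_sort_pi
    | succ hl => cases hl
  | sort s =>
    intro A B _ h
    obtain ⟨t, -, hc⟩ := gen_sort h
    exact absurd hc Conv.not_sort_pi
  | app M N ihM _ =>
    intro A B hn h
    obtain ⟨A₁, B₁, hM, -, -⟩ := gen_app h
    obtain ⟨A', M', rfl⟩ := ihM (fun M' hb => hn _ (Beta.appL N hb)) hM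
    exact absurd (Beta.redex A' M' N) (hn _)
  | lam A' M' => intro A B _ _; exact ⟨A', M', rfl⟩
  | pi A' B' =>
    intro A B _ h
    obtain ⟨a, b, c, -, -, -, hc⟩ := gen_pi h
    exact absurd hc Conv.not_sort_pi

theorem no_normal_inhabitant {g : S} {M : Expr S} (hn : ∀ M', ¬ Beta M M') :
    ¬ D P [Expr.sort g] M (.var 0) := by
  intro h
  cases M with
  | var i =>
    obtain ⟨T, hl, hc⟩ := gen_var h
    cases hl with
    | zero => exact Conv.not_var_sort hc.symm
    | succ hl => cases hl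
  | sort s =>
    obtain ⟨t, -, hc⟩ := gen_sort h
    exact Conv.not_var_sort hc.symm
  | app M N =>
    obtain ⟨A, B, hM, -, -⟩ := gen_app h
    obtain ⟨A', M', rfl⟩ := normal_fun_is_lam (fun M' hb => hn _ (Beta.appL N hb)) hM
    exact hn _ (Beta.redex A' M' N)
  | lam A M =>
    obtain ⟨B, s, -, -, hc⟩ := gen_lam h
    exact Conv.not_var_pi hc.symm
  | pi A B =>
    obtain ⟨a, b, c, -, -, -, hc⟩ := gen_pi h
    exact Conv.not_var_sort hc.symm

/-- The pattern destroys weak normalization, in every pure type system. -/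
theorem not_wn_of_pattern (h : LambdaUPattern P) : ¬ WeaklyNormalizing P := by
  obtain ⟨g, k, K, h₁, h₂, h₃, h₄, h₅, h₆⟩ := h
  have hU : UMinus P g k K := ⟨h₁, h₂, h₃, h₄, h₅, h₆⟩
  intro hwn
  obtain ⟨N, hs, hn⟩ := hwn _ hU.loop_legal
  exact no_normal_inhabitant hn
    (hU.loop_typed.steps (WF.cons WF.nil (D.axm h₁)) hs)

end Vale.Agent.P340
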