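import Vale.Agent.P340.Fragment
import Vale.Agent.P340.Paradox

/-!
# Weak normalization, strong normalization and the rule pattern
-/

namespace Vale.Agent.P340

universe u
variable {S : Type u}

open Expr Relation

open Classical in
theorem sn_of_no_seq {M : Expr S}
    (h : ¬ ∃ f : ℕ → Expr S, f 0 = M ∧ ∀ n, Beta (f n) (f (n + 1))) : SN M := by
  by_contra hM
  have hstep : ∀ x : {X : Expr S // ¬ SN X}, ∃ y : {X : Expr S // ¬ SN X}, Beta x.1 y.1 := by
    rintro ⟨X, hX⟩
    by_contra hno
    exact hX (SN.intro fun Y hY => by_contra fun hY' => hno ⟨⟨Y, hY'⟩, hY⟩)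
  choose next hnext using hstep
  exact h ⟨fun n => (next^[n] ⟨M, hM⟩).1, rfl, fun n => by
    simp only [Function.iterate_succ_apply']; exact hnext _⟩

theorem wn_of_sn {P : Spec S} (h : StronglyNormalizing P) : WeaklyNormalizing P :=
  fun M hM => (sn_of_no_seq (h M hM)).normal_form

theorem NonDependent.stratified {P : Spec S} (h : NonDependent P) : Stratified P := by
  refine ⟨h.functional, h.generalized, ReflTransGen P.ax, fun _ => ReflTransGen.refl,
    fun _ _ _ => ReflTransGen.trans, ?_, ?_, fun a b hr => h.nondependent a b b hr, ?_⟩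
  · intro s t h₁ h₂
    rcases ReflTransGen.cases_head h₁ with e | ⟨w, hw, hw'⟩
    · exact e
    · exact absurd (TransGen.head' hw (hw'.trans h₂)) (h.acyclic s)
  · exact fun s t hst => ⟨ReflTransGen.single hst,
      fun e => by subst e; exact h.acyclic s (TransGen.single hst)⟩
  · intro a b b' hr hb
    rcases ReflTransGen.cases_head (h.nondependent a b b hr) with e | ⟨w, hw, hw'⟩
    · exact Or.inr ⟨b', e ▸ hb, ReflTransGen.refl⟩
    · exact Or.inl (h.functional _ _ _ hb hw ▸ hw')

theorem stratified_classification {P : Spec S} (hP : Stratified P) :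
    (WeaklyNormalizing P ↔ StronglyNormalizing P) ∧
      (StronglyNormalizing P ↔ ¬ LambdaUPattern P) := by
  have h₁ : WeaklyNormalizing P → ¬ LambdaUPattern P := fun hw hp => not_wn_of_pattern hp hw
  have h₂ : ¬ LambdaUPattern P → StronglyNormalizing P := fun hn _ hM =>
    (sn_of_no_pattern hP hn hM).not_seq
  exact ⟨⟨fun hw => h₂ (h₁ hw), wn_of_sn⟩, ⟨fun hs => h₁ (wn_of_sn hs), h₂⟩⟩

end Vale.Agent.P340
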