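import Vale.Agent.P340.Normalize

/-!
# Strong normalization of typed expressions

A step either shortens the erasure at the colour of the expression or leaves it unchanged;
steps of the second kind take place inside subexpressions of higher colours.
-/

namespace Vale.Agent.P340

universe u
variable {S : Type u}

open Expr Relation

variable {P : Spec S} {rk : S → ℕ}

/-- A step that does not change the erasure at colour `g`. -/
def Silent (P : Spec S) (g : S) (Y X : Expr S) : Prop :=
  Beta X Y ∧ ∃ Γ, WF P Γ ∧ HasCol P Γ X g ∧ er P g Γ Y = er P g Γ X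

theorem Silent.of_sn {g : S} {M : Expr S} (h : SN M) : Acc (Silent P g) M := by
  induction h with
  | intro X _ ih => exact Acc.intro X fun Y hY => ih Y hY.1

/-- All expressions of a higher colour are strongly normalizing. -/
def HighSN (P : Spec S) (rk : S → ℕ) (g : S) : Prop :=
  ∀ a, rk a < rk g → ∀ Γ M, WF P Γ → HasCol P Γ M a → SN M

open Classical in
theorem silent_app (hN : Nice P rk) (hno : ¬ LambdaUPattern P) {g : S} (hH : HighSN P rk g)
    {M : Expr S} (hM : Acc (Silent P g) M) :
    ∀ {N : Expr S}, Acc (Silent P g) N → Acc (Silent P g) (.app M N) := by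
  have hP := hN.toBasic
  -- the successors of an application
  have key : ∀ {M N Y : Expr S}, Silent P g Y (.app M N) →
      (∃ M', Silent P g M' M ∧ Y = .app M' N) ∨
      (∃ N', Beta N N' ∧ Y = .app M N' ∧ (Silent P g N' N ∨ SN N)) := by
    rintro M N Y ⟨hb, Γ, hw, hc, he⟩
    obtain ⟨A, B, a, -, -, -, -, -, hr, hcM, hcN⟩ := hc.app_inv hP hw
    cases hb with
    | redex A₀ M₀ _ =>
      exfalso
      rcases er_beta hN (Beta.redex A₀ M₀ N) hw hc with h | h
      · obtain ⟨B₀, a₀, hA₀, hM₀, -, hPi₀, -, hcM₀⟩ := hcM.lam_inv hP hw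
        have hsn := er_sn hN hno hw hc
        have hb' : Beta (er P g Γ (.app (.lam A₀ M₀) N))
            ((er P g (A₀ :: Γ) M₀).inst (if col P Γ N = some g then er P g Γ N else cst)) :=
          Beta.redex _ _ _
        have : er P g Γ (M₀.inst N) =
            (er P g (A₀ :: Γ) M₀).inst (if col P Γ N = some g then er P g Γ N else cst) := by
          obtain ⟨A', B', a', hL', hN', hA', -⟩ := hc.app_inv hP hw
          obtain ⟨hcA, -⟩ := (D.unique hP (D.abs hM₀ hPi₀) hL').pi_inj
          have hN₀ : D P Γ N A₀ := D.conv hN' hA₀ hcA.symm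
          refine er_sub hN g (WF.cons hw hA₀) hw (TSub.inst hN₀) ?_ hcM₀
          intro i hi
          cases i with
          | zero =>
            obtain rfl : g = a₀ := hi.zero_inv hP hA₀
            simp [scons, col_eq hP hw (show HasCol P Γ N g from ⟨A₀, hN₀, hA₀⟩)]
          | succ n => rfl
        rw [← this, h] at hb'
        exact hsn.irrefl hb'
      · rw [he] at h
        exact (er_sn hN hno hw hc).irrefl h
    | @appL _ M' _ hb =>
      refine Or.inl ⟨M', ⟨hb, Γ, hw, hcM, ?_⟩, rfl⟩
      simp only [er, Expr.app.injEq] at he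
      exact he.1
    | @appR _ _ N' hb =>
      refine Or.inr ⟨N', hb, rfl, ?_⟩
      by_cases hag : a = g
      · subst hag
        left
        have hcN' := hcN.steps hw (Steps.single hb)
        simp only [er, col_eq hP hw hcN, col_eq hP hw hcN', ↓reduceIte, Expr.app.injEq] at he
        exact ⟨hb, Γ, hw, hcN, he.2⟩
      · exact Or.inr (hH a ((hN.rule_le _ _ hr).resolve_left hag) Γ N hw hcN)
  induction hM with
  | intro M _ ihM =>
    -- first the case of a strongly normalizing argument
    have hsn : ∀ {N : Expr S}, SN N → Acc (Silent P g) (.app M N) := by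
      intro N hN'
      induction hN' with
      | intro N hNacc ihN =>
        refine Acc.intro _ fun Y hY => ?_
        rcases key hY with ⟨M', hM', rfl⟩ | ⟨N', hN', rfl, -⟩
        · exact ihM M' hM' (Silent.of_sn (Acc.intro N hNacc))
        · exact ihN N' hN'
    intro N hN'
    induction hN' with
    | intro N hNacc ihN =>
      refine Acc.intro _ fun Y hY => ?_
      rcases key hY with ⟨M', hM', rfl⟩ | ⟨N', hb, rfl, h | h⟩
      · exact ihM M' hM' (Acc.intro N hNacc)
      · exact ihN N' h
      · exact hsn (h.step hb)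

theorem silent_lam (hN : Nice P rk) {g : S} {A M : Expr S} (hA : SN A)
    (hM : Acc (Silent P g) M) : Acc (Silent P g) (.lam A M) := by
  induction hA generalizing M with
  | intro A _ ihA =>
    induction hM with
    | intro M hMacc ihM =>
      refine Acc.intro _ fun Y hY => ?_
      obtain ⟨hb, Γ, hw, hc, he⟩ := hY
      cases hb with
      | lamL _ hb => exact ihA _ hb (Acc.intro M hMacc)
      | @lamR _ _ M' hb =>
        obtain ⟨B, a, hA', -, -, -, -, hcM⟩ := hc.lam_inv hN.toBasic hw
        simp only [er, Expr.lam.injEq, true_and] at he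
        exact ihM _ ⟨hb, A :: Γ, WF.cons hw hA', hcM, he⟩

open Classical in
theorem silent_pi (hN : Nice P rk) {g : S} (hH : HighSN P rk g) {A : Expr S}
    (hA : Acc (Silent P g) A) :
    ∀ {B : Expr S}, Acc (Silent P g) B → Acc (Silent P g) (.pi A B) := by
  have hP := hN.toBasic
  have key : ∀ {A B Y : Expr S}, Silent P g Y (.pi A B) →
      (∃ A', Beta A A' ∧ Y = .pi A' B ∧ (Silent P g A' A ∨ SN A)) ∨
      (∃ B', Silent P g B' B ∧ Y = .pi A B') := by
    rintro A B Y ⟨hb, Γ, hw, hc, he⟩
    obtain ⟨a, b, a', hA, hB, -, -, -, habove, hcA, hcB⟩ := hc.pi_inv hN hw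
    cases hb with
    | @piL _ A' _ hb =>
      refine Or.inl ⟨A', hb, rfl, ?_⟩
      by_cases hag : a' = g
      · subst hag
        left
        have hcA' := hcA.steps hw (Steps.single hb)
        simp only [er, skPi, col_eq hP hw hcA, col_eq hP hw hcA', ↓reduceIte, Expr.app.injEq,
          Expr.pi.injEq] at he
        exact ⟨hb, Γ, hw, hcA, he.1.2⟩
      · exact Or.inr (hH a' (habove.resolve_left hag) Γ A hw hcA)
    | @piR _ _ B' hb =>
      refine Or.inr ⟨B', ⟨hb, A :: Γ, WF.cons hw hA, hcB, ?_⟩, rfl⟩
      simp only [er, skPi, Expr.pi.injEq] at he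
      exact he.2
  have hsn : ∀ {A : Expr S}, SN A → ∀ {B : Expr S}, Acc (Silent P g) B →
      Acc (Silent P g) (.pi A B) := by
    intro A h
    induction h with
    | intro A hAacc ih =>
      intro B hB
      induction hB with
      | intro B hBacc ihB =>
        refine Acc.intro _ fun Y hY => ?_
        rcases key hY with ⟨A', hb, rfl, -⟩ | ⟨B', hB', rfl⟩
        · exact ih A' hb (Acc.intro B hBacc)
        · exact ihB B' hB'
  induction hA with
  | intro A _ ihA =>
    intro B hB
    induction hB with
    | intro B hBacc ihB =>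
      refine Acc.intro _ fun Y hY => ?_
      rcases key hY with ⟨A', hb, rfl, h | h⟩ | ⟨B', hB', rfl⟩
      · exact ihA A' h (Acc.intro B hBacc)
      · exact hsn (h.step hb) (Acc.intro B hBacc)
      · exact ihB B' hB'

/-- Silent steps terminate. -/
theorem silent_acc (hN : Nice P rk) (hno : ¬ LambdaUPattern P) {g : S} (hH : HighSN P rk g)
    {M : Expr S} {Γ : List (Expr S)} (hw : WF P Γ) (hM : HasCol P Γ M g) :
    Acc (Silent P g) M := by
  have hP := hN.toBasic
  induction M generalizing Γ with
  | var i => exact Silent.of_sn (SN.var i)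
  | sort s => exact Silent.of_sn (SN.sort s)
  | app M N ihM ihN =>
    obtain ⟨A, B, a, -, -, -, -, -, hr, hcM, hcN⟩ := hM.app_inv hP hw
    refine silent_app hN hno hH (ihM hw hcM) ?_
    rcases hN.rule_le _ _ hr with rfl | h
    · exact ihN hw hcN
    · exact Silent.of_sn (hH a h Γ N hw hcN)
  | lam A M _ ihM =>
    obtain ⟨B, a, hA, -, -, -, hr, hcM⟩ := hM.lam_inv hP hw
    obtain ⟨a', ha', hlt⟩ := HasCol.lam_dom hN hr
    exact silent_lam hN (hH a' hlt Γ A hw (HasCol.of_sort hA ha')) (ihM (WF.cons hw hA) hcM)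
  | pi A B ihA ihB =>
    obtain ⟨a, b, a', hA, -, -, -, -, habove, hcA, hcB⟩ := hM.pi_inv hN hw
    refine silent_pi hN hH ?_ (ihB (WF.cons hw hA) hcB)
    rcases habove with rfl | h
    · exact ihA hw hcA
    · exact Silent.of_sn (hH a' h Γ A hw hcA)

theorem sn_of_hasCol (hN : Nice P rk) (hno : ¬ LambdaUPattern P) (c : S) :
    ∀ Γ M, WF P Γ → HasCol P Γ M c → SN M := by
  induction hn : rk c using Nat.strong_induction_on generalizing c with
  | _ n ih =>
    have hH : HighSN P rk c := fun a ha => ih (rk a) (hn ▸ ha) a rfl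
    intro Γ M hw hM
    have hsn : SN (er P c Γ M) := er_sn hN hno hw hM
    generalize hX : er P c Γ M = X at hsn
    induction hsn generalizing M with
    | intro X _ ihX =>
      have hacc := silent_acc hN hno hH hw hM
      induction hacc with
      | intro M _ ihM =>
        refine SN.intro fun M' hb => ?_
        have hM' := hM.steps hw (Steps.single hb)
        rcases er_beta hN hb hw hM with h | h
        · exact ihM M' ⟨hb, Γ, hw, hM, h⟩ hM' (h.trans hX)
        · exact ihX _ (hX ▸ h) M' hM' rfl

theorem sn_of_typed (hN : Nice P rk) (hno : ¬ LambdaUPattern P) {Γ : List (Expr S)}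
    (hw : WF P Γ) {M T : Expr S} (h : D P Γ M T) : SN M := by
  rcases h.correctness hw with ⟨t, rfl⟩ | ⟨s, hs⟩
  swap
  · exact sn_of_hasCol hN hno s Γ M hw ⟨T, h, hs⟩
  by_cases ht : ∃ k, P.ax t k
  · obtain ⟨k, hk⟩ := ht
    exact sn_of_hasCol hN hno k Γ M hw ⟨_, h, D.axm hk⟩
  -- `t` is a sort without a sort: only sorts can have type `t`
  have hfalse : ∀ {A : Expr S} {s : S}, D P Γ A (.sort s) → ¬ Conv A (.sort t) := by
    intro A s hA hc
    obtain ⟨k, hk, -⟩ := gen_sort (hA.steps hw hc.steps_to_sort)
    exact ht ⟨k, hk⟩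
  cases M with
  | var i => exact SN.var i
  | sort s => exact SN.sort s
  | app M N =>
    obtain ⟨A, B, hM, hN', hc⟩ := gen_app h
    obtain ⟨a, b, e, -, hB, -, -⟩ := hM.pi_type hw
    exact absurd hc (hfalse (hB.inst hN'))
  | lam A M =>
    obtain ⟨B, s, -, -, hc⟩ := gen_lam h
    exact absurd hc.symm Conv.not_sort_pi
  | pi A B =>
    obtain ⟨a, b, e, -, -, hr, hc⟩ := gen_pi h
    obtain rfl : e = b := hN.generalized _ _ _ hr
    obtain rfl := hc.sort_eq
    obtain ⟨-, k, hk⟩ := hN.succs _ _ hr
    exact absurd ⟨k, hk⟩ ht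

/-- Subjects and types of derivations are strongly normalizing. -/
theorem sn_of_der (hN : Nice P rk) (hno : ¬ LambdaUPattern P) {Γ : List (Expr S)}
    {M T : Expr S} (h : Der P Γ M T) : SN M ∧ SN T := by
  obtain ⟨hw, hD⟩ := h.toD
  refine ⟨sn_of_typed hN hno hw hD, ?_⟩
  rcases hD.correctness hw with ⟨t, rfl⟩ | ⟨s, hs⟩
  · exact SN.sort t
  · exact sn_of_typed hN hno hw hs

end Vale.Agent.P340
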