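import Vale.Agent.P340.Subst

/-!
# The Church-Rosser theorem (parallel reduction)
-/

namespace Vale.Agent.P340

universe u
variable {S : Type u}

open Expr Relation

/-- Parallel β-reduction. -/
inductive Par : Expr S → Expr S → Prop
  | var (i : ℕ) : Par (.var i) (.var i)
  | sort (s : S) : Par (.sort s) (.sort s)
  | app {M M' N N' : Expr S} : Par M M' → Par N N' → Par (.app M N) (.app M' N')
  | lam {A A' M M' : Expr S} : Par A A' → Par M M' → Par (.lam A M) (.lam A' M')
  | pi {A A' M M' : Expr S} : Par A A' → Par M M' → Par (.pi A M) (.pi A' M')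
  | redex (A : Expr S) {M M' N N' : Expr S} :
      Par M M' → Par N N' → Par (.app (.lam A M) N) (M'.inst N')

namespace Par

theorem refl (M : Expr S) : Par M M := by
  induction M with
  | var i => exact Par.var i
  | sort s => exact Par.sort s
  | app M N ih₁ ih₂ => exact Par.app ih₁ ih₂
  | lam A M ih₁ ih₂ => exact Par.lam ih₁ ih₂
  | pi A M ih₁ ih₂ => exact Par.pi ih₁ ih₂

theorem of_beta {M N : Expr S} (h : Beta M N) : Par M N := by
  induction h with
  | redex A M N => exact Par.redex A (refl M) (refl N)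
  | appL N _ ih => exact Par.app ih (refl N)
  | appR M _ ih => exact Par.app (refl M) ih
  | lamL M _ ih => exact Par.lam ih (refl M)
  | lamR A _ ih => exact Par.lam (refl A) ih
  | piL M _ ih => exact Par.pi ih (refl M)
  | piR A _ ih => exact Par.pi (refl A) ih

theorem steps {M N : Expr S} (h : Par M N) : Steps M N := by
  induction h with
  | var i => exact Steps.refl _
  | sort s => exact Steps.refl _
  | app _ _ ih₁ ih₂ => exact Steps.app ih₁ ih₂
  | lam _ _ ih₁ ih₂ => exact Steps.lam ih₁ ih₂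
  | pi _ _ ih₁ ih₂ => exact Steps.pi ih₁ ih₂
  | redex A _ _ ih₁ ih₂ =>
    exact (Steps.app (Steps.lam (Steps.refl A) ih₁) ih₂).trans
      (Steps.single (Beta.redex _ _ _))

theorem ren {M N : Expr S} (h : Par M N) (ρ : ℕ → ℕ) : Par (M.ren ρ) (N.ren ρ) := by
  induction h generalizing ρ with
  | var i => exact Par.var _
  | sort s => exact Par.sort _
  | app _ _ ih₁ ih₂ => exact Par.app (ih₁ _) (ih₂ _)
  | lam _ _ ih₁ ih₂ => exact Par.lam (ih₁ _) (ih₂ _)
  | pi _ _ ih₁ ih₂ => exact Par.pi (ih₁ _) (ih₂ _)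
  | redex A _ _ ih₁ ih₂ => rw [inst_ren_comm]; exact Par.redex _ (ih₁ _) (ih₂ _)

theorem up {σ τ : ℕ → Expr S} (h : ∀ i, Par (σ i) (τ i)) :
    ∀ i, Par (Expr.up σ i) (Expr.up τ i)
  | 0 => Par.var 0
  | n + 1 => (h n).ren _

theorem sub {M N : Expr S} (h : Par M N) {σ τ : ℕ → Expr S} (hσ : ∀ i, Par (σ i) (τ i)) :
    Par (M.sub σ) (N.sub τ) := by
  induction h generalizing σ τ with
  | var i => exact hσ i
  | sort s => exact Par.sort _
  | app _ _ ih₁ ih₂ => exact Par.app (ih₁ hσ) (ih₂ hσ)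
  | lam _ _ ih₁ ih₂ => exact Par.lam (ih₁ hσ) (ih₂ (up hσ))
  | pi _ _ ih₁ ih₂ => exact Par.pi (ih₁ hσ) (ih₂ (up hσ))
  | redex A _ _ ih₁ ih₂ => rw [inst_sub_comm]; exact Par.redex _ (ih₁ (up hσ)) (ih₂ hσ)

theorem inst {M M' N N' : Expr S} (h : Par M M') (h' : Par N N') :
    Par (M.inst N) (M'.inst N') := by
  refine sub h ?_
  intro i; cases i with
  | zero => exact h'
  | succ n => exact Par.var n

end Par

/-- The complete development of an expression. -/
def dev : Expr S → Expr S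
  | .var i => .var i
  | .sort s => .sort s
  | .app (.lam _ M) N => (dev M).inst (dev N)
  | .app (.var i) N => .app (.var i) (dev N)
  | .app (.sort s) N => .app (.sort s) (dev N)
  | .app (.app M₁ M₂) N => .app (dev (.app M₁ M₂)) (dev N)
  | .app (.pi A B) N => .app (dev (.pi A B)) (dev N)
  | .lam A M => .lam (dev A) (dev M)
  | .pi A B => .pi (dev A) (dev B)

theorem Par.to_dev {M N : Expr S} (h : Par M N) : Par N (dev M) := by
  induction h with
  | var i => exact Par.var i
  | sort s => exact Par.sort s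
  | @app M M' N N' h₁ h₂ ih₁ ih₂ =>
    cases M with
    | lam A M₀ =>
      cases h₁ with
      | lam hA hM =>
        simp only [dev] at ih₁ ⊢
        cases ih₁ with
        | lam _ hM' => exact Par.redex _ hM' ih₂
    | var i => simp only [dev] at ih₁ ⊢; exact Par.app ih₁ ih₂
    | sort s => simp only [dev] at ih₁ ⊢; exact Par.app ih₁ ih₂
    | app M₁ M₂ =>
      show Par (M'.app N') (dev (((M₁.app M₂)).app N))
      simp only [dev]
      exact Par.app ih₁ ih₂
    | pi A B =>
      show Par (M'.app N') (dev ((Expr.pi A B).app N))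
      simp only [dev] at ih₁ ⊢
      exact Par.app ih₁ ih₂
  | lam _ _ ih₁ ih₂ => exact Par.lam ih₁ ih₂
  | pi _ _ ih₁ ih₂ => exact Par.pi ih₁ ih₂
  | redex A _ _ ih₁ ih₂ => exact Par.inst ih₁ ih₂

theorem confluence {M N K : Expr S} (h : Steps M N) (h' : Steps M K) :
    ∃ L, Steps N L ∧ Steps K L := by
  have toPar : ∀ {X Y : Expr S}, Steps X Y → ReflTransGen Par X Y := by
    intro X Y hXY
    induction hXY with
    | refl => exact ReflTransGen.refl
    | tail _ hb ih => exact ReflTransGen.tail ih (Par.of_beta hb)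
  have ofPar : ∀ {X Y : Expr S}, ReflTransGen Par X Y → Steps X Y := by
    intro X Y hXY
    induction hXY with
    | refl => exact Steps.refl _
    | tail _ hb ih => exact ih.trans hb.steps
  obtain ⟨L, hL, hL'⟩ := church_rosser
    (fun a b c (hab : Par a b) (hac : Par a c) =>
      ⟨dev a, ReflGen.single hab.to_dev, ReflTransGen.single hac.to_dev⟩)
    (toPar h) (toPar h')
  exact ⟨L, ofPar hL, ofPar hL'⟩

namespace Conv

theorem refl (M : Expr S) : Conv M M := EqvGen.refl M
theorem symm {M N : Expr S} (h : Conv M N) : Conv N M := EqvGen.symm _ _ h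
theorem trans {M N K : Expr S} (h : Conv M N) (h' : Conv N K) : Conv M K :=
  EqvGen.trans _ _ _ h h'
theorem step {M N : Expr S} (h : Beta M N) : Conv M N := EqvGen.rel _ _ h

theorem join {M N : Expr S} (h : Conv M N) : ∃ L, Steps M L ∧ Steps N L := by
  induction h with
  | rel M N h => exact ⟨N, Steps.single h, Steps.refl _⟩
  | refl M => exact ⟨M, Steps.refl _, Steps.refl _⟩
  | symm M N _ ih => obtain ⟨L, h₁, h₂⟩ := ih; exact ⟨L, h₂, h₁⟩
  | trans M N K _ _ ih₁ ih₂ =>
    obtain ⟨L₁, a₁, b₁⟩ := ih₁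
    obtain ⟨L₂, a₂, b₂⟩ := ih₂
    obtain ⟨L, hL₁, hL₂⟩ := confluence b₁ a₂
    exact ⟨L, a₁.trans hL₁, b₂.trans hL₂⟩

theorem map {f : Expr S → Expr S} (hf : ∀ M N, Beta M N → Beta (f M) (f N))
    {M N : Expr S} (h : Conv M N) : Conv (f M) (f N) := by
  induction h with
  | rel M N h => exact step (hf _ _ h)
  | refl M => exact refl _
  | symm M N _ ih => exact ih.symm
  | trans M N K _ _ ih₁ ih₂ => exact ih₁.trans ih₂

theorem ren {M N : Expr S} (h : Conv M N) (ρ : ℕ → ℕ) : Conv (M.ren ρ) (N.ren ρ) :=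
  map (f := fun X => X.ren ρ) (fun _ _ hh => hh.ren ρ) h

theorem shift {M N : Expr S} (h : Conv M N) : Conv M.shift N.shift := h.ren _

theorem sub {M N : Expr S} (h : Conv M N) (σ : ℕ → Expr S) : Conv (M.sub σ) (N.sub σ) :=
  map (f := fun X => X.sub σ) (fun _ _ hh => hh.sub σ) h

theorem sort_eq {s t : S} (h : Conv (Expr.sort s) (Expr.sort t)) : s = t := by
  obtain ⟨L, h₁, h₂⟩ := h.join
  have := h₁.sort_inv.symm.trans h₂.sort_inv
  simpa using this

theorem not_sort_pi {s : S} {A B : Expr S} : ¬ Conv (Expr.sort s) (Expr.pi A B) := by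
  intro h
  obtain ⟨L, h₁, h₂⟩ := h.join
  obtain ⟨A', B', rfl, -, -⟩ := h₂.pi_inv
  exact absurd h₁.sort_inv (by simp)

theorem pi_inj {A B A' B' : Expr S} (h : Conv (Expr.pi A B) (Expr.pi A' B')) :
    Conv A A' ∧ Conv B B' := by
  obtain ⟨L, h₁, h₂⟩ := h.join
  obtain ⟨A₁, B₁, rfl, a₁, b₁⟩ := h₁.pi_inv
  obtain ⟨A₂, B₂, e, a₂, b₂⟩ := h₂.pi_inv
  simp only [Expr.pi.injEq] at e
  obtain ⟨rfl, rfl⟩ := e
  exact ⟨a₁.conv.trans a₂.conv.symm, b₁.conv.trans b₂.conv.symm⟩

theorem steps_to_sort {M : Expr S} {s : S} (h : Conv M (Expr.sort s)) :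
    Steps M (Expr.sort s) := by
  obtain ⟨L, h₁, h₂⟩ := h.join
  rw [h₂.sort_inv] at h₁
  exact h₁

theorem not_var_sort {i : ℕ} {s : S} : ¬ Conv (Expr.var i) (Expr.sort s) := by
  intro h
  exact absurd h.steps_to_sort.var_inv (by simp)

theorem not_var_pi {i : ℕ} {A B : Expr S} : ¬ Conv (Expr.var i) (Expr.pi A B) := by
  intro h
  obtain ⟨L, h₁, h₂⟩ := h.join
  obtain ⟨A', B', rfl, -, -⟩ := h₂.pi_inv
  exact absurd h₁.var_inv (by simp)

theorem app {M M' N N' : Expr S} (h : Conv M M') (h' : Conv N N') :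
    Conv (Expr.app M N) (Expr.app M' N') :=
  (map (f := fun X => Expr.app X N) (fun _ _ hh => Beta.appL _ hh) h).trans
    (map (f := fun X => Expr.app M' X) (fun _ _ hh => Beta.appR _ hh) h')

theorem lam {M M' N N' : Expr S} (h : Conv M M') (h' : Conv N N') :
    Conv (Expr.lam M N) (Expr.lam M' N') :=
  (map (f := fun X => Expr.lam X N) (fun _ _ hh => Beta.lamL _ hh) h).trans
    (map (f := fun X => Expr.lam M' X) (fun _ _ hh => Beta.lamR _ hh) h')

theorem pi {M M' N N' : Expr S} (h : Conv M M') (h' : Conv N N') :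
    Conv (Expr.pi M N) (Expr.pi M' N') :=
  (map (f := fun X => Expr.pi X N) (fun _ _ hh => Beta.piL _ hh) h).trans
    (map (f := fun X => Expr.pi M' X) (fun _ _ hh => Beta.piR _ hh) h')

theorem sub_congr (M : Expr S) {σ τ : ℕ → Expr S} (h : ∀ i, Conv (σ i) (τ i)) :
    Conv (M.sub σ) (M.sub τ) := by
  induction M generalizing σ τ with
  | var i => exact h i
  | sort s => exact refl _
  | app M N ih₁ ih₂ => exact app (ih₁ h) (ih₂ h)
  | lam A M ih₁ ih₂ =>
    refine lam (ih₁ h) (ih₂ ?_)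
    intro i; cases i with
    | zero => exact refl _
    | succ n => exact (h n).shift
  | pi A M ih₁ ih₂ =>
    refine pi (ih₁ h) (ih₂ ?_)
    intro i; cases i with
    | zero => exact refl _
    | succ n => exact (h n).shift

end Conv

/-- Two normal forms of the same expression are equal. -/
theorem normal_unique {M N N' : Expr S} (h : Steps M N) (hn : ∀ K, ¬ Beta N K)
    (h' : Steps M N') (hn' : ∀ K, ¬ Beta N' K) : N = N' := by
  obtain ⟨L, h₁, h₂⟩ := confluence h h'
  have e₁ : N = L := by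
    rcases ReflTransGen.cases_head h₁ with h | ⟨c, hc, -⟩
    · exact h
    · exact absurd hc (hn c)
  have e₂ : N' = L := by
    rcases ReflTransGen.cases_head h₂ with h | ⟨c, hc, -⟩
    · exact h
    · exact absurd hc (hn' c)
  exact e₁.trans e₂.symm

end Vale.Agent.P340
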