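import Mathlib.Data.Nat.Notation
import Mathlib.Logic.Relation

/-!
# Pure type systems: the definitions used by the statement

Expressions are written with de Bruijn indices (so they are automatically taken modulo
renaming of bound variables). A context lists the types of its variables, the most recently
declared variable first.
-/

namespace Vale.Agent.P340

universe u

/-- Expressions `x | s | M N | λ A. M | Π A. B` (de Bruijn indices). -/
inductive Expr (S : Type u) : Type u
  | var : ℕ → Expr S
  | sort : S → Expr S
  | app : Expr S → Expr S → Expr S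
  | lam : Expr S → Expr S → Expr S
  | pi : Expr S → Expr S → Expr S

variable {S : Type u}

/-- Extend a renaming under one binder. -/
def upRen (ρ : ℕ → ℕ) : ℕ → ℕ
  | 0 => 0
  | n + 1 => ρ n + 1

namespace Expr

/-- Renaming of free variables. -/
def ren : Expr S → (ℕ → ℕ) → Expr S
  | .var i, ρ => .var (ρ i)
  | .sort s, _ => .sort s
  | .app M N, ρ => .app (M.ren ρ) (N.ren ρ)
  | .lam A M, ρ => .lam (A.ren ρ) (M.ren (upRen ρ))
  | .pi A B, ρ => .pi (A.ren ρ) (B.ren (upRen ρ))

/-- Shift all free variables by one. -/
def shift (M : Expr S) : Expr S := M.ren Nat.succ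

/-- Extend a substitution under one binder. -/
def up (σ : ℕ → Expr S) : ℕ → Expr S
  | 0 => .var 0
  | n + 1 => (σ n).shift

/-- Capture avoiding simultaneous substitution. -/
def sub : Expr S → (ℕ → Expr S) → Expr S
  | .var i, σ => σ i
  | .sort s, _ => .sort s
  | .app M N, σ => .app (M.sub σ) (N.sub σ)
  | .lam A M, σ => .lam (A.sub σ) (M.sub (up σ))
  | .pi A B, σ => .pi (A.sub σ) (B.sub (up σ))

/-- The substitution sending variable `0` to `N` and lowering all others by one. -/
def scons (N : Expr S) (σ : ℕ → Expr S) : ℕ → Expr S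
  | 0 => N
  | n + 1 => σ n

/-- `B.inst N` is `B[0 := N]`. -/
def inst (B N : Expr S) : Expr S := B.sub (scons N .var)

end Expr

open Expr

/-- One β-step: the compatible closure of `(λ A. M) N → M[0 := N]`. -/
inductive Beta : Expr S → Expr S → Prop
  | redex (A M N : Expr S) : Beta (.app (.lam A M) N) (M.inst N)
  | appL {M M' : Expr S} (N : Expr S) : Beta M M' → Beta (.app M N) (.app M' N)
  | appR (M : Expr S) {N N' : Expr S} : Beta N N' → Beta (.app M N) (.app M N')
  | lamL {A A' : Expr S} (M : Expr S) : Beta A A' → Beta (.lam A M) (.lam A' M)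
  | lamR (A : Expr S) {M M' : Expr S} : Beta M M' → Beta (.lam A M) (.lam A M')
  | piL {A A' : Expr S} (B : Expr S) : Beta A A' → Beta (.pi A B) (.pi A' B)
  | piR (A : Expr S) {B B' : Expr S} : Beta B B' → Beta (.pi A B) (.pi A B')

/-- β-equality, the equivalence relation generated by β-steps. -/
def Conv : Expr S → Expr S → Prop := Relation.EqvGen Beta

/-- A pure type specification: axioms and rules over an arbitrary type of sorts. -/
structure Spec (S : Type u) where
  /-- `ax s t` means `(s, t) ∈ 𝒜`. -/
  ax : S → S → Prop
  /-- `rule a b c` means `(a, b, c) ∈ ℛ`. -/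
  rule : S → S → S → Prop

/-- The typing judgment `Γ ⊢ M : B`, given by the seven rules. -/
inductive Der (P : Spec S) : List (Expr S) → Expr S → Expr S → Prop
  | axm {s t : S} : P.ax s t → Der P [] (.sort s) (.sort t)
  | var {Γ : List (Expr S)} {A : Expr S} {s : S} :
      Der P Γ A (.sort s) → Der P (A :: Γ) (.var 0) A.shift
  | weak {Γ : List (Expr S)} {M B A : Expr S} {s : S} :
      Der P Γ M B → Der P Γ A (.sort s) → Der P (A :: Γ) M.shift B.shift
  | prod {Γ : List (Expr S)} {A B : Expr S} {a b c : S} :
      Der P Γ A (.sort a) → Der P (A :: Γ) B (.sort b) → P.rule a b c →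
      Der P Γ (.pi A B) (.sort c)
  | abs {Γ : List (Expr S)} {A B M : Expr S} {s : S} :
      Der P (A :: Γ) M B → Der P Γ (.pi A B) (.sort s) → Der P Γ (.lam A M) (.pi A B)
  | app {Γ : List (Expr S)} {A B M N : Expr S} :
      Der P Γ M (.pi A B) → Der P Γ N A → Der P Γ (.app M N) (B.inst N)
  | conv {Γ : List (Expr S)} {M A B : Expr S} {s : S} :
      Der P Γ M A → Der P Γ B (.sort s) → Conv A B → Der P Γ M B

/-- An expression is legal if it is the subject or the type of a derivable judgment. -/
def Legal (P : Spec S) (M : Expr S) : Prop :=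
  ∃ Γ T, Der P Γ M T ∨ Der P Γ T M

/-- Every legal expression β-reduces to a β-normal form. -/
def WeaklyNormalizing (P : Spec S) : Prop :=
  ∀ M, Legal P M → ∃ N, Relation.ReflTransGen Beta M N ∧ ∀ N', ¬ Beta N N'

/-- No legal expression starts an infinite β-reduction sequence. -/
def StronglyNormalizing (P : Spec S) : Prop :=
  ∀ M, Legal P M → ¬ ∃ f : ℕ → Expr S, f 0 = M ∧ ∀ n, Beta (f n) (f (n + 1))

/-- Generalized non-dependent specification, in the usual sense: axioms are functional, rules
have the form `(a, b, b)`, no sort reaches itself by a nonempty chain of axioms, and in a rule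
`(a, b, b)` the sort `a` is reached from `b` by a (possibly empty) chain of axioms. -/
structure NonDependent (P : Spec S) : Prop where
  functional : ∀ s t t', P.ax s t → P.ax s t' → t = t'
  generalized : ∀ a b c, P.rule a b c → c = b
  acyclic : ∀ s, ¬ Relation.TransGen P.ax s s
  nondependent : ∀ a b c, P.rule a b c → Relation.ReflTransGen P.ax b a

/-- A wider class: axioms are functional, rules have the form `(a, b, b)`, and some partial
order `le` on sorts makes every axiom strictly increasing, has `b ≤ a` for every rule
`(a, b, b)`, and, if moreover `(b, b')` is an axiom, has `b' ≤ a` or `b' ≤ a'` for an axiom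
`(a, a')`. -/
structure Stratified (P : Spec S) : Prop where
  functional : ∀ s t t', P.ax s t → P.ax s t' → t = t'
  generalized : ∀ a b c, P.rule a b c → c = b
  ordered : ∃ le : S → S → Prop, (∀ s, le s s) ∧ (∀ s t w, le s t → le t w → le s w) ∧
    (∀ s t, le s t → le t s → s = t) ∧
    (∀ s t, P.ax s t → le s t ∧ s ≠ t) ∧
    (∀ a b, P.rule a b b → le b a) ∧
    (∀ a b b', P.rule a b b → P.ax b b' → le b' a ∨ ∃ a', P.ax a a' ∧ le b' a')

/-- A shifted copy of the rules of the inconsistent system `λU⁻` sits inside `P`: sorts
`g : k : K` with the four rules `(g,g)`, `(k,g)`, `(k,k)`, `(K,k)`. -/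
def LambdaUPattern (P : Spec S) : Prop :=
  ∃ g k K, P.ax g k ∧ P.ax k K ∧
    P.rule g g g ∧ P.rule k g g ∧ P.rule k k k ∧ P.rule K k k

end Vale.Agent.P340
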