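import Vale.Agent.P340.SemSubst

/-!
# Equations for shapes and reducible skeletons
-/

namespace Vale.Agent.P340

universe u
variable {S : Type u}

open Expr Relation

variable {P : Spec S} {rk : S → ℕ}

/-! ### Shapes of normal skeletons -/

theorem tree_ren (c : S) : ∀ (t : Sk S) (ρ : ℕ → ℕ), tree c (t.ren ρ) = tree c t
  | .var _, _ => rfl
  | .sort _, _ => rfl
  | .app _ _, _ => rfl
  | .lam _ _, _ => rfl
  | .pi (.var _) _, _ => rfl
  | .pi (.sort _) _, _ => rfl
  | .pi (.lam _ _) _, _ => rfl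
  | .pi (.pi _ _) _, _ => rfl
  | .pi (.app (.var _) _) _, _ => rfl
  | .pi (.app (.app _ _) _) _, _ => rfl
  | .pi (.app (.lam _ _) _) _, _ => rfl
  | .pi (.app (.pi _ _) _) _, _ => rfl
  | .pi (.app (.sort none) _) _, _ => rfl
  | .pi (.app (.sort (some (a, b))) A) B, ρ => by
    simp only [Expr.ren, tree, tree_ren c A, tree_ren c B]

theorem normal_ren {t : Sk S} (h : ∀ v, ¬ Beta t v) (ρ : ℕ → ℕ) :
    ∀ v, ¬ Beta (t.ren ρ) v := by
  intro v hv
  obtain ⟨t', ht', -⟩ := hv.ren_inv
  exact h t' ht'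

theorem treeNF_ren (c : S) {t : Sk S} (h : SN t) (ρ : ℕ → ℕ) :
    treeNF c (t.ren ρ) = treeNF c t := by
  obtain ⟨h₁, h₂⟩ := nfSk_spec h
  rw [treeNF, treeNF, nfSk_eq (h₁.ren ρ) (normal_ren h₂ ρ), tree_ren]

theorem treeNF_skPi (c : S) (a b : Option S) {A B : Sk S} (hA : SN A) (hB : SN B) :
    treeNF c (skPi a b A B) = tree c (skPi a b (nfSk A) (nfSk B)) := by
  obtain ⟨a₁, a₂⟩ := nfSk_spec hA
  obtain ⟨b₁, b₂⟩ := nfSk_spec hB
  rw [treeNF, nfSk_eq (u := skPi a b (nfSk A) (nfSk B))]
  · exact Steps.pi (Steps.app (Steps.refl _) a₁) b₁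
  · intro v hv
    cases hv with
    | piL _ h =>
      cases h with
      | appL _ h => cases h
      | appR _ h => exact a₂ _ h
    | piR _ h => exact b₂ _ h

theorem treeNF_cst (c : S) : treeNF c (cst : Sk S) = .base := by
  rw [treeNF, nfSk_eq (Steps.refl _) cst_normal]
  rfl

theorem shape_sort (c s : S) (Γ : List (Expr S)) (e : Env S) :
    shape P c Γ (.sort s) e = .base := by
  by_cases h : P.rule c c c ∧ ∃ k, P.ax c k
  · rw [shape, dif_pos h]
    simp only [er, cst_sub, treeNF_cst]
  · rw [shape, dif_neg h]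

theorem shape_conv (hN : Nice P rk) {Γ : List (Expr S)} (hw : WF P Γ) {c : S} {T T' : Expr S}
    (hT : D P Γ T (.sort c)) (hT' : D P Γ T' (.sort c)) (h : Conv T T') (e : Env S) :
    shape P c Γ T e = shape P c Γ T' e := by
  by_cases hR : P.rule c c c ∧ ∃ k, P.ax c k
  · obtain ⟨hR, k, hk⟩ := hR
    obtain ⟨L, h₁, h₂⟩ := h.join
    rw [shape_eq hN.toBasic hR hk, shape_eq hN.toBasic hR hk, treeNF, treeNF]
    refine congrArg (tree c) (nfSk_conv (Conv.sub ?_ _))
    exact (er_steps hN h₁ hw (HasCol.of_sort hT hk)).conv.trans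
      (er_steps hN h₂ hw (HasCol.of_sort hT' hk)).conv.symm
  · rw [shape, dif_neg hR, shape, dif_neg hR]

/-- The shape of a type does not depend on variables of other colours. -/
theorem shape_ext (hN : Nice P rk) {Γ : List (Expr S)} (hw : WF P Γ) {A B : Expr S} {a c : S}
    (hA : D P Γ A (.sort a)) (hB : D P (A :: Γ) B (.sort c))
    (hne : P.rule c c c → ∀ k, P.ax c k → a ≠ k) (ε ε' : Entry S) (e : Env S) :
    shape P c (A :: Γ) B (econs ε e) = shape P c (A :: Γ) B (econs ε' e) := by
  by_cases hR : P.rule c c c ∧ ∃ k, P.ax c k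
  · obtain ⟨hR, k, hk⟩ := hR
    rw [shape_eq hN.toBasic hR hk, shape_eq hN.toBasic hR hk,
      er_sub_congr hN (WF.cons hw hA) (HasCol.of_sort hB hk) (τ' := esk (econs ε' e))]
    intro i hi
    cases i with
    | zero => exact absurd (hi.zero_inv hN.toBasic hA).symm (hne hR k hk)
    | succ n => rfl
  · rw [shape, dif_neg hR, shape, dif_neg hR]

/-- All erasures at colour `k` are strongly normalizing. -/
def ErSN (P : Spec S) (rk : S → ℕ) (k : S) : Prop :=
  ∀ Γ e M, WF P Γ → GoodEnv P rk Γ e → HasCol P Γ M k → SN ((er P k Γ M).sub (esk e))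

open Classical in
/-- The shape of a product. -/
theorem shape_pi (hN : Nice P rk) {Γ : List (Expr S)} (hw : WF P Γ) {e : Env S}
    (he : GoodEnv P rk Γ e) {A B : Expr S} {a b k : S} (hR : P.rule b b b) (hk : P.ax b k)
    (hE : ErSN P rk k) (hA : D P Γ A (.sort a)) (hB : D P (A :: Γ) B (.sort b))
    (hr : P.rule a b b) (hak : a ≠ k) (ε : Entry S) :
    shape P b Γ (.pi A B) e =
      if a = b then Shape.arr (shape P b Γ A e) (shape P b (A :: Γ) B (econs ε e))
      else Shape.hi (shape P b (A :: Γ) B (econs ε e)) := by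
  have hP := hN.toBasic
  rw [shape_ext hN hw hA hB (fun _ k' hk' => (hN.functional _ _ _ hk hk') ▸ hak) ε
    (canon P rk a Γ A e) e]
  obtain ⟨⟨a', ha'⟩, -⟩ := hN.succs _ _ hr
  have hcA : HasCol P Γ A a' := HasCol.of_sort hA ha'
  have hcB : HasCol P (A :: Γ) B k := HasCol.of_sort hB hk
  let σ' := esk (econs (canon P rk a Γ A e) e)
  have hup : (er P k (A :: Γ) B).sub (Expr.up (esk e)) =
      ((er P k (A :: Γ) B).sub σ').ren Nat.succ := by
    rw [ren_sub_comp]
    refine er_sub_congr hN (WF.cons hw hA) hcB fun i hi => ?_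
    cases i with
    | zero => exact absurd (hi.zero_inv hP hA).symm hak
    | succ n => rfl
  have hsB : SN ((er P k (A :: Γ) B).sub σ') :=
    hE _ _ _ (WF.cons hw hA) (he.cons hP hA (canon_good P rk a Γ A e)) hcB
  have hsA : SN (((if col P Γ A = some k then er P k Γ A else cst) : Sk S).sub (esk e)) := by
    by_cases h : a' = k
    · subst h
      rw [if_pos (col_eq hP hw hcA)]
      exact hE _ _ _ hw he hcA
    · rw [if_neg (by rw [col_eq hP hw hcA]; simpa using h), cst_sub]
      exact SN.sort _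
  rw [shape_eq hP hR hk]
  simp only [er, skPi_sub, hup, srt_eq hP hA, srt_eq hP hB]
  rw [treeNF_skPi _ _ _ hsA (hsB.ren _), shape_eq hP hR hk, shape_eq hP hR hk]
  have hnfB : tree b (nfSk (((er P k (A :: Γ) B).sub σ').ren Nat.succ)) =
      treeNF b ((er P k (A :: Γ) B).sub σ') := treeNF_ren b hsB Nat.succ
  simp only [skPi, tree, Option.some.injEq, ↓reduceIte, hnfB]
  by_cases hab : a = b
  · subst hab
    obtain rfl : a' = k := hN.functional _ _ _ ha' hk
    simp only [↓reduceIte, if_pos (col_eq hP hw hcA)]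
    rfl
  · simp only [hab, ↓reduceIte]
    rfl

/-! ### Independence of values from some variables -/

/-- Values at a colour do not depend on a variable of a lower colour. -/
theorem sem_ext_head (hN : Nice P rk) {Γ : List (Expr S)} (hw : WF P Γ) {A M : Expr S}
    {a c : S} (hA : D P Γ A (.sort a)) (hM : HasCol P (A :: Γ) M c) (h : ¬ Above rk a c)
    (ε ε' : Entry S) (e : Env S) :
    sem P rk M c (A :: Γ) (econs ε e) = sem P rk M c (A :: Γ) (econs ε' e) := by
  have := sem_sub hN (σ := Expr.var) (e := econs ε e) (e' := econs ε' e) (WF.cons hw hA)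
    (WF.cons hw hA) (TSub.id P _) ?_ hM
  · rwa [sub_var] at this
  intro i x hx
  cases i with
  | zero =>
    obtain rfl : x = a := hx.zero_inv hN.toBasic hA
    exact ⟨fun hxc => absurd hxc h, fun hxc => absurd (Above.of_lt hxc) h⟩
  | succ n => exact ⟨fun _ hW => by rw [sem_var hW]; rfl, fun _ => Conv.refl _⟩

open Classical in
/-- At a colour without arrows, values depend only on the values of its variables. -/
theorem sem_spine (hN : Nice P rk) {M : Expr S} {Γ : List (Expr S)} {e e' : Env S} {c : S}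
    (hc : ¬ P.rule c c c) (hw : WF P Γ) (hM : HasCol P Γ M c)
    (h : ∀ i, VarCol P Γ i c → (e i).val (rk c) = (e' i).val (rk c)) :
    sem P rk M c Γ e = sem P rk M c Γ e' := by
  have hP := hN.toBasic
  have hW : Weak P c := Or.inl hc
  induction M generalizing Γ e e' with
  | var i =>
    rw [sem_var hW, sem_var hW]
    exact h i (hM.var_inv hP hw)
  | sort s => rfl
  | app M N ihM _ =>
    obtain ⟨A, B, a, -, -, -, -, -, hr, hcM, hcN⟩ := hM.app_inv hP hw
    have hac : a ≠ c := fun e => hc (e ▸ hr)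
    rw [sem_app_skip (col_eq hP hw hcN) hac hc, sem_app_skip (col_eq hP hw hcN) hac hc]
    exact ihM hw hcM h
  | lam A M _ ihM =>
    obtain ⟨B, a, hA, -, -, -, hr, hcM⟩ := hM.lam_inv hP hw
    have hac : a ≠ c := fun e => hc (e ▸ hr)
    rw [sem_lam_skip hW (srt_eq hP hA) hac hc, sem_lam_skip hW (srt_eq hP hA) hac hc]
    refine ihM (WF.cons hw hA) hcM fun i hi => ?_
    cases i with
    | zero => exact absurd (hi.zero_inv hP hA).symm hac
    | succ n => exact h n (hi.succ_inv hP hw)
  | pi A B ihA ihB =>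
    obtain ⟨a, b, a', hA, hB, -, hb, ha', -, hcA, hcB⟩ := hM.pi_inv hN hw
    rw [sem_pi hW (srt_eq hP hA) (srt_eq hP hB) hb, sem_pi hW (srt_eq hP hA) (srt_eq hP hB) hb]
    have hbody : ∀ ε ε' : Entry S, (a = c → ε'.val (rk c) = ε.val (rk c)) →
        piBody P rk A B c Γ e ε = piBody P rk A B c Γ e' ε' := fun ε ε' hε => congrArg toC
      (ihB (WF.cons hw hA) hcB fun i hi => by
        cases i with
        | zero => exact (hε (hi.zero_inv hP hA).symm).symm
        | succ n => exact h n (hi.succ_inv hP hw))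
    refine congrArg (mkC _) ?_
    by_cases hab : a = b
    · subst hab
      obtain rfl : a' = c := hN.functional _ _ _ ha' hb
      have hne : a ≠ a' := fun e => (hN.ax_lt _ _ hb).ne (by rw [e])
      rw [if_pos rfl, if_pos rfl, ihA hw hcA h, hbody _ (canon P rk a Γ A e') (fun e => absurd e hne)]
    · rw [if_neg hab, if_neg hab]
      by_cases hq : (a = c ∨ P.rule c c c) ∧ Above rk a c
      · rw [if_pos hq, if_pos hq]
        obtain rfl : a = c := hq.1.resolve_right hc
        refine piC_congr (fun ε => ?_) rfl (fun ε _ => hbody ε ε (fun _ => rfl))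
        exact good_congr hP (fun hR => absurd hR hc) (by rw [shape_lin hc, shape_lin hc]) ε
      · rw [if_neg hq, if_neg hq]
        refine congrArg hiC (hbody _ _ fun e => ?_)
        exact absurd ⟨Or.inl e, Or.inl e⟩ hq

/-! ### Products at colours where values or shapes suffice -/

theorem ne_succ_of_weak {a c k : S} (hW : Weak P c) (hR : P.rule c c c) (hk : P.ax c k)
    (hr : P.rule a c c) : a ≠ k := fun e =>
  hW.elim (fun h => h hR) (fun h => h k hk (e ▸ hr))

theorem ne_succ_of_not_weak (hno : ¬ LambdaUPattern P) {a c k : S} (hR : P.rule c c c)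
    (hk : P.ax c k) (hk' : ¬ Weak P k) (hr : P.rule a c c) : a ≠ k := by
  intro e
  subst e
  simp only [Weak, not_or, not_forall, not_not] at hk'
  obtain ⟨hkk, K, hK, hKk⟩ := hk'
  exact hno ⟨c, a, K, hk, hK, hR, hr, hkk, hKk⟩

/-- Substituting an argument agrees with extending the environment by a matching entry. -/
theorem envSub_inst (hN : Nice P rk) {Γ : List (Expr S)} {A N : Expr S} {a c : S}
    {e : Env S} {ε : Entry S} (hA : D P Γ A (.sort a))
    (h₁ : Above rk a c → Weak P a → ε.val (rk a) = sem P rk N a Γ e)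
    (h₂ : rk a < rk c → Conv ε.sk ((er P a Γ N).sub (esk e))) :
    EnvSub P rk c (scons N Expr.var) (A :: Γ) Γ e (econs ε e) := by
  intro i x hx
  cases i with
  | zero =>
    obtain rfl : x = a := hx.zero_inv hN.toBasic hA
    exact ⟨h₁, h₂⟩
  | succ n => exact ⟨fun _ hW => (sem_var hW n Γ e).symm, fun _ => Conv.refl _⟩

/-- The entry of an argument. -/
noncomputable def argEntry (P : Spec S) (rk : S → ℕ) (a : S) (Γ : List (Expr S)) (N : Expr S)
    (e : Env S) : Entry S :=
  mkE ((er P a Γ N).sub (esk e)) (rk a) (sem P rk N a Γ e)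

theorem argEntry_val (a : S) (Γ : List (Expr S)) (N : Expr S) (e : Env S) :
    (argEntry P rk a Γ N e).val (rk a) = sem P rk N a Γ e :=
  single_self _ _

/-- The property that values have the shape of their types. -/
def SemShape (P : Spec S) (rk : S → ℕ) (c : S) : Prop :=
  Weak P c → ∀ Γ e M T, WF P Γ → GoodEnv P rk Γ e → D P Γ M T → D P Γ T (.sort c) →
    (sem P rk M c Γ e).1 = shape P c Γ T e

theorem semShape (hN : Nice P rk) (c : S)
    (hE : P.rule c c c → ∀ k, P.ax c k → ErSN P rk k) : SemShape P rk c := by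
  intro hW Γ e M T hw he hM hT
  have hP := hN.toBasic
  induction M generalizing Γ e T with
  | var i =>
    obtain ⟨A, hA, hc⟩ := gen_var hM
    obtain ⟨s, hs⟩ := hw.lookup hA
    obtain rfl : s = c := HasCol.unique hP hw ⟨A, D.var hA, hs⟩ ⟨T, hM, hT⟩
    rw [sem_var hW, (he.var_spec hN hw hA hs).2 hW, shape_conv hN hw hs hT hc]
  | sort s =>
    obtain ⟨t, ht, hc⟩ := gen_sort hM
    have hT' : D P Γ (.sort t) (.sort c) := hT.steps hw hc.symm.steps_to_sort
    rw [sem_sort, ← shape_conv hN hw hT' hT hc, shape_sort]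
    rfl
  | app M N ihM _ =>
    obtain ⟨A, B, a, hM₁, hN₁, hA, hB, hPi, hr, -, hcN⟩ := HasCol.app_inv hP hw ⟨T, hM, hT⟩
    have hT' : D P Γ (B.inst N) (.sort c) := hB.inst hN₁
    rw [← shape_conv hN hw hT' hT (D.unique hP (D.app hM₁ hN₁) hM)]
    have eN := col_eq hP hw hcN
    by_cases hR : P.rule c c c
    · obtain ⟨-, k, hk⟩ := hN.succs _ _ hR
      have hak : a ≠ k := ne_succ_of_weak hW hR hk hr
      have e₁ := ihM _ _ _ hw he hM₁ hPi
      rw [shape_pi hN hw he hR hk (hE hR k hk) hA hB hr hak (argEntry P rk a Γ N e)] at e₁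
      have e₂ : shape P c Γ (B.inst N) e = shape P c (A :: Γ) B (econs (argEntry P rk a Γ N e) e) :=
        shape_sub hN (WF.cons hw hA) hw (TSub.inst hN₁)
          (envSub_inst hN hA (fun _ _ => argEntry_val a Γ N e) (fun _ => Conv.refl _)) hB
          (fun _ hx => hN.ax_lt _ _ hx)
      rw [e₂]
      by_cases hac : a = c
      · subst hac
        rw [sem_app_same eN]
        rw [if_pos rfl] at e₁
        exact vapp_fst e₁
      · rw [sem_app_high eN hac hR]
        rw [if_neg hac] at e₁
        exact happ_fst e₁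
    · have hac : a ≠ c := fun e => hR (e ▸ hr)
      rw [sem_app_skip eN hac hR, ihM _ _ _ hw he hM₁ hPi, shape_lin hR, shape_lin hR]
  | lam A M _ ihM =>
    obtain ⟨B, a, hA, hM₁, hB, hPi, hr, -⟩ := HasCol.lam_inv hP hw ⟨T, hM, hT⟩
    rw [← shape_conv hN hw hPi hT (D.unique hP (D.abs hM₁ hPi) hM)]
    have he' : GoodEnv P rk (A :: Γ) (econs (canon P rk a Γ A e) e) :=
      he.cons hP hA (canon_good P rk a Γ A e)
    have e₁ : (lamBody P rk A M c Γ e (canon P rk a Γ A e)).1 =
        shape P c (A :: Γ) B (econs (canon P rk a Γ A e) e) :=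
      ihM _ _ _ (WF.cons hw hA) he' hM₁ hB
    by_cases hR : P.rule c c c
    · obtain ⟨-, k, hk⟩ := hN.succs _ _ hR
      have hak : a ≠ k := ne_succ_of_weak hW hR hk hr
      rw [shape_pi hN hw he hR hk (hE hR k hk) hA hB hr hak (canon P rk a Γ A e), ← e₁]
      by_cases hac : a = c
      · subst hac
        rw [sem_lam_same hW (srt_eq hP hA), if_pos rfl]
        rfl
      · rw [sem_lam_high hW (srt_eq hP hA) hac hR, if_neg hac]
        rfl
    · have hac : a ≠ c := fun e => hR (e ▸ hr)
      rw [sem_lam_skip hW (srt_eq hP hA) hac hR, e₁, shape_lin hR, shape_lin hR]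
  | pi A B _ _ =>
    obtain ⟨a, b, a', hA, hB, hr, hb, -⟩ := HasCol.pi_inv hN hw ⟨T, hM, hT⟩
    rw [sem_pi hW (srt_eq hP hA) (srt_eq hP hB) hb, mkC_fst,
      ← shape_conv hN hw (D.axm hb) hT (D.unique hP (D.prod hA hB hr) hM), shape_sort]

theorem piC_const {I : Type u} {G : I → Prop} {U : Cand S ⊕ PUnit.{u+1}} {Y : I → Cand S}
    {i₀ : I} (h₀ : G i₀) (h : ∀ i, G i → Y i = Y i₀) :
    piC G U Y = piC (fun _ : PUnit.{u+1} => True) U (fun _ => Y i₀) := by
  refine Subtype.ext (Set.ext fun t => ?_)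
  rw [mem_piC, mem_piC]
  refine and_congr_right fun _ => ⟨fun hh ρ _ u _ hu => hh ρ i₀ u h₀ hu, fun hh ρ i u hi hu => ?_⟩
  rw [h i hi]
  exact hh ρ ⟨⟩ u trivial hu

open Classical in
/-- Reducible skeletons of a product. -/
theorem red_pi (hN : Nice P rk) (hno : ¬ LambdaUPattern P) {Γ : List (Expr S)} (hw : WF P Γ)
    {e : Env S} (he : GoodEnv P rk Γ e) {A B : Expr S} {a b k : S} (hR : P.rule b b b)
    (hk : P.ax b k) (hE : ErSN P rk k) (hA : D P Γ A (.sort a))
    (hB : D P (A :: Γ) B (.sort b)) (hr : P.rule a b b) :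
    Red P rk b Γ (.pi A B) e =
      piC (Good P rk a Γ A e) (if a = b then .inl (Red P rk b Γ A e) else .inr ⟨⟩)
        (fun ε => Red P rk b (A :: Γ) B (econs ε e)) := by
  have hP := hN.toBasic
  have hcB : HasCol P (A :: Γ) B k := HasCol.of_sort hB hk
  have hg := canon_good P rk a Γ A e
  by_cases hW : Weak P k
  · simp only [Red, redOf_weak hP hR hk hW]
    rw [sem_pi hW (srt_eq hP hA) (srt_eq hP hB) hk, toC_mkC]
    have hconst : (Above rk a k → a ≠ k ∧ ¬ P.rule k k k) → ∀ ε,
        toC (sem P rk B k (A :: Γ) (econs ε e)) =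
          toC (sem P rk B k (A :: Γ) (econs (canon P rk a Γ A e) e)) := by
      intro h ε
      refine congrArg toC ?_
      by_cases hab : Above rk a k
      · refine sem_spine hN (h hab).2 (WF.cons hw hA) hcB fun i hi => ?_
        cases i with
        | zero => exact absurd (hi.zero_inv hP hA).symm (h hab).1
        | succ n => rfl
      · exact sem_ext_head hN hw hA hcB hab _ _ e
    by_cases hab : a = b
    · subst hab
      have hnot : ¬ Above rk a k := by
        have := hN.ax_lt _ _ hk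
        rintro (h | h)
        · exact this.ne (by rw [h])
        · omega
      rw [if_pos rfl, if_pos rfl, piC_const hg (fun ε _ => hconst (fun h => absurd h hnot) ε)]
      rfl
    · rw [if_neg hab, if_neg hab]
      by_cases hq : (a = k ∨ P.rule k k k) ∧ Above rk a k
      · rw [if_pos hq]
        rfl
      · rw [if_neg hq, piC_const hg (fun ε _ => hconst ?_ ε)]
        · rfl
        · intro h
          exact ⟨fun e => hq ⟨Or.inl e, h⟩, fun e => hq ⟨Or.inr e, h⟩⟩
  · have hak : a ≠ k := ne_succ_of_not_weak hno hR hk hW hr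
    simp only [Red, redOf_stable hP hR hk hW]
    rw [shape_pi hN hw he hR hk hE hA hB hr hak (canon P rk a Γ A e)]
    have hconst : ∀ ε, candSh (S := S) (shape P b (A :: Γ) B (econs ε e)) =
        candSh (shape P b (A :: Γ) B (econs (canon P rk a Γ A e) e)) := fun ε =>
      congrArg candSh
        (shape_ext hN hw hA hB (fun _ k' hk' => (hN.functional _ _ _ hk hk') ▸ hak) _ _ e)
    rw [piC_const hg (fun ε _ => hconst ε)]
    by_cases hab : a = b
    · rw [if_pos hab, if_pos hab]; rfl
    · rw [if_neg hab, if_neg hab]; rfl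

/-- Values are invariant under β-steps. -/
def SemInv (P : Spec S) (rk : S → ℕ) (c : S) : Prop :=
  ∀ Γ e M M', WF P Γ → GoodEnv P rk Γ e → HasCol P Γ M c → Beta M M' →
    sem P rk M c Γ e = sem P rk M' c Γ e

theorem SemInv.steps {c : S} (h : SemInv P rk c) {Γ : List (Expr S)} (hw : WF P Γ) {e : Env S}
    (he : GoodEnv P rk Γ e) {M M' : Expr S} (hM : HasCol P Γ M c) (hs : Steps M M') :
    sem P rk M c Γ e = sem P rk M' c Γ e := by
  induction hs with
  | refl => rfl
  | tail hs hb ih => rw [ih]; exact h _ _ _ _ hw he (hM.steps hw hs) hb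

theorem SemInv.conv {c : S} (h : SemInv P rk c) {Γ : List (Expr S)} (hw : WF P Γ) {e : Env S}
    (he : GoodEnv P rk Γ e) {M M' : Expr S} (hM : HasCol P Γ M c) (hM' : HasCol P Γ M' c)
    (hc : Conv M M') : sem P rk M c Γ e = sem P rk M' c Γ e := by
  obtain ⟨L, h₁, h₂⟩ := hc.join
  rw [h.steps hw he hM h₁, h.steps hw he hM' h₂]

/-- Convertible types have the same reducible skeletons. -/
theorem red_conv (hN : Nice P rk) {c : S} (hI : ∀ k, P.ax c k → SemInv P rk k)
    {Γ : List (Expr S)} (hw : WF P Γ) {e : Env S} (he : GoodEnv P rk Γ e) {T T' : Expr S}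
    (hT : D P Γ T (.sort c)) (hT' : D P Γ T' (.sort c)) (hc : Conv T T') :
    Red P rk c Γ T e = Red P rk c Γ T' e :=
  redOf_congr hN.toBasic
    (fun _ k hk _ => (hI k hk).conv hw he (HasCol.of_sort hT hk) (HasCol.of_sort hT' hk) hc)
    (shape_conv hN hw hT hT' hc e)

end Vale.Agent.P340
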