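import Vale.Agent.P340.Typing

/-!
# Colours and the erasure at a colour

The colour of an expression is the sort of its type. The erasure at colour `g` of an
expression of colour `g` keeps the binders and applications, and replaces every immediate
subexpression of another colour by a constant.
-/

namespace Vale.Agent.P340

universe u
variable {S : Type u}

open Expr Relation

/-- Specifications to which the normalization proof applies: colours are ranked so that
subexpressions never have a smaller colour. -/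
structure Nice (P : Spec S) (rk : S → ℕ) : Prop extends Basic P where
  ax_lt : ∀ s t, P.ax s t → rk t < rk s
  rule_le : ∀ a b, P.rule a b b → a = b ∨ rk a < rk b
  succs : ∀ a b, P.rule a b b → (∃ a', P.ax a a') ∧ ∃ b', P.ax b b'
  mono : ∀ a b a' b', P.rule a b b → P.ax a a' → P.ax b b' → a' = b' ∨ rk a' < rk b'

/-- Colour `a` is `c` or higher. -/
def Above (rk : S → ℕ) (a c : S) : Prop := a = c ∨ rk a < rk c

theorem Above.refl (rk : S → ℕ) (c : S) : Above rk c c := Or.inl rfl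

theorem Above.trans {rk : S → ℕ} {a b c : S} (h : Above rk a b) (h' : Above rk b c) :
    Above rk a c := by
  rcases h with rfl | h
  · exact h'
  · rcases h' with rfl | h'
    · exact Or.inr h
    · exact Or.inr (lt_trans h h')

variable {P : Spec S} {rk : S → ℕ}

theorem Above.of_lt {a c : S} (h : rk a < rk c) : Above rk a c := Or.inr h

theorem HasCol.of_conv {Γ : List (Expr S)} (hw : WF P Γ) (hP : Basic P) {M T : Expr S} {c : S}
    (h : D P Γ M T) (hc : HasCol P Γ M c) {s : S} (hs : D P Γ T (.sort s)) : s = c :=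
  HasCol.unique hP hw ⟨T, h, hs⟩ hc

theorem HasCol.ren {Γ Δ : List (Expr S)} {M : Expr S} {c : S} (h : HasCol P Γ M c)
    {ρ : ℕ → ℕ} (hρ : TRen ρ Γ Δ) : HasCol P Δ (M.ren ρ) c := by
  obtain ⟨T, hM, hT⟩ := h
  exact ⟨T.ren ρ, hM.ren hρ, hT.ren hρ⟩

theorem HasCol.sub {Γ Δ : List (Expr S)} {M : Expr S} {c : S} (h : HasCol P Γ M c)
    {σ : ℕ → Expr S} (hσ : TSub P σ Γ Δ) : HasCol P Δ (M.sub σ) c := by
  obtain ⟨T, hM, hT⟩ := h
  exact ⟨T.sub σ, hM.sub hσ, hT.sub hσ⟩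

theorem HasCol.steps {Γ : List (Expr S)} (hw : WF P Γ) {M M' : Expr S} {c : S}
    (h : HasCol P Γ M c) (hb : Steps M M') : HasCol P Γ M' c := by
  obtain ⟨T, hM, hT⟩ := h
  exact ⟨T, hM.steps hw hb, hT⟩

theorem HasCol.changeHead {Γ : List (Expr S)} {A A' M : Expr S} {c s : S}
    (h : HasCol P (A :: Γ) M c) (hA : D P Γ A (.sort s)) (hc : Conv A A') :
    HasCol P (A' :: Γ) M c := by
  obtain ⟨T, hM, hT⟩ := h
  exact ⟨T, hM.changeHead hA hc, hT.changeHead hA hc⟩

theorem HasCol.of_sort {Γ : List (Expr S)} {A : Expr S} {a a' : S} (h : D P Γ A (.sort a))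
    (ha : P.ax a a') : HasCol P Γ A a' :=
  ⟨_, h, D.axm ha⟩

theorem HasCol.var_inv (hP : Basic P) {Γ : List (Expr S)} (hw : WF P Γ) {i : ℕ} {c : S}
    (h : HasCol P Γ (.var i) c) : ∃ A, Lookup Γ i A ∧ D P Γ A (.sort c) := by
  obtain ⟨T, hM, hT⟩ := h
  obtain ⟨A, hA, -⟩ := gen_var hM
  obtain ⟨s, hs⟩ := hw.lookup hA
  have := HasCol.unique hP hw ⟨A, D.var hA, hs⟩ ⟨T, hM, hT⟩
  exact ⟨A, hA, this ▸ hs⟩

theorem HasCol.app_inv (hP : Basic P) {Γ : List (Expr S)} (hw : WF P Γ) {M N : Expr S} {c : S}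
    (h : HasCol P Γ (.app M N) c) :
    ∃ A B a, D P Γ M (.pi A B) ∧ D P Γ N A ∧ D P Γ A (.sort a) ∧
      D P (A :: Γ) B (.sort c) ∧ D P Γ (.pi A B) (.sort c) ∧ P.rule a c c ∧
      HasCol P Γ M c ∧ HasCol P Γ N a := by
  obtain ⟨T, hM, hT⟩ := h
  obtain ⟨A, B, hM₁, hN, -⟩ := gen_app hM
  obtain ⟨a, b, e, hA, hB, hr, hPi⟩ := hM₁.pi_type hw
  have he := hP.generalized _ _ _ hr
  subst he
  have : e = c := HasCol.unique hP hw ⟨_, D.app hM₁ hN, hB.inst hN⟩ ⟨T, hM, hT⟩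
  subst this
  exact ⟨A, B, a, hM₁, hN, hA, hB, hPi, hr, ⟨_, hM₁, hPi⟩, ⟨_, hN, hA⟩⟩

theorem HasCol.lam_inv (hP : Basic P) {Γ : List (Expr S)} (hw : WF P Γ) {A M : Expr S} {c : S}
    (h : HasCol P Γ (.lam A M) c) :
    ∃ B a, D P Γ A (.sort a) ∧ D P (A :: Γ) M B ∧ D P (A :: Γ) B (.sort c) ∧
      D P Γ (.pi A B) (.sort c) ∧ P.rule a c c ∧ HasCol P (A :: Γ) M c := by
  obtain ⟨T, hM, hT⟩ := h
  obtain ⟨B, s, hM₁, hPi, -⟩ := gen_lam hM
  obtain ⟨a, b, e, hA, hB, hr, -⟩ := gen_pi hPi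
  have he := hP.generalized _ _ _ hr
  subst he
  have : e = c :=
    HasCol.unique hP hw ⟨_, D.abs hM₁ hPi, D.prod hA hB hr⟩ ⟨T, hM, hT⟩
  subst this
  exact ⟨B, a, hA, hM₁, hB, D.prod hA hB hr, hr, ⟨B, hM₁, hB⟩⟩

theorem HasCol.pi_inv (hN : Nice P rk) {Γ : List (Expr S)} (hw : WF P Γ) {A B : Expr S}
    {c : S} (h : HasCol P Γ (.pi A B) c) :
    ∃ a b a', D P Γ A (.sort a) ∧ D P (A :: Γ) B (.sort b) ∧ P.rule a b b ∧ P.ax b c ∧
      P.ax a a' ∧ Above rk a' c ∧ HasCol P Γ A a' ∧ HasCol P (A :: Γ) B c := by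
  obtain ⟨T, hM, hT⟩ := h
  obtain ⟨a, b, e, hA, hB, hr, hc⟩ := gen_pi hM
  have he := hN.generalized _ _ _ hr
  subst he
  obtain ⟨⟨a', ha'⟩, ⟨b', hb'⟩⟩ := hN.succs _ _ hr
  have : b' = c :=
    HasCol.unique hN.toBasic hw ⟨_, D.prod hA hB hr, D.axm hb'⟩ ⟨T, hM, hT⟩
  subst this
  exact ⟨a, e, a', hA, hB, hr, hb', ha', hN.mono _ _ _ _ hr ha' hb',
    HasCol.of_sort hA ha', HasCol.of_sort hB hb'⟩

theorem HasCol.lam_dom (hN : Nice P rk) {a c : S} (hr : P.rule a c c) :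
    ∃ a', P.ax a a' ∧ rk a' < rk c := by
  obtain ⟨⟨a', ha'⟩, -⟩ := hN.succs _ _ hr
  refine ⟨a', ha', ?_⟩
  rcases hN.rule_le _ _ hr with rfl | h
  · exact hN.ax_lt _ _ ha'
  · exact lt_trans (hN.ax_lt _ _ ha') h

/-! ### The skeleton language and the erasure -/

/-- Sorts of the skeleton language: a constant and tags for product nodes. -/
abbrev SkS (S : Type u) : Type u := Option (Option S × Option S)

/-- Skeletons. -/
abbrev Sk (S : Type u) : Type u := Expr (SkS S)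

/-- The inert constant of the skeleton language. -/
def cst : Sk S := Expr.sort none

/-- Product nodes of the skeleton language, tagged by the two sorts. -/
def skPi (a b : Option S) (A B : Sk S) : Sk S :=
  Expr.pi (Expr.app (Expr.sort (some (a, b))) A) B

theorem skPi_ren (a b : Option S) (A B : Sk S) (ρ : ℕ → ℕ) :
    (skPi a b A B).ren ρ = skPi a b (A.ren ρ) (B.ren (upRen ρ)) := rfl

theorem skPi_sub (a b : Option S) (A B : Sk S) (τ : ℕ → Sk S) :
    (skPi a b A B).sub τ = skPi a b (A.sub τ) (B.sub (up τ)) := rfl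

theorem cst_sub (τ : ℕ → Sk S) : (cst : Sk S).sub τ = cst := rfl

theorem cst_ren (ρ : ℕ → ℕ) : (cst : Sk S).ren ρ = cst := rfl

open Classical in
/-- The erasure at colour `g`. -/
noncomputable def er (P : Spec S) (g : S) : List (Expr S) → Expr S → Sk S
  | _, .var i => .var i
  | _, .sort _ => cst
  | Γ, .app M N => .app (er P g Γ M) (if col P Γ N = some g then er P g Γ N else cst)
  | Γ, .lam A M => .lam cst (er P g (A :: Γ) M)
  | Γ, .pi A B =>
    skPi (srt P Γ A) (srt P (A :: Γ) B) (if col P Γ A = some g then er P g Γ A else cst)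
      (er P g (A :: Γ) B)

theorem er_ren (hN : Nice P rk) (g : S) {M : Expr S} {Γ Δ : List (Expr S)} {ρ : ℕ → ℕ}
    (hwΓ : WF P Γ) (hwΔ : WF P Δ) (hρ : TRen ρ Γ Δ) (hM : HasCol P Γ M g) :
    er P g Δ (M.ren ρ) = (er P g Γ M).ren ρ := by
  have hP := hN.toBasic
  induction M generalizing Γ Δ ρ with
  | var i => rfl
  | sort s => rfl
  | app M N ihM ihN =>
    obtain ⟨A, B, a, -, -, -, -, -, -, hcM, hcN⟩ := hM.app_inv hP hwΓ
    simp only [Expr.ren, er]
    rw [col_eq hP hwΓ hcN, col_eq hP hwΔ (hcN.ren hρ), ihM hwΓ hwΔ hρ hcM]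
    by_cases h : a = g
    · subst h; simp only [↓reduceIte]; rw [ihN hwΓ hwΔ hρ hcN]
    · simp only [Option.some.injEq, h, ↓reduceIte, cst_ren]
  | lam A M _ ihM =>
    obtain ⟨B, a, hA, -, -, -, -, hcM⟩ := hM.lam_inv hP hwΓ
    simp only [Expr.ren, er]
    rw [ihM (WF.cons hwΓ hA) (WF.cons hwΔ (hA.ren hρ)) (hρ.up A) hcM]
    rfl
  | pi A B ihA ihB =>
    obtain ⟨a, b, a', hA, hB, -, -, -, -, hcA, hcB⟩ := hM.pi_inv hN hwΓ
    have hA' : D P Δ (A.ren ρ) (.sort a) := hA.ren hρ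
    have hB' : D P (A.ren ρ :: Δ) (B.ren (upRen ρ)) (.sort b) := hB.ren (hρ.up A)
    simp only [Expr.ren, er, skPi_ren]
    rw [srt_eq hP hA, srt_eq hP hA', srt_eq hP hB, srt_eq hP hB',
      col_eq hP hwΓ hcA, col_eq hP hwΔ (hcA.ren hρ),
      ihB (WF.cons hwΓ hA) (WF.cons hwΔ hA') (hρ.up A) hcB]
    by_cases h : a' = g
    · subst h; simp only [↓reduceIte]; rw [ihA hwΓ hwΔ hρ hcA]
    · simp only [Option.some.injEq, h, ↓reduceIte, cst_ren]

/-- Variable `i` of `Γ` has colour `g`. -/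
def VarCol (P : Spec S) (Γ : List (Expr S)) (i : ℕ) (g : S) : Prop :=
  ∃ A, Lookup Γ i A ∧ D P Γ A (.sort g)

theorem VarCol.succ_inv (hP : Basic P) {Γ : List (Expr S)} {A : Expr S} (hw : WF P Γ) {i : ℕ}
    {g : S} (h : VarCol P (A :: Γ) (i + 1) g) : VarCol P Γ i g := by
  obtain ⟨B, hB, hs⟩ := h
  cases hB with
  | succ hB =>
    obtain ⟨s, hs'⟩ := hw.lookup hB
    have : s = g := D.sort_unique hP (hs'.weaken A) hs
    exact ⟨_, hB, this ▸ hs'⟩

theorem VarCol.zero_inv (hP : Basic P) {Γ : List (Expr S)} {A : Expr S} {a g : S}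
    (hA : D P Γ A (.sort a)) (h : VarCol P (A :: Γ) 0 g) : g = a := by
  obtain ⟨B, hB, hs⟩ := h
  cases hB with
  | zero => exact D.sort_unique hP hs (hA.weaken A)

theorem VarCol.hasCol {Γ : List (Expr S)} {i : ℕ} {g : S} (h : VarCol P Γ i g) :
    HasCol P Γ (.var i) g := by
  obtain ⟨A, hA, hs⟩ := h
  exact ⟨A, D.var hA, hs⟩

theorem er_sub (hN : Nice P rk) (g : S) {M : Expr S} {Γ Δ : List (Expr S)} {σ : ℕ → Expr S}
    {τ : ℕ → Sk S} (hwΓ : WF P Γ) (hwΔ : WF P Δ) (hσ : TSub P σ Γ Δ)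
    (hτ : ∀ i, VarCol P Γ i g → er P g Δ (σ i) = τ i) (hM : HasCol P Γ M g) :
    er P g Δ (M.sub σ) = (er P g Γ M).sub τ := by
  have hP := hN.toBasic
  have hup : ∀ {Γ Δ : List (Expr S)} {σ : ℕ → Expr S} {τ : ℕ → Sk S} {A : Expr S} {a : S},
      WF P Γ → WF P Δ → TSub P σ Γ Δ → D P Γ A (.sort a) →
      (∀ i, VarCol P Γ i g → er P g Δ (σ i) = τ i) →
      ∀ i, VarCol P (A :: Γ) i g → er P g (A.sub σ :: Δ) (Expr.up σ i) = Expr.up τ i := by
    intro Γ Δ σ τ A a hwΓ hwΔ hσ hA hτ i hi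
    cases i with
    | zero => rfl
    | succ n =>
      have hn := hi.succ_inv hP hwΓ
      show er P g (A.sub σ :: Δ) (σ n).shift = (τ n).shift
      rw [← hτ n hn]
      exact er_ren hN g hwΔ (WF.cons hwΔ (hA.sub hσ)) (TRen.shift Δ _) (hn.hasCol.sub hσ)
  induction M generalizing Γ Δ σ τ with
  | var i => exact hτ i (hM.var_inv hP hwΓ)
  | sort s => rfl
  | app M N ihM ihN =>
    obtain ⟨A, B, a, -, -, -, -, -, -, hcM, hcN⟩ := hM.app_inv hP hwΓ
    simp only [Expr.sub, er]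
    rw [col_eq hP hwΓ hcN, col_eq hP hwΔ (hcN.sub hσ), ihM hwΓ hwΔ hσ hτ hcM]
    by_cases h : a = g
    · subst h; simp only [↓reduceIte]; rw [ihN hwΓ hwΔ hσ hτ hcN]
    · simp only [Option.some.injEq, h, ↓reduceIte, cst_sub]
  | lam A M _ ihM =>
    obtain ⟨B, a, hA, -, -, -, -, hcM⟩ := hM.lam_inv hP hwΓ
    simp only [Expr.sub, er]
    rw [ihM (WF.cons hwΓ hA) (WF.cons hwΔ (hA.sub hσ)) (hσ.up A) (hup hwΓ hwΔ hσ hA hτ) hcM]
    rfl
  | pi A B ihA ihB =>
    obtain ⟨a, b, a', hA, hB, -, -, -, -, hcA, hcB⟩ := hM.pi_inv hN hwΓ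
    have hA' : D P Δ (A.sub σ) (.sort a) := hA.sub hσ
    have hB' : D P (A.sub σ :: Δ) (B.sub (Expr.up σ)) (.sort b) := hB.sub (hσ.up A)
    simp only [Expr.sub, er, skPi_sub]
    rw [srt_eq hP hA, srt_eq hP hA', srt_eq hP hB, srt_eq hP hB',
      col_eq hP hwΓ hcA, col_eq hP hwΔ (hcA.sub hσ),
      ihB (WF.cons hwΓ hA) (WF.cons hwΔ hA') (hσ.up A) (hup hwΓ hwΔ hσ hA hτ) hcB]
    by_cases h : a' = g
    · subst h; simp only [↓reduceIte]; rw [ihA hwΓ hwΔ hσ hτ hcA]
    · simp only [Option.some.injEq, h, ↓reduceIte, cst_sub]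

theorem TSub.id (P : Spec S) (Γ : List (Expr S)) : TSub P Expr.var Γ Γ := fun i A h => by
  rw [sub_var]; exact D.var h

/-- Free variables of an erasure at colour `g` have colour `g`. -/
theorem er_sub_congr (hN : Nice P rk) {g : S} {M : Expr S} {Γ : List (Expr S)} (hw : WF P Γ)
    (hM : HasCol P Γ M g) {τ τ' : ℕ → Sk S} (h : ∀ i, VarCol P Γ i g → τ i = τ' i) :
    (er P g Γ M).sub τ = (er P g Γ M).sub τ' := by
  classical
  let π : ℕ → Sk S := fun i => if VarCol P Γ i g then Expr.var i else cst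
  have hπ : ∀ i, VarCol P Γ i g → er P g Γ (Expr.var i) = π i := by
    intro i hi; simp [π, hi, er]
  have e := er_sub hN g (τ := π) hw hw (TSub.id P Γ) hπ hM
  rw [sub_var] at e
  rw [e, sub_sub, sub_sub]
  congr 1
  funext i
  by_cases hi : VarCol P Γ i g
  · simp [π, hi, Expr.sub, h i hi]
  · simp [π, hi, cst_sub]

theorem er_changeHead (hN : Nice P rk) {g : S} {M A A' : Expr S} {Γ : List (Expr S)} {a : S}
    (hw : WF P Γ) (hA : D P Γ A (.sort a)) (hA' : D P Γ A' (.sort a)) (hc : Conv A A')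
    (hM : HasCol P (A :: Γ) M g) : er P g (A' :: Γ) M = er P g (A :: Γ) M := by
  have h := er_sub hN g (σ := Expr.var) (τ := Expr.var) (WF.cons hw hA) (WF.cons hw hA')
    (TSub.changeHead hA hc) (fun i _ => rfl) hM
  rwa [sub_var, sub_var] at h

/-- A β-step either leaves the erasure unchanged or induces a step of the erasure. -/
theorem er_beta (hN : Nice P rk) {g : S} {M M' : Expr S} (hb : Beta M M')
    {Γ : List (Expr S)} (hw : WF P Γ) (hM : HasCol P Γ M g) :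
    er P g Γ M' = er P g Γ M ∨ Beta (er P g Γ M) (er P g Γ M') := by
  classical
  have hP := hN.toBasic
  induction hb generalizing Γ with
  | redex A₀ M N =>
    obtain ⟨A, B, a, hM₁, hN₁, hA, -, -, -, hcL, hcN⟩ := hM.app_inv hP hw
    obtain ⟨B₀, a₀, hA₀, hM₀, -, hPi₀, -, hcM⟩ := hcL.lam_inv hP hw
    obtain ⟨hcA, -⟩ := (D.unique hP (D.abs hM₀ hPi₀) hM₁).pi_inj
    right
    have hN₀ : D P Γ N A₀ := D.conv hN₁ hA₀ hcA.symm
    have e : er P g Γ (M.inst N) = (er P g (A₀ :: Γ) M).inst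
        (if col P Γ N = some g then er P g Γ N else cst) := by
      refine er_sub hN g (WF.cons hw hA₀) hw (TSub.inst hN₀) ?_ hcM
      intro i hi
      cases i with
      | zero =>
        obtain rfl : g = a₀ := hi.zero_inv hP hA₀
        have : col P Γ N = some g := col_eq hP hw ⟨A₀, hN₀, hA₀⟩
        simp [scons, this]
      | succ n => rfl
    rw [e]
    exact Beta.redex _ _ _
  | @appL M M' N hb ih =>
    obtain ⟨A, B, a, -, -, -, -, -, -, hcM, -⟩ := hM.app_inv hP hw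
    rcases ih hw hcM with h | h
    · exact Or.inl (by simp [er, h])
    · exact Or.inr (Beta.appL _ h)
  | @appR M N N' hb ih =>
    obtain ⟨A, B, a, -, -, -, -, -, -, -, hcN⟩ := hM.app_inv hP hw
    have hcN' := hcN.steps hw (Steps.single hb)
    simp only [er, col_eq hP hw hcN, col_eq hP hw hcN']
    split
    · next h =>
      cases h
      rcases ih hw hcN with h | h
      · exact Or.inl (by rw [h])
      · exact Or.inr (Beta.appR _ h)
    · exact Or.inl rfl
  | @lamL A A' M hb _ =>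
    obtain ⟨B, a, hA, -, -, -, -, hcM⟩ := hM.lam_inv hP hw
    left
    simp only [er]
    rw [er_changeHead hN hw hA (subject_reduction hA hw hb) (Conv.step hb) hcM]
  | @lamR A M M' hb ih =>
    obtain ⟨B, a, hA, -, -, -, -, hcM⟩ := hM.lam_inv hP hw
    rcases ih (WF.cons hw hA) hcM with h | h
    · exact Or.inl (by simp [er, h])
    · exact Or.inr (Beta.lamR _ h)
  | @piL A A' B hb ih =>
    obtain ⟨a, b, a', hA, hB, -, -, -, -, hcA, hcB⟩ := hM.pi_inv hN hw
    have hA' := subject_reduction hA hw hb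
    have hcA' := hcA.steps hw (Steps.single hb)
    simp only [er, srt_eq hP hA, srt_eq hP hA', srt_eq hP hB,
      srt_eq hP (hB.changeHead hA (Conv.step hb)), col_eq hP hw hcA, col_eq hP hw hcA',
      er_changeHead hN hw hA hA' (Conv.step hb) hcB]
    split
    · next h =>
      cases h
      rcases ih hw hcA with h | h
      · exact Or.inl (by rw [h])
      · exact Or.inr (Beta.piL _ (Beta.appR _ h))
    · exact Or.inl rfl
  | @piR A B B' hb ih =>
    obtain ⟨a, b, a', hA, hB, -, -, -, -, -, hcB⟩ := hM.pi_inv hN hw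
    simp only [er, srt_eq hP hB, srt_eq hP (subject_reduction hB (WF.cons hw hA) hb)]
    rcases ih (WF.cons hw hA) hcB with h | h
    · exact Or.inl (by rw [h])
    · exact Or.inr (Beta.piR _ h)

theorem er_steps (hN : Nice P rk) {g : S} {M M' : Expr S} (hb : Steps M M')
    {Γ : List (Expr S)} (hw : WF P Γ) (hM : HasCol P Γ M g) :
    Steps (er P g Γ M) (er P g Γ M') := by
  induction hb with
  | refl => exact Steps.refl _
  | @tail X Y hXY hY ih =>
    rcases er_beta hN hY hw (hM.steps hw hXY) with h | h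
    · rw [h]; exact ih
    · exact ih.trans (Steps.single h)

end Vale.Agent.P340
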