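import Vale.Agent.P340.Combine
import Mathlib.Data.Finset.Card
import Mathlib.Data.Finset.Image
import Mathlib.Data.Finset.Union

/-!
# Reduction to a finite fragment with ranked sorts

A derivation uses finitely many sorts. The axioms and rules among them, completed by a fresh
sort above each sort without a sort, form a specification whose sorts carry a rank.
-/

namespace Vale.Agent.P340

universe u v
variable {S : Type u} {S' : Type v}

open Expr Relation

/-- Rename the sorts of an expression. -/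
def Expr.mapS (f : S → S') : Expr S → Expr S'
  | .var i => .var i
  | .sort s => .sort (f s)
  | .app M N => .app (M.mapS f) (N.mapS f)
  | .lam A M => .lam (A.mapS f) (M.mapS f)
  | .pi A B => .pi (A.mapS f) (B.mapS f)

theorem mapS_ren (f : S → S') (M : Expr S) (ρ : ℕ → ℕ) :
    (M.ren ρ).mapS f = (M.mapS f).ren ρ := by
  induction M generalizing ρ <;> simp_all [Expr.ren, Expr.mapS]

theorem mapS_sub (f : S → S') (M : Expr S) (σ : ℕ → Expr S) :
    (M.sub σ).mapS f = (M.mapS f).sub (fun i => (σ i).mapS f) := by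
  have hup : ∀ σ : ℕ → Expr S,
      (fun i => (Expr.up σ i).mapS f) = Expr.up (fun i => (σ i).mapS f) := by
    intro σ; funext i
    cases i with
    | zero => rfl
    | succ n => exact mapS_ren f _ _
  induction M generalizing σ <;> simp_all [Expr.sub, Expr.mapS]

theorem mapS_inst (f : S → S') (M N : Expr S) :
    (M.inst N).mapS f = (M.mapS f).inst (N.mapS f) := by
  rw [inst, mapS_sub]
  refine congrArg _ (funext fun i => ?_)
  cases i <;> rfl

theorem Beta.mapS (f : S → S') {M N : Expr S} (h : Beta M N) : Beta (M.mapS f) (N.mapS f) := by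
  induction h with
  | redex A M N => rw [mapS_inst]; exact Beta.redex _ _ _
  | appL _ _ ih => exact Beta.appL _ ih
  | appR _ _ ih => exact Beta.appR _ ih
  | lamL _ _ ih => exact Beta.lamL _ ih
  | lamR _ _ ih => exact Beta.lamR _ ih
  | piL _ _ ih => exact Beta.piL _ ih
  | piR _ _ ih => exact Beta.piR _ ih

theorem Conv.mapS (f : S → S') {M N : Expr S} (h : Conv M N) :
    Conv (M.mapS f) (N.mapS f) := by
  induction h with
  | rel M N h => exact Conv.step (h.mapS f)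
  | refl M => exact Conv.refl _
  | symm M N _ ih => exact ih.symm
  | trans M N K _ _ ih₁ ih₂ => exact ih₁.trans ih₂

theorem SN.of_mapS (f : S → S') {M : Expr S} (h : SN (M.mapS f)) : SN M := by
  generalize hX : M.mapS f = X at h
  induction h generalizing M with
  | intro X _ ih => exact SN.intro fun N hN => ih _ (hX ▸ hN.mapS f) rfl

/-- The axioms and rules among `F`, with a fresh sort above each sort of `F` without a sort. -/
def completion (P : Spec S) (F : Finset S) : Spec (S ⊕ S) where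
  ax x y := ∃ s, x = Sum.inl s ∧ s ∈ F ∧
    ((∃ t, y = Sum.inl t ∧ P.ax s t) ∨ (y = Sum.inr s ∧ ∀ t, ¬ P.ax s t))
  rule x y z := ∃ a b, x = Sum.inl a ∧ y = Sum.inl b ∧ z = Sum.inl b ∧
    a ∈ F ∧ b ∈ F ∧ P.rule a b b

open Classical in
/-- A derivation lives in the completion of some finite set of sorts. -/
theorem Der.to_completion {P : Spec S} (hgen : ∀ a b c, P.rule a b c → c = b)
    {Γ : List (Expr S)} {M T : Expr S} (h : Der P Γ M T) :
    ∃ F : Finset S, ∀ F', F ⊆ F' →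
      Der (completion P F') (Γ.map (Expr.mapS Sum.inl)) (M.mapS Sum.inl) (T.mapS Sum.inl) := by
  induction h with
  | @axm s t h =>
    exact ⟨{s}, fun F' hF => Der.axm
      ⟨s, rfl, hF (Finset.mem_singleton_self s), Or.inl ⟨t, rfl, h⟩⟩⟩
  | @var Γ A s _ ih =>
    obtain ⟨F, hF⟩ := ih
    refine ⟨F, fun F' h => ?_⟩
    rw [Expr.shift, mapS_ren]
    exact Der.var (hF F' h)
  | @weak Γ M B A s _ _ ih₁ ih₂ =>
    obtain ⟨F₁, h₁⟩ := ih₁
    obtain ⟨F₂, h₂⟩ := ih₂
    refine ⟨F₁ ∪ F₂, fun F' h => ?_⟩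
    rw [Expr.shift, Expr.shift, mapS_ren, mapS_ren]
    exact Der.weak (h₁ F' (Finset.union_subset_left h)) (h₂ F' (Finset.union_subset_right h))
  | @prod Γ A B a b c _ _ hr ih₁ ih₂ =>
    obtain ⟨F₁, h₁⟩ := ih₁
    obtain ⟨F₂, h₂⟩ := ih₂
    obtain rfl := hgen _ _ _ hr
    refine ⟨{a, c} ∪ (F₁ ∪ F₂), fun F' h => ?_⟩
    have ha : a ∈ F' := h (by simp)
    have hc : c ∈ F' := h (by simp)
    exact Der.prod (h₁ F' (fun x hx => h (by simp [hx]))) (h₂ F' (fun x hx => h (by simp [hx])))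
      ⟨a, c, rfl, rfl, rfl, ha, hc, hr⟩
  | abs _ _ ih₁ ih₂ =>
    obtain ⟨F₁, h₁⟩ := ih₁
    obtain ⟨F₂, h₂⟩ := ih₂
    exact ⟨F₁ ∪ F₂, fun F' h => Der.abs (h₁ F' (Finset.union_subset_left h))
      (h₂ F' (Finset.union_subset_right h))⟩
  | app _ _ ih₁ ih₂ =>
    obtain ⟨F₁, h₁⟩ := ih₁
    obtain ⟨F₂, h₂⟩ := ih₂
    refine ⟨F₁ ∪ F₂, fun F' h => ?_⟩
    rw [mapS_inst]
    exact Der.app (h₁ F' (Finset.union_subset_left h)) (h₂ F' (Finset.union_subset_right h))
  | conv _ _ hc ih₁ ih₂ =>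
    obtain ⟨F₁, h₁⟩ := ih₁
    obtain ⟨F₂, h₂⟩ := ih₂
    exact ⟨F₁ ∪ F₂, fun F' h => Der.conv (h₁ F' (Finset.union_subset_left h))
      (h₂ F' (Finset.union_subset_right h)) (hc.mapS _)⟩

/-- The strict order on completed sorts: a fresh sort sits directly above its sort. -/
def Below (le : S → S → Prop) : S ⊕ S → S ⊕ S → Prop
  | .inl s, .inl t => le s t ∧ s ≠ t
  | .inl s, .inr t => le s t
  | .inr s, .inl t => le s t ∧ s ≠ t
  | .inr s, .inr t => le s t ∧ s ≠ t

theorem Below.irrefl {le : S → S → Prop} : ∀ x : S ⊕ S, ¬ Below le x x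
  | .inl _, h => h.2 rfl
  | .inr _, h => h.2 rfl

theorem Below.trans {le : S → S → Prop} (htr : ∀ s t w, le s t → le t w → le s w)
    (has : ∀ s t, le s t → le t s → s = t) :
    ∀ {x y z : S ⊕ S}, Below le x y → Below le y z → Below le x z := by
  rintro (x | x) (y | y) (z | z) h h' <;> simp only [Below] at h h' ⊢ <;>
    first
    | exact htr _ _ _ h.1 h'.1
    | exact htr _ _ _ h.1 h'
    | exact htr _ _ _ h h'.1
    | exact ⟨htr _ _ _ h.1 h'.1, fun e => h'.2 (has _ _ h'.1 (e ▸ h.1))⟩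
    | exact ⟨htr _ _ _ h.1 h', fun e => h.2 (has _ _ h.1 (e ▸ h'))⟩
    | exact ⟨htr _ _ _ h h'.1, fun e => h'.2 (has _ _ h'.1 (e ▸ h))⟩

open Classical in
/-- The finite set of sorts that the completion mentions. -/
noncomputable def sortsOf (P : Spec S) (F : Finset S) : Finset (S ⊕ S) :=
  (F.image Sum.inl ∪ F.image Sum.inr) ∪
    (F.biUnion fun s => if h : ∃ t, P.ax s t then {h.choose} else ∅).image Sum.inl

open Classical in
/-- The rank: how many relevant sorts are above. -/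
noncomputable def rankOf (P : Spec S) (F : Finset S) (le : S → S → Prop) (x : S ⊕ S) : ℕ :=
  ((sortsOf P F).filter (Below le x)).card

open Classical in
theorem rankOf_lt {P : Spec S} {F : Finset S} {le : S → S → Prop}
    (htr : ∀ s t w, le s t → le t w → le s w) (has : ∀ s t, le s t → le t s → s = t)
    {x y : S ⊕ S} (hy : y ∈ sortsOf P F) (h : Below le x y) :
    rankOf P F le y < rankOf P F le x := by
  refine Finset.card_lt_card (Finset.ssubset_iff_of_subset ?_ |>.2 ⟨y, ?_, ?_⟩)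
  · intro z hz
    simp only [Finset.mem_filter] at hz ⊢
    exact ⟨hz.1, Below.trans htr has h hz.2⟩
  · simp [hy, h]
  · simp [Below.irrefl y]

open Classical in
/-- The completion of a finite fragment of a stratified specification is ranked. -/
theorem completion_nice {P : Spec S} (hP : Stratified P) (F : Finset S) :
    ∃ rk : S ⊕ S → ℕ, Nice (completion P F) rk := by
  obtain ⟨le, hrefl, htr, has, hax, hrule, hmono⟩ := hP.ordered
  have hmemF : ∀ s ∈ F, (Sum.inl s : S ⊕ S) ∈ sortsOf P F ∧ Sum.inr s ∈ sortsOf P F :=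
    fun s hs => ⟨Finset.mem_union_left _ (Finset.mem_union_left _ (Finset.mem_image_of_mem _ hs)),
      Finset.mem_union_left _ (Finset.mem_union_right _ (Finset.mem_image_of_mem _ hs))⟩
  have hmemS : ∀ s ∈ F, ∀ t, P.ax s t → (Sum.inl t : S ⊕ S) ∈ sortsOf P F := by
    intro s hs t ht
    refine Finset.mem_union_right _ (Finset.mem_image_of_mem _ (Finset.mem_biUnion.2 ⟨s, hs, ?_⟩))
    have h : ∃ t, P.ax s t := ⟨t, ht⟩
    rw [dif_pos h, Finset.mem_singleton]
    exact hP.functional _ _ _ ht h.choose_spec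
  have hlt : ∀ {x y : S ⊕ S}, y ∈ sortsOf P F → Below le x y →
      rankOf P F le y < rankOf P F le x := fun hy h => rankOf_lt htr has hy h
  refine ⟨rankOf P F le, ⟨⟨?_, ?_⟩, ?_, ?_, ?_, ?_⟩⟩
  · rintro _ y y' ⟨s, rfl, -, h⟩ ⟨s', e, -, h'⟩
    cases e
    rcases h with ⟨t, rfl, ht⟩ | ⟨rfl, hno⟩ <;> rcases h' with ⟨t', rfl, ht'⟩ | ⟨rfl, hno'⟩
    · rw [hP.functional _ _ _ ht ht']
    · exact absurd ht (hno' t)
    · exact absurd ht' (hno t')
    · rfl
  · rintro x y z ⟨a, b, -, rfl, rfl, -⟩; rfl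
  · rintro _ y ⟨s, rfl, hs, ⟨t, rfl, ht⟩ | ⟨rfl, -⟩⟩
    · exact hlt (hmemS s hs t ht) (hax s t ht)
    · exact hlt (hmemF s hs).2 (hrefl s)
  · rintro _ _ ⟨a, b, rfl, e, -, ha, -, hr⟩
    cases e
    by_cases hab : a = b
    · exact Or.inl (by rw [hab])
    · exact Or.inr (hlt (hmemF a ha).1 ⟨hrule a b hr, Ne.symm hab⟩)
  · rintro _ _ ⟨a, b, rfl, e, -, ha, hb, -⟩
    cases e
    have hsucc : ∀ s ∈ F, ∃ y, (completion P F).ax (Sum.inl s) y := by
      intro s hs
      by_cases h : ∃ t, P.ax s t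
      · obtain ⟨t, ht⟩ := h
        exact ⟨_, s, rfl, hs, Or.inl ⟨t, rfl, ht⟩⟩
      · exact ⟨_, s, rfl, hs, Or.inr ⟨rfl, fun t ht => h ⟨t, ht⟩⟩⟩
    exact ⟨hsucc a ha, hsucc b hb⟩
  · rintro _ _ a' b' ⟨a, b, rfl, e, -, -, -, hr⟩ ⟨s, e₁, hs, h₁⟩ ⟨t, e₂, ht, h₂⟩
    cases e; cases e₁; cases e₂
    have hba := hrule a b hr
    rcases h₁ with ⟨a₁, rfl, ha₁⟩ | ⟨rfl, hna⟩ <;> rcases h₂ with ⟨b₁, rfl, hb₁⟩ | ⟨rfl, hnb⟩
    · have hle : le b₁ a₁ := by
        rcases hmono a b b₁ hr hb₁ with h | ⟨a'', ha'', h⟩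
        · exact htr _ _ _ h (hax a a₁ ha₁).1
        · rwa [hP.functional _ _ _ ha₁ ha'']
      by_cases he : a₁ = b₁
      · exact Or.inl (by rw [he])
      · exact Or.inr (hlt (hmemS a hs a₁ ha₁) ⟨hle, Ne.symm he⟩)
    · refine Or.inr (hlt (hmemS a hs a₁ ha₁) ⟨htr _ _ _ hba (hax a a₁ ha₁).1, fun e => ?_⟩)
      exact (hax a a₁ ha₁).2 (has _ _ (hax a a₁ ha₁).1 (e ▸ hba))
    · refine Or.inr (hlt (hmemF a hs).2 ?_)
      rcases hmono a b b₁ hr hb₁ with h | ⟨a'', ha'', -⟩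
      · exact h
      · exact absurd ha'' (hna a'')
    · by_cases hab : a = b
      · exact Or.inl (by rw [hab])
      · exact Or.inr (hlt (hmemF a hs).2 ⟨hba, Ne.symm hab⟩)

theorem completion_pattern {P : Spec S} {F : Finset S} (h : LambdaUPattern (completion P F)) :
    LambdaUPattern P := by
  obtain ⟨x, y, z, hxy, hyz, h₁, h₂, h₃, h₄⟩ := h
  obtain ⟨g, g', rfl, e, -, -, -, hgg⟩ := h₁
  cases e
  obtain ⟨k, g₂, rfl, e, -, -, -, hkg⟩ := h₂
  cases e
  obtain ⟨k₂, k₃, e, e', -, -, -, hkk⟩ := h₃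
  cases e; cases e'
  obtain ⟨K, k₄, rfl, e, -, -, -, hKk⟩ := h₄
  cases e
  obtain ⟨s, e, -, ⟨t, e', hgk⟩ | ⟨e', -⟩⟩ := hxy
  swap
  · cases e'
  cases e; cases e'
  obtain ⟨s, e, -, ⟨t, e', hkK⟩ | ⟨e', -⟩⟩ := hyz
  swap
  · cases e'
  cases e; cases e'
  exact ⟨g, k, K, hgk, hkK, hgg, hkg, hkk, hKk⟩

/-- Without the pattern, every legal expression of a stratified specification is SN. -/
theorem sn_of_no_pattern {P : Spec S} (hP : Stratified P) (hno : ¬ LambdaUPattern P)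
    {M : Expr S} (hM : Legal P M) : SN M := by
  obtain ⟨Γ, T, h | h⟩ := hM
  all_goals
    obtain ⟨F, hF⟩ := h.to_completion hP.generalized
    obtain ⟨rk, hN⟩ := completion_nice hP F
    have hsn := sn_of_der hN (fun hp => hno (completion_pattern hp)) (hF F (Finset.Subset.refl F))
  · exact hsn.1.of_mapS
  · exact hsn.2.of_mapS

end Vale.Agent.P340
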