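import Vale.Agent.P340.Equations

/-!
# The fundamental theorem: every erasure is strongly normalizing

By induction on the rank of a colour `c` we prove that erasures at colour `c` are reducible
and that values at colour `c` are invariant under β-steps.
-/

namespace Vale.Agent.P340

universe u
variable {S : Type u}

open Expr Relation

variable {P : Spec S} {rk : S → ℕ}

/-- Erasures at colour `c` are reducible. -/
def FT (P : Spec S) (rk : S → ℕ) (c : S) : Prop :=
  ∀ Γ e M T (τ : ℕ → Sk S), WF P Γ → GoodEnv P rk Γ e → D P Γ M T → D P Γ T (.sort c) →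
    (∀ i A, Lookup Γ i A → D P Γ A (.sort c) → τ i ∈ (Red P rk c Γ A e).1) →
    (er P c Γ M).sub τ ∈ (Red P rk c Γ T e).1

theorem esk_mem (hN : Nice P rk) {Γ : List (Expr S)} (hw : WF P Γ) {e : Env S}
    (he : GoodEnv P rk Γ e) {i : ℕ} {A : Expr S} {c : S} (hl : Lookup Γ i A)
    (hA : D P Γ A (.sort c)) : esk e i ∈ (Red P rk c Γ A e).1 :=
  (he.var_spec hN hw hl hA).1

theorem FT.erSN (hN : Nice P rk) {k : S} (h : FT P rk k) : ErSN P rk k := by
  rintro Γ e M hw he ⟨T, hM, hT⟩
  exact (Red P rk k Γ T e).2.sn _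
    (h Γ e M T (esk e) hw he hM hT fun i A hl hA => esk_mem hN hw he hl hA)

/-- What is known about the colours above `c`. -/
def Higher (P : Spec S) (rk : S → ℕ) (c : S) : Prop :=
  ∀ x, rk x < rk c → FT P rk x ∧ SemInv P rk x

theorem Higher.semShape (hN : Nice P rk) {c a : S} (h : Higher P rk c) (ha : Above rk a c) :
    SemShape P rk a := by
  refine Vale.Agent.P340.semShape hN a fun _ k hk => ((h k ?_).1).erSN hN
  rcases ha with rfl | ha
  · exact hN.ax_lt _ _ hk
  · exact lt_trans (hN.ax_lt _ _ hk) ha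

theorem argEntry_good (hN : Nice P rk) {c a : S} (h : Higher P rk c) (hac : rk a < rk c)
    {Γ : List (Expr S)} (hw : WF P Γ) {e : Env S} (he : GoodEnv P rk Γ e) {A N : Expr S}
    (hNA : D P Γ N A) (hA : D P Γ A (.sort a)) :
    Good P rk a Γ A e (argEntry P rk a Γ N e) := by
  refine ⟨(h a hac).1 Γ e N A (esk e) hw he hNA hA fun i B hl hB => esk_mem hN hw he hl hB,
    fun hW => ?_⟩
  rw [argEntry_val]
  exact h.semShape hN (Above.of_lt hac) hW Γ e N A hw he hNA hA

open Classical in
theorem ft_step (hN : Nice P rk) (hno : ¬ LambdaUPattern P) (c : S) (h : Higher P rk c) :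
    FT P rk c := by
  have hP := hN.toBasic
  have hI : ∀ k, P.ax c k → SemInv P rk k := fun k hk => (h k (hN.ax_lt _ _ hk)).2
  intro Γ e M T τ hw he hM hT hτ
  induction M generalizing Γ e T τ with
  | var i =>
    obtain ⟨A, hA, hc⟩ := gen_var hM
    obtain ⟨s, hs⟩ := hw.lookup hA
    obtain rfl : s = c := HasCol.unique hP hw ⟨A, D.var hA, hs⟩ ⟨T, hM, hT⟩
    rw [← red_conv hN hI hw he hs hT hc]
    exact hτ i A hA hs
  | sort s => exact cst_mem _
  | app M N ihM ihN =>
    obtain ⟨A, B, a, hM₁, hN₁, hA, hB, hPi, hr, -, hcN⟩ := HasCol.app_inv hP hw ⟨T, hM, hT⟩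
    have eN := col_eq hP hw hcN
    have hmem := ihM _ _ _ τ hw he hM₁ hPi hτ
    rw [← red_conv hN hI hw he (hB.inst hN₁) hT (D.unique hP (D.app hM₁ hN₁) hM)]
    simp only [er, Expr.sub]
    by_cases hR : P.rule c c c
    · obtain ⟨-, k, hk⟩ := hN.succs _ _ hR
      rw [red_pi hN hno hw he hR hk ((h k (hN.ax_lt _ _ hk)).1.erSN hN) hA hB hr] at hmem
      have hgood : Good P rk a Γ A e
          (if a = c then mkE cst (rk c) (sem P rk N c Γ e) else argEntry P rk a Γ N e) := by
        by_cases hac : a = c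
        · subst hac
          rw [if_pos rfl]
          refine ⟨cst_mem _, fun hW => ?_⟩
          show (single (rk a) (sem P rk N a Γ e) (rk a)).1 = _
          rw [single_self]
          exact h.semShape hN (Above.refl _ _) hW Γ e N A hw he hN₁ hA
        · rw [if_neg hac]
          exact argEntry_good hN h ((hN.rule_le _ _ hr).resolve_left hac) hw he hN₁ hA
      have hu : (if col P Γ N = some c then er P c Γ N else cst).sub τ ∈
          argSet (if a = c then (.inl (Red P rk c Γ A e) : Cand S ⊕ PUnit) else .inr ⟨⟩) := by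
        by_cases hac : a = c
        · subst hac
          rw [if_pos eN, if_pos rfl]
          exact ihN _ _ _ τ hw he hN₁ hA hτ
        · simp only [eN, Option.some.injEq, hac, ↓reduceIte, cst_sub]
          rfl
      have hres := (mem_piC.1 hmem).2 id _ _ hgood hu
      rw [ren_id] at hres
      refine (?_ : Red P rk c (A :: Γ) B _ = Red P rk c Γ (B.inst N) e) ▸ hres
      refine (red_sub hN (WF.cons hw hA) hw (TSub.inst hN₁) (envSub_inst hN hA ?_ ?_) hB).symm
      · intro _ _
        by_cases hac : a = c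
        · subst hac; rw [if_pos rfl]; exact single_self _ _
        · rw [if_neg hac]; exact argEntry_val a Γ N e
      · intro hlt
        rw [if_neg (fun e => hlt.ne (by rw [e]))]
        exact Conv.refl _
    · have hac : a ≠ c := fun e => hR (e ▸ hr)
      rw [Red, redOf_lin hR] at hmem ⊢
      rw [if_neg (by rw [eN]; simpa using hac), cst_sub]
      exact linC_app hmem
  | lam A M _ ihM =>
    obtain ⟨B, a, hA, hM₁, hB, hPi, hr, -⟩ := HasCol.lam_inv hP hw ⟨T, hM, hT⟩
    rw [← red_conv hN hI hw he hPi hT (D.unique hP (D.abs hM₁ hPi) hM)]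
    have hbody : ∀ (ρ : ℕ → ℕ) (ε : Entry S) (u : Sk S), Good P rk a Γ A e ε →
        (a = c → u ∈ (Red P rk c Γ A e).1) →
        ((((er P c (A :: Γ) M).sub (Expr.up τ)).ren (upRen ρ)).inst u) ∈
          (Red P rk c (A :: Γ) B (econs ε e)).1 := by
      intro ρ ε u hε hu
      rw [ren_sub_comp, ren_up, sub_up_inst]
      refine ihM _ _ _ _ (WF.cons hw hA) (he.cons hP hA hε) hM₁ hB ?_
      intro i A' hl hA'
      cases hl with
      | zero =>
        obtain rfl : a = c := D.sort_unique hP (hA.weaken A) hA'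
        rw [red_shift hN hw hA hA]
        exact hu rfl
      | @succ _ _ A₀ j hl =>
        obtain ⟨s, hs⟩ := hw.lookup hl
        obtain rfl : s = c := D.sort_unique hP (hs.weaken A) hA'
        rw [red_shift hN hw hA hs]
        exact (Red P rk s Γ A₀ e).2.ren _ (hτ j A₀ hl hs) ρ
    simp only [er, Expr.sub, cst_sub]
    by_cases hR : P.rule c c c
    · obtain ⟨-, k, hk⟩ := hN.succs _ _ hR
      rw [red_pi hN hno hw he hR hk ((h k (hN.ax_lt _ _ hk)).1.erSN hN) hA hB hr]
      refine mem_piC.2 ⟨?_, fun ρ ε u hε hu => ?_⟩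
      · have := (Red P rk c (A :: Γ) B (econs (canon P rk a Γ A e) e)).2.sn _
          (hbody id _ cst (canon_good P rk a Γ A e) (fun _ => cst_mem _))
        rw [upRen_id, ren_id] at this
        exact SN.lam (SN.sort _) this.of_sub
      · refine lam_app_mem _ (argSet_sn hu) (hbody ρ ε u hε fun hac => ?_)
        rw [if_pos hac] at hu
        exact hu
    · rw [Red, redOf_lin hR]
      refine linC_intro fun ρ => lam_app_mem _ (SN.sort _) ?_
      have := hbody ρ _ cst (canon_good P rk a Γ A e) (fun _ => cst_mem _)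
      rw [Red, redOf_lin hR] at this
      exact this
  | pi A B ihA ihB =>
    obtain ⟨a, b, a', hA, hB, hr, hb, ha', -, hcA, -⟩ := HasCol.pi_inv hN hw ⟨T, hM, hT⟩
    simp only [er, skPi_sub]
    refine skPi_mem _ ?_ ?_
    · by_cases hac : a' = c
      · subst hac
        rw [if_pos (col_eq hP hw hcA)]
        exact (Red P rk a' Γ (.sort a) e).2.sn _ (ihA _ _ _ τ hw he hA (D.axm ha') hτ)
      · rw [if_neg (by rw [col_eq hP hw hcA]; simpa using hac), cst_sub]
        exact SN.sort _
    · refine (Red P rk c (A :: Γ) (.sort b) _).2.sn _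
        (ihB _ _ _ _ (WF.cons hw hA) (he.cons hP hA (canon_good P rk a Γ A e)) hB (D.axm hb) ?_)
      intro i A' hl hA'
      cases hl with
      | zero => exact var_mem _ 0
      | @succ _ _ A₀ j hl =>
        obtain ⟨s, hs⟩ := hw.lookup hl
        obtain rfl : s = c := D.sort_unique hP (hs.weaken A) hA'
        rw [red_shift hN hw hA hs]
        exact (Red P rk s Γ A₀ e).2.ren _ (hτ j A₀ hl hs) _

/-- Changing the type of the last variable to a convertible one. -/
theorem sem_changeHead (hN : Nice P rk) {Γ : List (Expr S)} (hw : WF P Γ) {A A' M : Expr S}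
    {a c : S} (hA : D P Γ A (.sort a)) (hA' : D P Γ A' (.sort a)) (hc : Conv A A')
    (hM : HasCol P (A :: Γ) M c) (e : Env S) :
    sem P rk M c (A' :: Γ) e = sem P rk M c (A :: Γ) e := by
  have := sem_sub hN (σ := Expr.var) (e := e) (e' := e) (WF.cons hw hA) (WF.cons hw hA')
    (TSub.changeHead hA hc)
    (fun i x _ => ⟨fun _ hW => by rw [sem_var hW], fun _ => Conv.refl _⟩) hM
  rwa [sub_var] at this

theorem good_conv (hN : Nice P rk) {Γ : List (Expr S)} (hw : WF P Γ) {e : Env S}
    (he : GoodEnv P rk Γ e) {A A' : Expr S} {a : S} (hI : ∀ k, P.ax a k → SemInv P rk k)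
    (hA : D P Γ A (.sort a)) (hA' : D P Γ A' (.sort a)) (hc : Conv A A') (ε : Entry S) :
    Good P rk a Γ A e ε ↔ Good P rk a Γ A' e ε :=
  good_congr hN.toBasic
    (fun _ k hk _ => (hI k hk).conv hw he (HasCol.of_sort hA hk) (HasCol.of_sort hA' hk) hc)
    (shape_conv hN hw hA hA' hc e) ε

open Classical in
theorem semInv_step (hN : Nice P rk) (c : S) (h : Higher P rk c) : SemInv P rk c := by
  have hP := hN.toBasic
  intro Γ e M M' hw he hM hb
  by_cases hW : Weak P c
  swap
  · rw [sem_not_weak hW, sem_not_weak hW]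
  have hSh : SemShape P rk c := h.semShape hN (Above.refl _ _)
  induction hb generalizing Γ e with
  | redex A₀ M N =>
    obtain ⟨A, B, a, hL, hN₁, hA, -, -, hr, hcL, hcN⟩ := hM.app_inv hP hw
    obtain ⟨B₀, a₀, hA₀, hM₀, hB₀, hPi₀, -, hcM⟩ := hcL.lam_inv hP hw
    obtain ⟨hcA, -⟩ := (D.unique hP (D.abs hM₀ hPi₀) hL).pi_inj
    have hN₀ : D P Γ N A₀ := D.conv hN₁ hA₀ hcA.symm
    obtain rfl : a₀ = a := HasCol.unique hP hw ⟨A₀, hN₀, hA₀⟩ hcN
    have eN := col_eq hP hw hcN
    have eA := srt_eq hP hA₀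
    have hfinal : ∀ ε : Entry S, (Above rk a₀ c → Weak P a₀ → ε.val (rk a₀) = sem P rk N a₀ Γ e) →
        (rk a₀ < rk c → Conv ε.sk ((er P a₀ Γ N).sub (esk e))) →
        lamBody P rk A₀ M c Γ e ε = sem P rk (M.inst N) c Γ e := fun ε h₁ h₂ =>
      (sem_sub hN (WF.cons hw hA₀) hw (TSub.inst hN₀) (envSub_inst hN hA₀ h₁ h₂) hcM).symm
    have hsh : ∀ ε, Good P rk a₀ Γ A₀ e ε → P.rule c c c →
        (lamBody P rk A₀ M c Γ e ε).1 = (lamBody P rk A₀ M c Γ e (canon P rk a₀ Γ A₀ e)).1 := by
      intro ε hε hR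
      obtain ⟨-, k, hk⟩ := hN.succs _ _ hR
      have hak : a₀ ≠ k := ne_succ_of_weak hW hR hk hr
      unfold lamBody
      rw [hSh hW _ _ _ _ (WF.cons hw hA₀) (he.cons hP hA₀ hε) hM₀ hB₀,
        hSh hW _ _ _ _ (WF.cons hw hA₀)
          (he.cons hP hA₀ (canon_good P rk a₀ Γ A₀ e)) hM₀ hB₀]
      exact shape_ext hN hw hA₀ hB₀ (fun _ k' hk' => (hN.functional _ _ _ hk hk') ▸ hak) _ _ e
    by_cases hac : a₀ = c
    · subst hac
      rw [sem_app_same eN, sem_lam_same hW eA]
      have hv : (sem P rk N a₀ Γ e).1 = shape P a₀ Γ A₀ e := hSh hW Γ e N A₀ hw he hN₀ hA₀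
      have hε : Good P rk a₀ Γ A₀ e (mkE cst (rk a₀) (sem P rk N a₀ Γ e)) :=
        ⟨cst_mem _, fun _ => by
          show (single (rk a₀) (sem P rk N a₀ Γ e) (rk a₀)).1 = _
          rw [single_self]; exact hv⟩
      show (⟨_, coerce _ (lamBody P rk A₀ M a₀ Γ e
        (mkE cst (rk a₀) ⟨shape P a₀ Γ A₀ e, coerce _ (sem P rk N a₀ Γ e)⟩))⟩ : Val S (rk a₀)) = _
      rw [coerce_eta _ hv, coerce_eta _ (hsh _ hε hr)]
      exact hfinal _ (fun _ _ => single_self _ _) (fun hlt => absurd hlt (lt_irrefl _))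
    · have hlt : rk a₀ < rk c := (hN.rule_le _ _ hr).resolve_left hac
      by_cases hR : P.rule c c c
      · rw [sem_app_high eN hac hR, sem_lam_high hW eA hac hR]
        have hgA := argEntry_good hN h hlt hw he hN₀ hA₀
        have hsn : SN ((er P a₀ Γ N).sub (esk e)) := (Red P rk a₀ Γ A₀ e).2.sn _ hgA.1
        let ε : Entry S := ⟨nfSk ((er P a₀ Γ N).sub (esk e)),
          getTup (rk c) (mkTup (rk c) (single (rk a₀) (sem P rk N a₀ Γ e)))⟩
        have hval : ε.val (rk a₀) = sem P rk N a₀ Γ e := by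
          show getTup _ _ _ = _
          rw [getTup_mkTup hlt, single_self]
        have hg : Good P rk a₀ Γ A₀ e ε := by
          refine ⟨Cand.steps_mem _ (nfSk_spec hsn).1 hgA.1, fun hWa => ?_⟩
          rw [hval]
          exact h.semShape hN (Above.of_lt hlt) hWa Γ e N A₀ hw he hN₀ hA₀
        show (⟨_, coerce _ (if Good P rk a₀ Γ A₀ e ε then lamBody P rk A₀ M c Γ e ε
          else lamBody P rk A₀ M c Γ e (canon P rk a₀ Γ A₀ e))⟩ : Val S (rk c)) = _
        rw [if_pos hg, coerce_eta _ (hsh ε hg hR)]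
        exact hfinal ε (fun _ _ => hval) (fun _ => (nfSk_spec hsn).1.conv.symm)
      · rw [sem_app_skip eN hac hR, sem_lam_skip hW eA hac hR,
          ← hfinal (argEntry P rk a₀ Γ N e) (fun _ _ => argEntry_val a₀ Γ N e)
            (fun _ => Conv.refl _)]
        refine sem_spine hN hR (WF.cons hw hA₀) hcM fun i hi => ?_
        cases i with
        | zero => exact absurd (hi.zero_inv hP hA₀).symm hac
        | succ n => rfl
  | @appL M M' N hb ih =>
    obtain ⟨A, B, a, -, -, -, -, -, hr, hcM, hcN⟩ := hM.app_inv hP hw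
    have eN := col_eq hP hw hcN
    by_cases hac : a = c
    · subst hac
      rw [sem_app_same eN, sem_app_same eN, ih _ _ hw he hcM]
    · by_cases hR : P.rule c c c
      · rw [sem_app_high eN hac hR, sem_app_high eN hac hR, ih _ _ hw he hcM]
      · rw [sem_app_skip eN hac hR, sem_app_skip eN hac hR, ih _ _ hw he hcM]
  | @appR M N N' hb ih =>
    obtain ⟨A, B, a, -, -, -, -, -, hr, -, hcN⟩ := hM.app_inv hP hw
    have hcN' := hcN.steps hw (Steps.single hb)
    have eN := col_eq hP hw hcN
    have eN' := col_eq hP hw hcN'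
    by_cases hac : a = c
    · subst hac
      rw [sem_app_same eN, sem_app_same eN', ih _ _ hw he hcN]
    · have hlt : rk a < rk c := (hN.rule_le _ _ hr).resolve_left hac
      by_cases hR : P.rule c c c
      · rw [sem_app_high eN hac hR, sem_app_high eN' hac hR,
          (h a hlt).2 Γ e N N' hw he hcN hb,
          nfSk_conv ((er_steps hN (Steps.single hb) hw hcN).conv.sub (esk e))]
      · rw [sem_app_skip eN hac hR, sem_app_skip eN' hac hR]
  | @lamL A A' M hb _ =>
    obtain ⟨B, a, hA, -, -, -, hr, hcM⟩ := hM.lam_inv hP hw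
    have hA' := subject_reduction hA hw hb
    have hcv := Conv.step hb
    have hk : ∀ k, P.ax a k → SemInv P rk k := fun k hk => by
      refine (h k ?_).2
      rcases hN.rule_le a c hr with rfl | h'
      · exact hN.ax_lt _ _ hk
      · exact lt_trans (hN.ax_lt _ _ hk) h'
    have hs : shape P a Γ A' e = shape P a Γ A e := (shape_conv hN hw hA hA' hcv e).symm
    have hcanon : canon P rk a Γ A' e = canon P rk a Γ A e := by unfold canon; rw [hs]
    have hbody : ∀ ε, lamBody P rk A' M c Γ e ε = lamBody P rk A M c Γ e ε := fun ε =>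
      sem_changeHead hN hw hA hA' hcv hcM _
    by_cases hac : a = c
    · subst hac
      rw [sem_lam_same hW (srt_eq hP hA), sem_lam_same hW (srt_eq hP hA'), hs, hcanon]
      simp only [hbody]
    · by_cases hR : P.rule c c c
      · rw [sem_lam_high hW (srt_eq hP hA) hac hR, sem_lam_high hW (srt_eq hP hA') hac hR, hcanon]
        simp only [hbody, good_conv hN hw he hk hA hA' hcv]
      · rw [sem_lam_skip hW (srt_eq hP hA) hac hR, sem_lam_skip hW (srt_eq hP hA') hac hR,
          hcanon, hbody]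
  | @lamR A M M' hb ih =>
    obtain ⟨B, a, hA, -, -, -, -, hcM⟩ := hM.lam_inv hP hw
    have eA := srt_eq hP hA
    have hbody : ∀ ε, Good P rk a Γ A e ε →
        lamBody P rk A M c Γ e ε = lamBody P rk A M' c Γ e ε := fun ε hε =>
      ih _ _ (WF.cons hw hA) (he.cons hP hA hε) hcM
    have hc₀ := hbody _ (canon_good P rk a Γ A e)
    by_cases hac : a = c
    · subst hac
      rw [sem_lam_same hW eA, sem_lam_same hW eA, hc₀]
      congr 1
      funext v
      refine hbody _ ⟨cst_mem _, fun _ => ?_⟩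
      exact congrArg Sigma.fst (single_self (S := S) _ _)
    · by_cases hR : P.rule c c c
      · rw [sem_lam_high hW eA hac hR, sem_lam_high hW eA hac hR, hc₀]
        congr 1
        funext p
        split
        · next hg => exact hbody _ hg
        · rfl
      · rw [sem_lam_skip hW eA hac hR, sem_lam_skip hW eA hac hR, hc₀]
  | @piL A A' B hb ih =>
    obtain ⟨a, b, a', hA, hB, hr, hb', ha', -, hcA, hcB⟩ := hM.pi_inv hN hw
    have hA' := subject_reduction hA hw hb
    have hcv := Conv.step hb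
    rw [sem_pi hW (srt_eq hP hA) (srt_eq hP hB) hb',
      sem_pi hW (srt_eq hP hA') (srt_eq hP (hB.changeHead hA hcv)) hb']
    have hbody : ∀ ε, piBody P rk A' B c Γ e ε = piBody P rk A B c Γ e ε := fun ε =>
      congrArg toC (sem_changeHead hN hw hA hA' hcv hcB _)
    have hs : shape P a Γ A' e = shape P a Γ A e := (shape_conv hN hw hA hA' hcv e).symm
    have hcanon : canon P rk a Γ A' e = canon P rk a Γ A e := by unfold canon; rw [hs]
    refine congrArg (mkC _) ?_
    by_cases hab : a = b
    · subst hab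
      obtain rfl : a' = c := hN.functional _ _ _ ha' hb'
      rw [if_pos rfl, if_pos rfl, hcanon, hbody, ih _ _ hw he hcA]
    · rw [if_neg hab, if_neg hab]
      by_cases hq : (a = c ∨ P.rule c c c) ∧ Above rk a c
      · rw [if_pos hq, if_pos hq]
        refine piC_congr (fun ε => ?_) rfl (fun ε _ => (hbody ε).symm)
        refine good_conv hN hw he (fun k hk => (h k ?_).2) hA hA' hcv ε
        rcases hq.2 with rfl | h'
        · exact hN.ax_lt _ _ hk
        · exact lt_trans (hN.ax_lt _ _ hk) h'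
      · rw [if_neg hq, if_neg hq, hcanon, hbody]
  | @piR A B B' hb ih =>
    obtain ⟨a, b, a', hA, hB, -, hb', -, -, -, hcB⟩ := hM.pi_inv hN hw
    rw [sem_pi hW (srt_eq hP hA) (srt_eq hP hB) hb',
      sem_pi hW (srt_eq hP hA) (srt_eq hP (subject_reduction hB (WF.cons hw hA) hb)) hb']
    have hbody : ∀ ε, Good P rk a Γ A e ε →
        piBody P rk A B c Γ e ε = piBody P rk A B' c Γ e ε := fun ε hε =>
      congrArg toC (ih _ _ (WF.cons hw hA) (he.cons hP hA hε) hcB)
    refine congrArg (mkC _) ?_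
    rw [hbody _ (canon_good P rk a Γ A e)]
    rw [piC_congr (fun _ => Iff.rfl) rfl hbody]

/-- All colours. -/
theorem normalization (hN : Nice P rk) (hno : ¬ LambdaUPattern P) (c : S) :
    FT P rk c ∧ SemInv P rk c := by
  induction hn : rk c using Nat.strong_induction_on generalizing c with
  | _ n ih =>
    have h : Higher P rk c := fun x hx => ih (rk x) (hn ▸ hx) x rfl
    exact ⟨ft_step hN hno c h, semInv_step hN c h⟩

/-- Erasures of typed expressions are strongly normalizing. -/
theorem er_sn (hN : Nice P rk) (hno : ¬ LambdaUPattern P) {Γ : List (Expr S)} (hw : WF P Γ)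
    {M : Expr S} {c : S} (hM : HasCol P Γ M c) : SN (er P c Γ M) := by
  obtain ⟨e, he⟩ := exists_goodEnv (rk := rk) hN.toBasic hw
  exact (((normalization hN hno c).1.erSN hN) Γ e M hw he hM).of_sub

end Vale.Agent.P340
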