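import Vale.Agent.P340.OcSim

/-!
# Absorbing a value into a junk type

A value of a type in the scope of some binders is absorbed into a closed junk type: the binders
are packed into nested pairs of fixed answer type, lifted along paths of the rule graph, and
given to a closed constant.
-/

namespace Vale.Agent.P340.Oc

open Relation
open St (UTm)

universe u
variable {S : Type u}

/-- A box whose context has no other free variable. -/
def CBox (v X : UTm) : Prop :=
  ∃ Z, UTm.RelI Z ∧ UTm.Occ 0 Z ∧ (∀ i, UTm.Occ i Z → i = 0) ∧ X = UTm.inst Z v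

theorem CBox.refl (v : UTm) : CBox v v := ⟨.var 0, trivial, rfl, fun _ h => h, rfl⟩

theorem CBox.box {v X : UTm} (h : CBox v X) : Box v X :=
  h.elim fun Z hZ => ⟨Z, hZ.1, hZ.2.1, hZ.2.2.2⟩

theorem sub_congr_occ (Z : UTm) : ∀ {f g : ℕ → UTm}, (∀ i, UTm.Occ i Z → f i = g i) →
    UTm.sub f Z = UTm.sub g Z := by
  induction Z with
  | var n => intro f g h; exact h n rfl
  | cst c => intros; rfl
  | app a b ha hb =>
    intro f g h
    simp only [UTm.sub, ha fun i hi => h i (Or.inl hi), hb fun i hi => h i (Or.inr hi)]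
  | lam b hb =>
    intro f g h
    simp only [UTm.sub]
    rw [hb (g := UTm.up g) ?_]
    intro i hi
    cases i with
    | zero => rfl
    | succ n => simp only [UTm.up, h n hi]

/-- A closed box of a substituted term comes from a box of the term. -/
theorem CBox.sub_inv {v X : UTm} {f : ℕ → UTm} (h : CBox (UTm.sub f v) X) :
    ∃ X₀, CBox v X₀ ∧ X = UTm.sub f X₀ := by
  obtain ⟨Z, hI, h0, hc, rfl⟩ := h
  refine ⟨_, ⟨Z, hI, h0, hc, rfl⟩, ?_⟩
  simp only [UTm.inst, UTm.sub_sub]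
  refine sub_congr_occ Z fun i hi => ?_
  obtain rfl := hc i hi
  rfl

theorem CBox.trans {v w X : UTm} (h : CBox v w) (h' : CBox w X) : CBox v X := by
  obtain ⟨Z, hI, h0, hc, rfl⟩ := h
  obtain ⟨Z', hI', h0', hc', rfl⟩ := h'
  refine ⟨UTm.sub (UTm.scons Z fun n => .var (n + 1)) Z', UTm.relI_sub hI' _ ?_,
    (UTm.occ_sub _ _ _).2 ⟨0, h0', h0⟩, ?_, ?_⟩
  · rintro (_ | n)
    · exact hI
    · trivial
  · intro i hi
    obtain ⟨j, hj, hi⟩ := (UTm.occ_sub _ _ _).1 hi
    obtain rfl := hc' j hj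
    exact hc i hi
  · simp only [UTm.inst, UTm.sub_sub]
    congr 1
    funext n; cases n <;> rfl

/-- One constant applied. -/
theorem CBox.cstApp (v : UTm) : CBox v (.app (.cst 0) v) :=
  ⟨.app (.cst 0) (.var 0), ⟨trivial, trivial⟩, Or.inr rfl,
    fun _ h => h.elim False.elim id, rfl⟩

theorem OddPath.first {P : Spec S} {a b : S} (h : OddPath P a b) : ∃ z, Edge P a z := by
  cases h with
  | one h => exact ⟨_, h⟩
  | more h _ _ => exact ⟨_, h⟩

variable {P : Spec S}

/-- An applied constant between junk-like closed types. -/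
theorem cst_app {Δ : List (St.Tm S)} {g : KEnv} {X A B : St.Tm S} {u : UTm} {k : TK} {p q : S}
    (hA : St.Has (QS P) [] A (.srt p)) (hB : St.Has (QS P) [] B (.srt q)) (he : Edge P p q)
    (hX : St.Has (QS P) Δ X A) (hu : Er g k X u) :
    St.Has (QS P) Δ (.app (.cst 0 (arr A B)) X) B ∧
      Er g .junk (.app (.cst 0 (arr A B)) X) (.app (.cst 0) u) := by
  refine ⟨?_, .eApp .eCst hu⟩
  have hc : St.Has (QS P) Δ (.cst 0 (arr A B)) (arr A B) :=
    hX.wf.weakenClosed (St.Has.cst 0 trivial (has_arr hA hB he))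
  have := St.Has.app hc hX
  rwa [St.Tm.inst_sh] at this

/-- Conversion between junk types. -/
theorem conv_path {a b : S} (h : OddPath P a b) :
    ∀ {Δ : List (St.Tm S)} {g : KEnv} {k : TK} {X : St.Tm S} {u : UTm},
      St.Has (QS P) Δ X (W P a) → Er g k X u →
      ∃ X' u', St.Has (QS P) Δ X' (W P b) ∧ Er g .junk X' u' ∧ CBox u u' := by
  induction h with
  | @one a b h =>
    intro Δ g k X u hX hu
    obtain ⟨h₁, h₂⟩ := cst_app (W_typed h.2.1) (W_typed h.2.2) h hX hu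
    exact ⟨_, _, h₁, h₂, CBox.cstApp u⟩
  | @more a p q b h₁ h₂ _ ih =>
    intro Δ g k X u hX hu
    obtain ⟨t₁, e₁⟩ := cst_app (W_typed h₁.2.1) (W_typed h₁.2.2) h₁ hX hu
    obtain ⟨t₂, e₂⟩ := cst_app (W_typed h₂.2.1) (W_typed h₂.2.2) h₂ t₁ e₁
    obtain ⟨X', u', t₃, e₃, hb⟩ := ih t₂ e₂
    exact ⟨X', u', t₃, e₃, ((CBox.cstApp u).trans (CBox.cstApp _)).trans hb⟩

/-- Conversion between junk types of targets. -/
theorem conv_tgt (hC : OddlyConnected P) {a b : S} (ha : Tgt P a) (hb : Tgt P b)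
    {Δ : List (St.Tm S)} {g : KEnv} {k : TK} {X : St.Tm S} {u : UTm}
    (hX : St.Has (QS P) Δ X (W P a)) (hu : Er g k X u) :
    ∃ X' u', St.Has (QS P) Δ X' (W P b) ∧ Er g .junk X' u' ∧ CBox u u' :=
  conv_path (hC.connected a b ha hb) hX hu

/-- The pair of two junks. -/
theorem pair_junk (hC : OddlyConnected P) {y : S} (hy : Tgt P y) {Δ : List (St.Tm S)}
    {g : KEnv} {k k' : TK} {X Y : St.Tm S} {u v : UTm}
    (hX : St.Has (QS P) Δ X (W P (jd P y))) (hu : Er g k X u)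
    (hY : St.Has (QS P) Δ Y (W P (jd P y))) (hv : Er g k' Y v) :
    ∃ Z, St.Has (QS P) Δ Z (W P y) ∧ Er g .junk Z (.app (.app (.cst 0) u) v) := by
  obtain ⟨-, he⟩ := jd_spec hC hy
  have hd : St.Has (QS P) [] (W P (jd P y)) (.srt (jd P y)) := W_typed he.2.1
  have hyy : St.Has (QS P) [] (W P y) (.srt y) := W_typed he.2.2
  have hc : St.Has (QS P) Δ (.cst 0 (arr (W P (jd P y)) (arr (W P (jd P y)) (W P y))))
      (arr (W P (jd P y)) (arr (W P (jd P y)) (W P y))) :=
    hX.wf.weakenClosed (St.Has.cst 0 trivial (has_arr hd (has_arr hd hyy he) he))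
  have h₁ := St.Has.app hc hX
  rw [St.Tm.inst_sh] at h₁
  have h₂ := St.Has.app h₁ hY
  rw [St.Tm.inst_sh] at h₂
  exact ⟨_, h₂, .eApp (.eApp .eCst hu) hv⟩

/-- Lifting a value along a path of odd length, up to its last edge. -/
theorem lift_value {u b : S} (h : OddPath P u b) :
    ∀ {Δ Δ' : List (St.Tm S)} {f : ℕ → ℕ} {g : KEnv} {k : TK} {v T : St.Tm S} {uv : UTm},
      St.RenOK f Δ Δ' → St.Has (QS P) Δ T (.srt u) →
      St.Has (QS P) Δ' v (St.Tm.ren f T) → Er g k v uv →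
      ∃ q k' v' T' uv', Edge P q b ∧ St.Has (QS P) Δ T' (.srt q) ∧
        St.Has (QS P) Δ' v' (St.Tm.ren f T') ∧ Er g k' v' uv' ∧ CBox uv uv' := by
  induction h with
  | @one a b h =>
    intro Δ Δ' f g k v T uv _ hT hv hu
    exact ⟨a, k, v, T, uv, h, hT, hv, hu, CBox.refl _⟩
  | @more a p q b h₁ h₂ _ ih =>
    intro Δ Δ' f g k v T uv hf hT hv hu
    have hWp := has_W (P := P) hT.wf h₁.2.2
    have hG := has_arr hT hWp h₁
    have hG' := has_arr hG (has_W (P := P) hT.wf h₂.2.2) h₂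
    have hG₁ : St.Has (QS P) Δ' (St.Tm.ren f (arr T (W P p))) (.srt p) := hG.ren hv.wf hf
    have hG₂ : St.Has (QS P) Δ' (St.Tm.ren f (arr (arr T (W P p)) (W P q))) (.srt q) :=
      hG'.ren hv.wf hf
    simp only [arr_ren, W_closed] at hG₁ hG₂
    have hk : St.Has (QS P) (arr (St.Tm.ren f T) (W P p) :: Δ') (.var 0)
        (St.Tm.sh (arr (St.Tm.ren f T) (W P p))) := St.Has.var hG₁
    simp only [St.Tm.sh, arr_ren, W_closed] at hk
    have h₄ := St.Has.app hk (hv.sh hG₁)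
    rw [St.Tm.inst_sh] at h₄
    have hu' : Er (g.keep .junk) .junk (.app (.var 0) (St.Tm.sh v))
        (.app (.var 0) (UTm.ren Nat.succ uv)) :=
      .eApp (.eVar (g := g.keep .junk) (i := 0) rfl) (hu.ren fun i => ⟨rfl, fun _ => rfl⟩)
    obtain ⟨t₁, e₁⟩ := cst_app (W_typed h₂.2.1) (W_typed h₂.2.2) h₂ h₄ hu'
    have h₅ : St.Has (QS P) Δ' (.lam (arr (St.Tm.ren f T) (W P p))
        (.app (.cst 0 (arr (W P p) (W P q))) (.app (.var 0) (St.Tm.sh v))))
        (St.Tm.ren f (arr (arr T (W P p)) (W P q))) := by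
      simp only [arr_ren, W_closed]
      exact St.Has.lam (by rw [W_sh]; exact t₁) hG₂
    obtain ⟨q', k', v', T', uv', hq, hT', hv', he', hb⟩ := ih hf hG' h₅ (.dLam e₁)
    refine ⟨q', k', v', T', uv', hq, hT', hv', he', CBox.trans ?_ hb⟩
    refine ⟨.lam (.app (.cst 0) (.app (.var 0) (.var 1))), ⟨Or.inr (Or.inl rfl), trivial,
      trivial, trivial⟩, Or.inr (Or.inr rfl), ?_, rfl⟩
    intro i hi
    rcases hi with hi | hi | hi
    · exact hi.elim
    · cases hi
    · exact Nat.succ.inj hi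

/-- Scopes: every variable is bound by a rule. -/
inductive Sc (P : Spec S) : List (St.Tm S) → Prop
  | nil : Sc P []
  | cons {Δ : List (St.Tm S)} {A : St.Tm S} {a b : S} :
      Sc P Δ → St.Has (QS P) Δ A (.srt a) → Edge P a b → Sc P (A :: Δ)

theorem absorb_gen (hC : OddlyConnected P) {Δ : List (St.Tm S)} (hs : Sc P Δ) :
    ∀ {Δ' : List (St.Tm S)} {f : ℕ → ℕ} {g : KEnv} {k : TK} {v T : St.Tm S} {uv : UTm} {u y : S},
      St.RenOK f Δ Δ' → St.Has (QS P) Δ T (.srt u) → Tgt P u → Tgt P y →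
      St.Has (QS P) Δ' v (St.Tm.ren f T) → Er g k v uv →
      ∃ X ux, St.Has (QS P) Δ' X (W P y) ∧ Er g .junk X ux ∧ CBox uv ux := by
  induction hs with
  | nil =>
    intro Δ' f g k v T uv u y hf hT hu hy hv hev
    obtain ⟨q, k', v', T', uv', hq, hT', hv', he', hb⟩ :=
      lift_value (hC.connected u y hu hy) hf hT hv hev
    rw [hT'.scoped.1.ren_closed] at hv'
    obtain ⟨t₁, e₁⟩ := cst_app hT' (W_typed hy.touched) hq hv' he'
    exact ⟨_, _, t₁, e₁, hb.trans (CBox.cstApp _)⟩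
  | @cons Δ A a b hs hA hab ih =>
    intro Δ' f g k v T uv u y hf hT hu hy hv hev
    obtain ⟨q, k', v', T', uv', hq, hT', hv', he', hb⟩ :=
      lift_value (hC.connected u b hu hab.tgt) hf hT hv hev
    obtain ⟨z, hz⟩ := (hC.connected b b hab.tgt hab.tgt).first
    have hWb : St.Has (QS P) (A :: Δ) (W P b) (.srt b) := has_W hT'.wf hab.2.2
    have hin : St.Has (QS P) (A :: Δ) (arr T' (W P b)) (.srt b) := has_arr hT' hWb hq
    have hG : St.Has (QS P) Δ (.pi A (arr T' (W P b))) (.srt b) := St.Has.pi hA hin hab.1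
    have hS := has_arr hG (has_W (P := P) hA.wf hz.2.2) hz
    let f₀ := f ∘ Nat.succ
    have hf₀ : St.RenOK f₀ Δ Δ' := hf.tail
    have hG' := hG.ren hv.wf hf₀
    have hS' : St.Has (QS P) Δ'
        (arr (St.Tm.ren f₀ (.pi A (arr T' (W P b)))) (W P z)) (.srt z) := by
      have := hS.ren hv.wf hf₀
      rwa [arr_ren, W_closed] at this
    have hw' : St.Wf (QS P) (St.Tm.ren f₀ (.pi A (arr T' (W P b))) :: Δ') :=
      St.Wf.cons hv.wf hG'
    have hx : St.Has (QS P) (St.Tm.ren f₀ (.pi A (arr T' (W P b))) :: Δ') (.var (f 0 + 1))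
        (St.Tm.ren (fun i => f₀ i + 1) A) := by
      have := (hv.wf.var (hf 0 _ (St.At.zero A Δ))).sh hG'
      simp only [St.Tm.sh, St.Tm.ren, St.Tm.ren_ren] at this
      exact this
    have hk : St.Has (QS P) (St.Tm.ren f₀ (.pi A (arr T' (W P b))) :: Δ') (.var 0)
        (.pi (St.Tm.ren (fun i => f₀ i + 1) A)
          (St.Tm.ren (St.upR fun i => f₀ i + 1) (arr T' (W P b)))) := by
      have := St.Has.var hG'
      simp only [St.Tm.sh, St.Tm.ren, St.Tm.ren_ren, St.upR_comp] at this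
      exact this
    have h₁ := St.Has.app hk hx
    have e : St.Tm.inst (St.Tm.ren (St.upR fun i => f₀ i + 1) (arr T' (W P b)))
        (.var (f 0 + 1)) = arr (St.Tm.sh (St.Tm.ren f T')) (W P b) := by
      rw [St.Tm.inst, St.Tm.sub_ren, arr_sub, W_sub, St.Tm.sh, St.Tm.ren_ren,
        St.Tm.ren_eq_sub]
      congr 2
      funext n
      cases n <;> rfl
    rw [e] at h₁
    have h₂ := St.Has.app h₁ (hv'.sh hG')
    rw [St.Tm.inst_sh] at h₂
    have he₂ : Er (g.keep .junk) .junk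
        (.app (.app (.var 0) (.var (f 0 + 1))) (St.Tm.sh v'))
        (.app (.var 0) (UTm.ren Nat.succ uv')) :=
      .eApp (.eDrop (.eVar (g := g.keep .junk) (i := 0) rfl))
        (he'.ren fun i => ⟨rfl, fun _ => rfl⟩)
    obtain ⟨t₁, e₁⟩ := cst_app (W_typed hz.2.1) (W_typed hz.2.2) hz h₂ he₂
    have h₃ : St.Has (QS P) Δ'
        (.lam (St.Tm.ren f₀ (.pi A (arr T' (W P b))))
          (.app (.cst 0 (arr (W P b) (W P z)))
            (.app (.app (.var 0) (.var (f 0 + 1))) (St.Tm.sh v'))))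
        (St.Tm.ren f₀ (arr (.pi A (arr T' (W P b))) (W P z))) := by
      rw [arr_ren, W_closed]
      exact St.Has.lam (by rw [W_sh]; exact t₁) hS'
    obtain ⟨X, ux, hX, heX, hbX⟩ := ih hf₀ hS hz.tgt hy h₃ (.dLam e₁)
    refine ⟨X, ux, hX, heX, (hb.trans ?_).trans hbX⟩
    refine ⟨.lam (.app (.cst 0) (.app (.var 0) (.var 1))), ⟨Or.inr (Or.inl rfl), trivial,
      trivial, trivial⟩, Or.inr (Or.inr rfl), ?_, rfl⟩
    intro i hi
    rcases hi with hi | hi | hi
    · exact hi.elim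
    · cases hi
    · exact Nat.succ.inj hi

/-- Absorb a value into the junk type of a target. -/
theorem absorb (hC : OddlyConnected P) {Δ : List (St.Tm S)} (hs : Sc P Δ) {g : KEnv} {k : TK}
    {v T : St.Tm S} {uv : UTm} {u y : S} (hT : St.Has (QS P) Δ T (.srt u)) (hu : Tgt P u)
    (hy : Tgt P y) (hv : St.Has (QS P) Δ v T) (hev : Er g k v uv) :
    ∃ X ux, St.Has (QS P) Δ X (W P y) ∧ Er g .junk X ux ∧ CBox uv ux :=
  absorb_gen hC hs (f := id) (fun i A h => by rw [St.Tm.ren_id]; exact h) hT hu hy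
    (by rw [St.Tm.ren_id]; exact hv) hev

end Vale.Agent.P340.Oc
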