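import Mathlib.Logic.Relation
import Mathlib.Data.Nat.Notation

/-!
Pure type systems, exactly as in the problem file, with variables written as de Bruijn indices
(this represents expressions modulo renaming of bound variables).
A context lists the types of its variables, the most recently declared one first.
-/

namespace Vale.Agent.P340.PTS

universe u

/-- A pure type specification over a set `S` of sorts: axioms and rules. -/
structure Spec (S : Type u) where
  Ax : S → S → Prop
  Rule : S → S → S → Prop

/-- Expressions. -/
inductive Expr (S : Type u) : Type u where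
  | var : ℕ → Expr S
  | sort : S → Expr S
  | app : Expr S → Expr S → Expr S
  | lam : Expr S → Expr S → Expr S
  | pi : Expr S → Expr S → Expr S

namespace Expr

variable {S : Type u}

/-- Extend a renaming under a binder. -/
def liftRen (f : ℕ → ℕ) : ℕ → ℕ
  | 0 => 0
  | n + 1 => f n + 1

/-- Rename the free variables. -/
def rename : (ℕ → ℕ) → Expr S → Expr S
  | f, var n => var (f n)
  | _, sort s => sort s
  | f, app a b => app (rename f a) (rename f b)
  | f, lam a b => lam (rename f a) (rename (liftRen f) b)
  | f, pi a b => pi (rename f a) (rename (liftRen f) b)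

/-- Weakening by one variable. -/
def shift (M : Expr S) : Expr S := rename Nat.succ M

/-- Extend a substitution under a binder. -/
def liftSub (f : ℕ → Expr S) : ℕ → Expr S
  | 0 => var 0
  | n + 1 => shift (f n)

/-- Simultaneous substitution. -/
def subst : (ℕ → Expr S) → Expr S → Expr S
  | f, var n => f n
  | _, sort s => sort s
  | f, app a b => app (subst f a) (subst f b)
  | f, lam a b => lam (subst f a) (subst (liftSub f) b)
  | f, pi a b => pi (subst f a) (subst (liftSub f) b)

/-- `inst B N` is `B[x:=N]` for the last bound variable `x`. -/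
def inst (B N : Expr S) : Expr S :=
  subst (fun n => match n with | 0 => N | k + 1 => var k) B

end Expr

open Expr

variable {S : Type u}

/-- One step of beta reduction in any subexpression. -/
inductive Beta : Expr S → Expr S → Prop where
  | beta (A M N : Expr S) : Beta (app (lam A M) N) (inst M N)
  | appL {M M' : Expr S} (N : Expr S) : Beta M M' → Beta (app M N) (app M' N)
  | appR (M : Expr S) {N N' : Expr S} : Beta N N' → Beta (app M N) (app M N')
  | lamL {A A' : Expr S} (M : Expr S) : Beta A A' → Beta (lam A M) (lam A' M)
  | lamR (A : Expr S) {M M' : Expr S} : Beta M M' → Beta (lam A M) (lam A M')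
  | piL {A A' : Expr S} (B : Expr S) : Beta A A' → Beta (pi A B) (pi A' B)
  | piR (A : Expr S) {B B' : Expr S} : Beta B B' → Beta (pi A B) (pi A B')

/-- Beta equality: the generated equivalence. -/
def BetaEq : Expr S → Expr S → Prop := Relation.EqvGen Beta

variable (P : Spec S)

/-- The seven typing rules. -/
inductive Typed : List (Expr S) → Expr S → Expr S → Prop where
  | ax {s t : S} : P.Ax s t → Typed [] (sort s) (sort t)
  | var {Γ : List (Expr S)} {A : Expr S} {s : S} :
      Typed Γ A (sort s) → Typed (A :: Γ) (var 0) (shift A)
  | weak {Γ : List (Expr S)} {M B A : Expr S} {s : S} :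
      Typed Γ M B → Typed Γ A (sort s) → Typed (A :: Γ) (shift M) (shift B)
  | prod {Γ : List (Expr S)} {A B : Expr S} {s t u : S} :
      Typed Γ A (sort s) → Typed (A :: Γ) B (sort t) → P.Rule s t u →
      Typed Γ (pi A B) (sort u)
  | abs {Γ : List (Expr S)} {A B M : Expr S} {s : S} :
      Typed (A :: Γ) M B → Typed Γ (pi A B) (sort s) → Typed Γ (lam A M) (pi A B)
  | app {Γ : List (Expr S)} {A B M N : Expr S} :
      Typed Γ M (pi A B) → Typed Γ N A → Typed Γ (app M N) (inst B N)
  | conv {Γ : List (Expr S)} {M A B : Expr S} {s : S} :
      Typed Γ M A → Typed Γ B (sort s) → BetaEq A B → Typed Γ M B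

/-- Subject or type of some derivable judgment. -/
def Legal (M : Expr S) : Prop := ∃ Γ A, Typed P Γ M A ∨ Typed P Γ A M

/-- Every legal expression reduces to a beta normal form. -/
def WeaklyNormalizing : Prop :=
  ∀ M, Legal P M → ∃ N, Relation.ReflTransGen Beta M N ∧ ∀ N', ¬ Beta N N'

/-- No legal expression starts an infinite reduction sequence. -/
def StronglyNormalizing : Prop :=
  ∀ M, Legal P M → ¬ ∃ f : ℕ → Expr S, f 0 = M ∧ ∀ n, Beta (f n) (f (n + 1))

end Vale.Agent.P340.PTS
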