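import Vale.Agent.P340.StMeta
import Vale.Agent.P340.StDefs

/-!
Closed constants do not affect weak normalization: they can be replaced by variables declared at
the bottom of the context. Also: the bridge between expressions and internal terms.
-/

namespace Vale.Agent.P340.St

open Relation Classical

universe u
variable {S : Type u}

/-- Replace constants by variables. -/
def unc : (ℕ × Tm S → ℕ) → Tm S → Tm S
  | _, .var i => .var i
  | _, .srt s => .srt s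
  | ρ, .cst n A => .var (ρ (n, A))
  | ρ, .app a b => .app (unc ρ a) (unc ρ b)
  | ρ, .lam a b => .lam (unc ρ a) (unc (fun c => ρ c + 1) b)
  | ρ, .pi a b => .pi (unc ρ a) (unc (fun c => ρ c + 1) b)

theorem unc_ren (M : Tm S) : ∀ (f : ℕ → ℕ) (ρ : ℕ × Tm S → ℕ),
    Tm.ren f (unc ρ M) = unc (fun c => f (ρ c)) (Tm.ren f M) := by
  induction M with
  | var i => intros; rfl
  | srt s => intros; rfl
  | cst n A => intros; rfl
  | app a b ha hb => intro f ρ; simp [unc, Tm.ren, ha, hb]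
  | lam a b ha hb => intro f ρ; simp [unc, Tm.ren, ha, hb]
  | pi a b ha hb => intro f ρ; simp [unc, Tm.ren, ha, hb]

theorem unc_sh (M : Tm S) (ρ : ℕ × Tm S → ℕ) :
    Tm.sh (unc ρ M) = unc (fun c => ρ c + 1) (Tm.sh M) :=
  unc_ren M Nat.succ ρ

theorem unc_sub (M : Tm S) : ∀ (g g' : ℕ → Tm S) (ρ ρ' : ℕ × Tm S → ℕ),
    (∀ c, g' (ρ c) = .var (ρ' c)) → (∀ i, g' i = unc ρ' (g i)) →
    unc ρ' (Tm.sub g M) = Tm.sub g' (unc ρ M) := by
  induction M with
  | var i => intro g g' ρ ρ' _ h₂; exact (h₂ i).symm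
  | srt s => intros; rfl
  | cst n A => intro g g' ρ ρ' h₁ _; exact (h₁ (n, A)).symm
  | app a b ha hb =>
    intro g g' ρ ρ' h₁ h₂
    simp only [unc, Tm.sub, ha g g' ρ ρ' h₁ h₂, hb g g' ρ ρ' h₁ h₂]
  | lam a b ha hb =>
    intro g g' ρ ρ' h₁ h₂
    simp only [unc, Tm.sub, ha g g' ρ ρ' h₁ h₂]
    rw [hb (Tm.up g) (Tm.up g') (fun c => ρ c + 1) (fun c => ρ' c + 1)]
    · intro c; simp [h₁ c, Tm.ren]
    · rintro (_ | i)
      · rfl
      · simp only [Tm.up_succ, h₂ i, unc_ren]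
  | pi a b ha hb =>
    intro g g' ρ ρ' h₁ h₂
    simp only [unc, Tm.sub, ha g g' ρ ρ' h₁ h₂]
    rw [hb (Tm.up g) (Tm.up g') (fun c => ρ c + 1) (fun c => ρ' c + 1)]
    · intro c; simp [h₁ c, Tm.ren]
    · rintro (_ | i)
      · rfl
      · simp only [Tm.up_succ, h₂ i, unc_ren]

theorem unc_inst (B N : Tm S) (ρ : ℕ × Tm S → ℕ) :
    unc ρ (Tm.inst B N) = Tm.inst (unc (fun c => ρ c + 1) B) (unc ρ N) := by
  refine unc_sub B _ _ _ _ (fun c => rfl) ?_
  rintro (_ | i) <;> rfl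

theorem Step.unc {M N : Tm S} (h : Step M N) : ∀ ρ, Step (unc ρ M) (unc ρ N) := by
  induction h with
  | beta A M N => intro ρ; rw [unc_inst]; exact Step.beta _ _ _
  | appL N _ ih => intro ρ; exact Step.appL _ (ih ρ)
  | appR M _ ih => intro ρ; exact Step.appR _ (ih ρ)
  | lamL M _ ih => intro ρ; exact Step.lamL _ (ih ρ)
  | lamR A _ ih => intro ρ; exact Step.lamR _ (ih _)
  | piL B _ ih => intro ρ; exact Step.piL _ (ih ρ)
  | piR A _ ih => intro ρ; exact Step.piR _ (ih _)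

theorem Conv.unc {M N : Tm S} (h : Conv M N) (ρ : ℕ × Tm S → ℕ) :
    Conv (unc ρ M) (unc ρ N) := by
  induction h with
  | rel _ _ h => exact EqvGen.rel _ _ (h.unc ρ)
  | refl => exact EqvGen.refl _
  | symm _ _ _ ih => exact ih.symm
  | trans _ _ _ _ _ ih₁ ih₂ => exact ih₁.trans ih₂

theorem unc_reflect (M : Tm S) : ∀ (ρ : ℕ × Tm S → ℕ) (X : Tm S), Step (unc ρ M) X →
    ∃ N, Step M N ∧ X = unc ρ N := by
  induction M with
  | var i => intro ρ X h; cases h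
  | srt s => intro ρ X h; cases h
  | cst n A => intro ρ X h; cases h
  | lam a b ha hb =>
    intro ρ X h
    cases h with
    | lamL _ h => obtain ⟨x, hx, rfl⟩ := ha _ _ h; exact ⟨_, .lamL _ hx, rfl⟩
    | lamR _ h => obtain ⟨x, hx, rfl⟩ := hb _ _ h; exact ⟨_, .lamR _ hx, rfl⟩
  | pi a b ha hb =>
    intro ρ X h
    cases h with
    | piL _ h => obtain ⟨x, hx, rfl⟩ := ha _ _ h; exact ⟨_, .piL _ hx, rfl⟩
    | piR _ h => obtain ⟨x, hx, rfl⟩ := hb _ _ h; exact ⟨_, .piR _ hx, rfl⟩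
  | app a b ha hb =>
    intro ρ X h
    simp only [St.unc] at h
    generalize ea : St.unc ρ a = a' at h
    cases h with
    | appL _ h => subst ea; obtain ⟨x, hx, rfl⟩ := ha _ _ h; exact ⟨_, .appL _ hx, rfl⟩
    | appR _ h => subst ea; obtain ⟨x, hx, rfl⟩ := hb _ _ h; exact ⟨_, .appR _ hx, rfl⟩
    | beta A₀ M₀ _ =>
      cases a with
      | lam x y =>
        simp only [St.unc] at ea
        cases ea
        exact ⟨_, .beta x y b, (unc_inst y b ρ).symm⟩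
      | _ => simp [St.unc] at ea

theorem unc_steps_reflect {M X : Tm S} {ρ : ℕ × Tm S → ℕ} (h : Steps (unc ρ M) X) :
    ∃ N, Steps M N ∧ X = unc ρ N := by
  induction h with
  | refl => exact ⟨M, .refl, rfl⟩
  | tail _ h ih =>
    obtain ⟨N, hN, rfl⟩ := ih
    obtain ⟨N', hN', e⟩ := unc_reflect N ρ _ h
    exact ⟨N', hN.tail hN', e⟩

/-- The specification with constants. -/
def withCst (P : PTS.Spec S) : Sys S := ⟨P, True⟩

/-- The specification without constants. -/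
def noCst (P : PTS.Spec S) : Sys S := ⟨P, False⟩

/-- Typing with constants from a given list. -/
inductive HasK (P : PTS.Spec S) (K : List (ℕ × Tm S)) : List (Tm S) → Tm S → Tm S → Prop where
  | ax {s t : S} : P.Ax s t → HasK P K [] (.srt s) (.srt t)
  | cst {A : Tm S} {s : S} (n : ℕ) : (n, A) ∈ K → HasK P K [] A (.srt s) →
      HasK P K [] (.cst n A) A
  | var {Γ : List (Tm S)} {A : Tm S} {s : S} :
      HasK P K Γ A (.srt s) → HasK P K (A :: Γ) (.var 0) (Tm.sh A)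
  | weak {Γ : List (Tm S)} {M B A : Tm S} {s : S} :
      HasK P K Γ M B → HasK P K Γ A (.srt s) → HasK P K (A :: Γ) (Tm.sh M) (Tm.sh B)
  | pi {Γ : List (Tm S)} {A B : Tm S} {s t u : S} :
      HasK P K Γ A (.srt s) → HasK P K (A :: Γ) B (.srt t) → P.Rule s t u →
      HasK P K Γ (.pi A B) (.srt u)
  | lam {Γ : List (Tm S)} {A B M : Tm S} {s : S} :
      HasK P K (A :: Γ) M B → HasK P K Γ (Tm.pi A B) (.srt s) →
      HasK P K Γ (.lam A M) (Tm.pi A B)
  | app {Γ : List (Tm S)} {A B M N : Tm S} :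
      HasK P K Γ M (Tm.pi A B) → HasK P K Γ N A → HasK P K Γ (.app M N) (Tm.inst B N)
  | conv {Γ : List (Tm S)} {M A B : Tm S} {s : S} :
      HasK P K Γ M A → HasK P K Γ B (.srt s) → Conv A B → HasK P K Γ M B

theorem HasK.mono {P : PTS.Spec S} {K K' : List (ℕ × Tm S)} (hK : ∀ c ∈ K, c ∈ K')
    {Γ : List (Tm S)} {M A : Tm S} (h : HasK P K Γ M A) : HasK P K' Γ M A := by
  induction h with
  | ax h => exact .ax h
  | cst n hm _ ih => exact .cst n (hK _ hm) ih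
  | var _ ih => exact .var ih
  | weak _ _ ih₁ ih₂ => exact .weak ih₁ ih₂
  | pi _ _ hr ih₁ ih₂ => exact .pi ih₁ ih₂ hr
  | lam _ _ ih₁ ih₂ => exact .lam ih₁ ih₂
  | app _ _ ih₁ ih₂ => exact .app ih₁ ih₂
  | conv _ _ hc ih₁ ih₂ => exact .conv ih₁ ih₂ hc

theorem HasK.has {P : PTS.Spec S} {K : List (ℕ × Tm S)} {Γ : List (Tm S)} {M A : Tm S}
    (h : HasK P K Γ M A) : Has (withCst P) Γ M A := by
  induction h with
  | ax h => exact .ax h
  | cst n _ _ ih => exact .cst n trivial ih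
  | var _ ih => exact .var ih
  | weak _ _ ih₁ ih₂ => exact .weak ih₁ ih₂
  | pi _ _ hr ih₁ ih₂ => exact .pi ih₁ ih₂ hr
  | lam _ _ ih₁ ih₂ => exact .lam ih₁ ih₂
  | app _ _ ih₁ ih₂ => exact .app ih₁ ih₂
  | conv _ _ hc ih₁ ih₂ => exact .conv ih₁ ih₂ hc

/-- Lists of typed constants: each type only uses earlier constants. -/
inductive Ord (P : PTS.Spec S) : List (ℕ × Tm S) → Prop where
  | nil : Ord P []
  | cons {K : List (ℕ × Tm S)} {n : ℕ} {A : Tm S} {s : S} :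
      Ord P K → (n, A) ∉ K → HasK P K [] A (.srt s) → Ord P ((n, A) :: K)

theorem Ord.merge {P : PTS.Spec S} {K₁ K₂ : List (ℕ × Tm S)} (h₁ : Ord P K₁) (h₂ : Ord P K₂) :
    ∃ K, Ord P K ∧ (∀ c ∈ K₁, c ∈ K) ∧ ∀ c ∈ K₂, c ∈ K := by
  induction h₂ with
  | nil => exact ⟨K₁, h₁, fun c hc => hc, fun c hc => absurd hc (by simp)⟩
  | @cons K₂ n A s h₂ hn hA ih =>
    obtain ⟨K, hK, l₁, l₂⟩ := ih
    by_cases hm : (n, A) ∈ K
    · refine ⟨K, hK, l₁, fun c hc => ?_⟩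
      rcases List.mem_cons.1 hc with rfl | hc
      · exact hm
      · exact l₂ c hc
    · refine ⟨(n, A) :: K, hK.cons hm (hA.mono l₂), fun c hc => List.mem_cons_of_mem _ (l₁ c hc),
        fun c hc => ?_⟩
      rcases List.mem_cons.1 hc with rfl | hc
      · exact List.mem_cons_self
      · exact List.mem_cons_of_mem _ (l₂ c hc)

theorem Ord.typed {P : PTS.Spec S} {K : List (ℕ × Tm S)} (h : Ord P K) :
    ∀ c ∈ K, ∃ s, HasK P K [] c.2 (.srt s) := by
  induction h with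
  | nil => intro c hc; simp at hc
  | @cons K n A s _ _ hA ih =>
    intro c hc
    rcases List.mem_cons.1 hc with rfl | hc
    · exact ⟨s, hA.mono fun d hd => List.mem_cons_of_mem _ hd⟩
    · obtain ⟨t, ht⟩ := ih c hc
      exact ⟨t, ht.mono fun d hd => List.mem_cons_of_mem _ hd⟩

/-- Every derivation uses finitely many constants. -/
theorem exists_ord {P : PTS.Spec S} {Γ : List (Tm S)} {M A : Tm S}
    (h : Has (withCst P) Γ M A) : ∃ K, Ord P K ∧ HasK P K Γ M A := by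
  induction h with
  | ax h => exact ⟨[], .nil, .ax h⟩
  | @cst A s n _ _ ih =>
    obtain ⟨K, hK, hA⟩ := ih
    by_cases hm : (n, A) ∈ K
    · exact ⟨K, hK, .cst n hm hA⟩
    · exact ⟨(n, A) :: K, hK.cons hm hA,
        .cst n List.mem_cons_self (hA.mono fun d hd => List.mem_cons_of_mem _ hd)⟩
  | var _ ih => obtain ⟨K, hK, hA⟩ := ih; exact ⟨K, hK, .var hA⟩
  | weak _ _ ih₁ ih₂ =>
    obtain ⟨K₁, hK₁, h₁⟩ := ih₁
    obtain ⟨K₂, hK₂, h₂⟩ := ih₂
    obtain ⟨K, hK, l₁, l₂⟩ := hK₁.merge hK₂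
    exact ⟨K, hK, .weak (h₁.mono l₁) (h₂.mono l₂)⟩
  | pi _ _ hr ih₁ ih₂ =>
    obtain ⟨K₁, hK₁, h₁⟩ := ih₁
    obtain ⟨K₂, hK₂, h₂⟩ := ih₂
    obtain ⟨K, hK, l₁, l₂⟩ := hK₁.merge hK₂
    exact ⟨K, hK, .pi (h₁.mono l₁) (h₂.mono l₂) hr⟩
  | lam _ _ ih₁ ih₂ =>
    obtain ⟨K₁, hK₁, h₁⟩ := ih₁
    obtain ⟨K₂, hK₂, h₂⟩ := ih₂
    obtain ⟨K, hK, l₁, l₂⟩ := hK₁.merge hK₂
    exact ⟨K, hK, .lam (h₁.mono l₁) (h₂.mono l₂)⟩
  | app _ _ ih₁ ih₂ =>
    obtain ⟨K₁, hK₁, h₁⟩ := ih₁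
    obtain ⟨K₂, hK₂, h₂⟩ := ih₂
    obtain ⟨K, hK, l₁, l₂⟩ := hK₁.merge hK₂
    exact ⟨K, hK, .app (h₁.mono l₁) (h₂.mono l₂)⟩
  | conv _ _ hc ih₁ ih₂ =>
    obtain ⟨K₁, hK₁, h₁⟩ := ih₁
    obtain ⟨K₂, hK₂, h₂⟩ := ih₂
    obtain ⟨K, hK, l₁, l₂⟩ := hK₁.merge hK₂
    exact ⟨K, hK, .conv (h₁.mono l₁) (h₂.mono l₂) hc⟩

/-- The constants outside types of constants lie in `K`. -/
def Cov (K : List (ℕ × Tm S)) : Tm S → Prop
  | .var _ => True
  | .srt _ => True
  | .cst n A => (n, A) ∈ K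
  | .app a b => Cov K a ∧ Cov K b
  | .lam a b => Cov K a ∧ Cov K b
  | .pi a b => Cov K a ∧ Cov K b

theorem cov_ren {K : List (ℕ × Tm S)} (M : Tm S) : ∀ f, Cov K M → Cov K (Tm.ren f M) := by
  induction M with
  | var i => intros; trivial
  | srt s => intros; trivial
  | cst n A => intro f h; exact h
  | app a b ha hb => intro f h; exact ⟨ha f h.1, hb f h.2⟩
  | lam a b ha hb => intro f h; exact ⟨ha f h.1, hb _ h.2⟩
  | pi a b ha hb => intro f h; exact ⟨ha f h.1, hb _ h.2⟩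

theorem HasK.cov {P : PTS.Spec S} {K : List (ℕ × Tm S)} {Γ : List (Tm S)} {M A : Tm S}
    (h : HasK P K Γ M A) : Cov K M := by
  induction h with
  | ax => trivial
  | cst n hm _ _ => exact hm
  | var => trivial
  | weak _ _ ih _ => exact cov_ren _ _ ih
  | pi _ _ _ ih₁ ih₂ => exact ⟨ih₁, ih₂⟩
  | lam _ _ ih₁ ih₂ => exact ⟨ih₂.1, ih₁⟩
  | app _ _ ih₁ ih₂ => exact ⟨ih₁, ih₂⟩
  | conv _ _ _ ih _ => exact ih

theorem unc_congr {K : List (ℕ × Tm S)} (M : Tm S) : ∀ ρ ρ' : ℕ × Tm S → ℕ, Cov K M →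
    (∀ c ∈ K, ρ c = ρ' c) → unc ρ M = unc ρ' M := by
  induction M with
  | var i => intros; rfl
  | srt s => intros; rfl
  | cst n A => intro ρ ρ' h hρ; simp only [unc, hρ _ h]
  | app a b ha hb =>
    intro ρ ρ' h hρ; simp only [unc, ha _ _ h.1 hρ, hb _ _ h.2 hρ]
  | lam a b ha hb =>
    intro ρ ρ' h hρ
    simp only [unc, ha _ _ h.1 hρ,
      hb (fun c => ρ c + 1) (fun c => ρ' c + 1) h.2 fun c hc => by simp [hρ c hc]]
  | pi a b ha hb =>
    intro ρ ρ' h hρ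
    simp only [unc, ha _ _ h.1 hρ,
      hb (fun c => ρ c + 1) (fun c => ρ' c + 1) h.2 fun c hc => by simp [hρ c hc]]

/-- Variables standing for constants, seen under `d` binders. -/
def sft (d : ℕ) (ρ : ℕ × Tm S → ℕ) : ℕ × Tm S → ℕ := fun c => ρ c + d

/-- The translated context. -/
def ctxU (ρ : ℕ × Tm S → ℕ) : List (Tm S) → List (Tm S)
  | [] => []
  | A :: Γ => unc (sft Γ.length ρ) A :: ctxU ρ Γ

theorem HasK.translate {P : PTS.Spec S} {K : List (ℕ × Tm S)} {Γ : List (Tm S)} {M A : Tm S}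
    (h : HasK P K Γ M A) {Δ : List (Tm S)} {ρ : ℕ × Tm S → ℕ} (hw : Wf (noCst P) Δ)
    (hv : ∀ c ∈ K, At Δ (ρ c) (unc ρ c.2)) :
    Has (noCst P) (ctxU ρ Γ ++ Δ) (unc (sft Γ.length ρ) M) (unc (sft Γ.length ρ) A) := by
  induction h with
  | ax h => exact hw.weakenClosed (.ax h)
  | cst n hm _ _ => exact hw.var (hv _ hm)
  | @var Γ A s _ ih =>
    rw [show unc (sft (A :: Γ).length ρ) (Tm.sh A) = Tm.sh (unc (sft Γ.length ρ) A) from
      (unc_sh A _).symm]
    exact Has.var ih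
  | @weak Γ M B A s _ _ ih₁ ih₂ =>
    rw [show unc (sft (A :: Γ).length ρ) (Tm.sh M) = Tm.sh (unc (sft Γ.length ρ) M) from
        (unc_sh M _).symm,
      show unc (sft (A :: Γ).length ρ) (Tm.sh B) = Tm.sh (unc (sft Γ.length ρ) B) from
        (unc_sh B _).symm]
    exact Has.weak ih₁ ih₂
  | pi _ _ hr ih₁ ih₂ => exact Has.pi ih₁ ih₂ hr
  | lam _ _ ih₁ ih₂ => exact Has.lam ih₁ ih₂
  | app _ _ ih₁ ih₂ => rw [unc_inst]; exact Has.app ih₁ ih₂
  | conv _ _ hc ih₁ ih₂ => exact Has.conv ih₁ ih₂ (hc.unc _)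

theorem Ord.assign {P : PTS.Spec S} {K : List (ℕ × Tm S)} (h : Ord P K) :
    ∃ Δ ρ, Wf (noCst P) Δ ∧ ∀ c ∈ K, At Δ (ρ c) (unc ρ c.2) := by
  induction h with
  | nil => exact ⟨[], fun _ => 0, .nil, fun c hc => absurd hc (by simp)⟩
  | @cons K n A s hK hn hA ih =>
    obtain ⟨Δ, ρ, hw, hv⟩ := ih
    have hA' : Has (noCst P) Δ (unc ρ A) (.srt s) := hA.translate hw hv
    refine ⟨unc ρ A :: Δ, fun c => if c = (n, A) then 0 else ρ c + 1, .cons hw hA', ?_⟩
    have key : ∀ X t, HasK P K [] X (.srt t) →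
        unc (fun c => if c = (n, A) then 0 else ρ c + 1) X = Tm.sh (unc ρ X) := by
      intro X t hX
      rw [unc_sh, show Tm.sh X = X from hX.has.scoped.1.ren_closed _]
      exact unc_congr X _ _ hX.cov fun c hc => if_neg fun e => hn (by rw [← e]; exact hc)
    intro c hc
    rcases List.mem_cons.1 hc with rfl | hc
    · simp only [if_true]
      rw [key _ _ hA]
      exact .zero _ _
    · obtain ⟨t, ht⟩ := hK.typed c hc
      simp only [if_neg (show c ≠ (n, A) from fun e => hn (by rw [← e]; exact hc))]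
      rw [key _ _ ht]
      exact .succ _ (hv c hc)

/-- Constants preserve weak normalization. -/
theorem wn_withCst {P : PTS.Spec S}
    (hwn : ∀ Γ M A, Has (noCst P) Γ M A → ∃ N, Steps M N ∧ ∀ N', ¬ Step N N')
    {Γ : List (Tm S)} {M A : Tm S} (h : Has (withCst P) Γ M A) :
    ∃ N, Steps M N ∧ ∀ N', ¬ Step N N' := by
  obtain ⟨K, hK, hM⟩ := exists_ord h
  obtain ⟨Δ, ρ, hw, hv⟩ := hK.assign
  obtain ⟨X, hX, hnX⟩ := hwn _ _ _ (hM.translate hw hv)
  obtain ⟨N, hN, rfl⟩ := unc_steps_reflect hX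
  exact ⟨N, hN, fun N' h' => hnX _ (h'.unc _)⟩

/-- Expressions as internal terms. -/
def ofExpr : PTS.Expr S → Tm S
  | .var i => .var i
  | .sort s => .srt s
  | .app a b => .app (ofExpr a) (ofExpr b)
  | .lam a b => .lam (ofExpr a) (ofExpr b)
  | .pi a b => .pi (ofExpr a) (ofExpr b)

theorem liftRen_eq (f : ℕ → ℕ) : PTS.Expr.liftRen f = upR f := by
  funext n; cases n <;> rfl

theorem ofExpr_ren (e : PTS.Expr S) : ∀ f, ofExpr (e.rename f) = Tm.ren f (ofExpr e) := by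
  induction e with
  | var i => intro f; rfl
  | sort s => intro f; rfl
  | app a b ha hb => intro f; simp [PTS.Expr.rename, ofExpr, Tm.ren, ha, hb]
  | lam a b ha hb => intro f; simp [PTS.Expr.rename, ofExpr, Tm.ren, ha, hb, liftRen_eq]
  | pi a b ha hb => intro f; simp [PTS.Expr.rename, ofExpr, Tm.ren, ha, hb, liftRen_eq]

theorem ofExpr_subst (e : PTS.Expr S) : ∀ f : ℕ → PTS.Expr S,
    ofExpr (e.subst f) = Tm.sub (ofExpr ∘ f) (ofExpr e) := by
  have hl : ∀ f : ℕ → PTS.Expr S, ofExpr ∘ PTS.Expr.liftSub f = Tm.up (ofExpr ∘ f) := by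
    intro f; funext n
    cases n with
    | zero => rfl
    | succ n => exact ofExpr_ren _ _
  induction e with
  | var i => intro f; rfl
  | sort s => intro f; rfl
  | app a b ha hb => intro f; simp [PTS.Expr.subst, ofExpr, Tm.sub, ha, hb]
  | lam a b ha hb => intro f; simp [PTS.Expr.subst, ofExpr, Tm.sub, ha, hb, hl]
  | pi a b ha hb => intro f; simp [PTS.Expr.subst, ofExpr, Tm.sub, ha, hb, hl]

theorem ofExpr_inst (B N : PTS.Expr S) :
    ofExpr (B.inst N) = Tm.inst (ofExpr B) (ofExpr N) := by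
  rw [PTS.Expr.inst, ofExpr_subst, Tm.inst]
  congr 1
  funext n; cases n <;> rfl

theorem ofExpr_beta {e e' : PTS.Expr S} (h : PTS.Beta e e') : Step (ofExpr e) (ofExpr e') := by
  induction h with
  | beta A M N => rw [ofExpr_inst]; exact Step.beta _ _ _
  | appL N _ ih => exact Step.appL _ ih
  | appR M _ ih => exact Step.appR _ ih
  | lamL M _ ih => exact Step.lamL _ ih
  | lamR A _ ih => exact Step.lamR _ ih
  | piL B _ ih => exact Step.piL _ ih
  | piR A _ ih => exact Step.piR _ ih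

theorem ofExpr_betaEq {a b : PTS.Expr S} (h : PTS.BetaEq a b) : Conv (ofExpr a) (ofExpr b) := by
  induction h with
  | rel _ _ h => exact EqvGen.rel _ _ (ofExpr_beta h)
  | refl => exact EqvGen.refl _
  | symm _ _ _ ih => exact ih.symm
  | trans _ _ _ _ _ ih₁ ih₂ => exact ih₁.trans ih₂

theorem has_of_typed {P : PTS.Spec S} {Q : Sys S} (hQ : Q.toSpec = P) {Γ : List (PTS.Expr S)}
    {M A : PTS.Expr S} (h : PTS.Typed P Γ M A) :
    Has Q (Γ.map ofExpr) (ofExpr M) (ofExpr A) := by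
  subst hQ
  induction h with
  | ax h => exact .ax h
  | var _ ih => rw [PTS.Expr.shift, ofExpr_ren]; exact Has.var ih
  | weak _ _ ih₁ ih₂ =>
    rw [PTS.Expr.shift, PTS.Expr.shift, ofExpr_ren, ofExpr_ren]
    exact Has.weak ih₁ ih₂
  | prod _ _ hr ih₁ ih₂ => exact Has.pi ih₁ ih₂ hr
  | abs _ _ ih₁ ih₂ => exact Has.lam ih₁ ih₂
  | app _ _ ih₁ ih₂ => rw [ofExpr_inst]; exact Has.app ih₁ ih₂
  | conv _ _ hc ih₁ ih₂ =>
    exact Has.conv ih₁ ih₂ (ofExpr_betaEq hc)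

variable [Inhabited S]

/-- Internal terms as expressions; constants become a fixed sort. -/
def toExpr : Tm S → PTS.Expr S
  | .var i => .var i
  | .srt s => .sort s
  | .cst _ _ => .sort default
  | .app a b => .app (toExpr a) (toExpr b)
  | .lam a b => .lam (toExpr a) (toExpr b)
  | .pi a b => .pi (toExpr a) (toExpr b)

theorem toExpr_ren (M : Tm S) : ∀ f, toExpr (Tm.ren f M) = (toExpr M).rename f := by
  induction M with
  | var i => intro f; rfl
  | srt s => intro f; rfl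
  | cst n A => intro f; rfl
  | app a b ha hb => intro f; simp [PTS.Expr.rename, toExpr, Tm.ren, ha, hb]
  | lam a b ha hb => intro f; simp [PTS.Expr.rename, toExpr, Tm.ren, ha, hb, liftRen_eq]
  | pi a b ha hb => intro f; simp [PTS.Expr.rename, toExpr, Tm.ren, ha, hb, liftRen_eq]

theorem toExpr_sub (M : Tm S) : ∀ f : ℕ → Tm S,
    toExpr (Tm.sub f M) = (toExpr M).subst (toExpr ∘ f) := by
  have hl : ∀ f : ℕ → Tm S, toExpr ∘ Tm.up f = PTS.Expr.liftSub (toExpr ∘ f) := by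
    intro f; funext n
    cases n with
    | zero => rfl
    | succ n => exact toExpr_ren _ _
  induction M with
  | var i => intro f; rfl
  | srt s => intro f; rfl
  | cst n A => intro f; rfl
  | app a b ha hb => intro f; simp [PTS.Expr.subst, toExpr, Tm.sub, ha, hb]
  | lam a b ha hb => intro f; simp [PTS.Expr.subst, toExpr, Tm.sub, ha, hb, hl]
  | pi a b ha hb => intro f; simp [PTS.Expr.subst, toExpr, Tm.sub, ha, hb, hl]

theorem toExpr_inst (B N : Tm S) : toExpr (Tm.inst B N) = (toExpr B).inst (toExpr N) := by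
  rw [PTS.Expr.inst, Tm.inst, toExpr_sub]
  congr 1
  funext n; cases n <;> rfl

theorem toExpr_step {M N : Tm S} (h : Step M N) : PTS.Beta (toExpr M) (toExpr N) := by
  induction h with
  | beta A M N => rw [toExpr_inst]; exact PTS.Beta.beta _ _ _
  | appL N _ ih => exact PTS.Beta.appL _ ih
  | appR M _ ih => exact PTS.Beta.appR _ ih
  | lamL M _ ih => exact PTS.Beta.lamL _ ih
  | lamR A _ ih => exact PTS.Beta.lamR _ ih
  | piL B _ ih => exact PTS.Beta.piL _ ih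
  | piR A _ ih => exact PTS.Beta.piR _ ih

theorem toExpr_conv {M N : Tm S} (h : Conv M N) : PTS.BetaEq (toExpr M) (toExpr N) := by
  induction h with
  | rel _ _ h => exact EqvGen.rel _ _ (toExpr_step h)
  | refl => exact EqvGen.refl _
  | symm _ _ _ ih => exact EqvGen.symm _ _ ih
  | trans _ _ _ _ _ ih₁ ih₂ => exact EqvGen.trans _ _ _ ih₁ ih₂

theorem toExpr_ofExpr (e : PTS.Expr S) : toExpr (ofExpr e) = e := by
  induction e <;> simp [toExpr, ofExpr, *]

theorem typed_of_has {P : PTS.Spec S} {Γ : List (Tm S)} {M A : Tm S}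
    (h : Has (noCst P) Γ M A) :
    PTS.Typed P (Γ.map toExpr) (toExpr M) (toExpr A) ∧ ofExpr (toExpr M) = M := by
  induction h with
  | ax h => exact ⟨.ax h, rfl⟩
  | cst _ hok _ _ => exact hok.elim
  | var _ ih =>
    refine ⟨?_, rfl⟩
    rw [Tm.sh, toExpr_ren]
    exact PTS.Typed.var ih.1
  | weak _ _ ih₁ ih₂ =>
    refine ⟨?_, ?_⟩
    · rw [Tm.sh, Tm.sh, toExpr_ren, toExpr_ren]
      exact PTS.Typed.weak ih₁.1 ih₂.1
    · rw [Tm.sh, toExpr_ren, ofExpr_ren, ih₁.2]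
  | pi _ _ hr ih₁ ih₂ =>
    exact ⟨PTS.Typed.prod ih₁.1 ih₂.1 hr, by simp only [toExpr, ofExpr, ih₁.2, ih₂.2]⟩
  | lam _ _ ih₁ ih₂ =>
    refine ⟨PTS.Typed.abs ih₁.1 ih₂.1, ?_⟩
    have e := ih₂.2
    simp only [toExpr, ofExpr, Tm.pi.injEq] at e
    simp only [toExpr, ofExpr, e.1, ih₁.2]
  | app _ _ ih₁ ih₂ =>
    refine ⟨?_, by simp only [toExpr, ofExpr, ih₁.2, ih₂.2]⟩
    rw [toExpr_inst]
    exact PTS.Typed.app ih₁.1 ih₂.1
  | conv _ _ hc ih₁ ih₂ =>
    exact ⟨PTS.Typed.conv ih₁.1 ih₂.1 (toExpr_conv hc), ih₁.2⟩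

/-- Weak normalization of the specification gives it for internal terms with constants. -/
theorem wn_internal {P : PTS.Spec S} (hwn : PTS.WeaklyNormalizing P) {Γ : List (Tm S)}
    {M A : Tm S} (h : Has (withCst P) Γ M A) :
    ∃ N, Steps M N ∧ ∀ N', ¬ Step N N' := by
  refine wn_withCst (fun Δ X T hX => ?_) h
  obtain ⟨hT, e⟩ := typed_of_has hX
  obtain ⟨N, hs, hn⟩ := hwn _ ⟨_, _, .inl hT⟩
  refine ⟨ofExpr N, ?_, fun N' h' => ?_⟩
  · have : Steps (ofExpr (toExpr X)) (ofExpr N) := hs.lift ofExpr fun _ _ => ofExpr_beta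
    rwa [e] at this
  · have := toExpr_step h'
    rw [toExpr_ofExpr] at this
    exact hn _ this

end Vale.Agent.P340.St
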