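import Vale.Agent.P340.Confluence

/-!
# Metatheory of pure type systems: substitution, generation, subject reduction, uniqueness
-/

namespace Vale.Agent.P340

universe u
variable {S : Type u}

open Expr Relation

/-- `Lookup Γ i A`: variable `i` has type `A` in `Γ` (read in `Γ`). -/
inductive Lookup : List (Expr S) → ℕ → Expr S → Prop
  | zero {Γ : List (Expr S)} {A : Expr S} : Lookup (A :: Γ) 0 A.shift
  | succ {Γ : List (Expr S)} {B A : Expr S} {i : ℕ} :
      Lookup Γ i A → Lookup (B :: Γ) (i + 1) A.shift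

/-- Typing without well-formedness premises. -/
inductive D (P : Spec S) : List (Expr S) → Expr S → Expr S → Prop
  | axm {Γ : List (Expr S)} {s t : S} : P.ax s t → D P Γ (.sort s) (.sort t)
  | var {Γ : List (Expr S)} {i : ℕ} {A : Expr S} : Lookup Γ i A → D P Γ (.var i) A
  | prod {Γ : List (Expr S)} {A B : Expr S} {a b c : S} :
      D P Γ A (.sort a) → D P (A :: Γ) B (.sort b) → P.rule a b c →
      D P Γ (.pi A B) (.sort c)
  | abs {Γ : List (Expr S)} {A B M : Expr S} {s : S} :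
      D P (A :: Γ) M B → D P Γ (.pi A B) (.sort s) → D P Γ (.lam A M) (.pi A B)
  | app {Γ : List (Expr S)} {A B M N : Expr S} :
      D P Γ M (.pi A B) → D P Γ N A → D P Γ (.app M N) (B.inst N)
  | conv {Γ : List (Expr S)} {M A B : Expr S} {s : S} :
      D P Γ M A → D P Γ B (.sort s) → Conv A B → D P Γ M B

/-- Well-formed contexts. -/
inductive WF (P : Spec S) : List (Expr S) → Prop
  | nil : WF P []
  | cons {Γ : List (Expr S)} {A : Expr S} {s : S} :
      WF P Γ → D P Γ A (.sort s) → WF P (A :: Γ)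

variable {P : Spec S}

theorem Lookup.det {Γ : List (Expr S)} {i : ℕ} {A A' : Expr S} (h : Lookup Γ i A)
    (h' : Lookup Γ i A') : A = A' := by
  induction h generalizing A' with
  | zero => cases h'; rfl
  | succ _ ih => cases h' with | succ h' => rw [ih h']

/-- Typed renamings. -/
def TRen (ρ : ℕ → ℕ) (Γ Δ : List (Expr S)) : Prop :=
  ∀ i A, Lookup Γ i A → Lookup Δ (ρ i) (A.ren ρ)

theorem TRen.up {ρ : ℕ → ℕ} {Γ Δ : List (Expr S)} (h : TRen ρ Γ Δ) (A : Expr S) :
    TRen (upRen ρ) (A :: Γ) (A.ren ρ :: Δ) := by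
  intro i B hB
  cases hB with
  | zero => rw [← shift_ren]; exact Lookup.zero
  | succ hB => rw [← shift_ren]; exact Lookup.succ (h _ _ hB)

theorem TRen.shift (Γ : List (Expr S)) (A : Expr S) : TRen Nat.succ Γ (A :: Γ) :=
  fun _ _ h => Lookup.succ h

theorem D.ren {Γ Δ : List (Expr S)} {M T : Expr S} (h : D P Γ M T) {ρ : ℕ → ℕ}
    (hρ : TRen ρ Γ Δ) : D P Δ (M.ren ρ) (T.ren ρ) := by
  induction h generalizing ρ Δ with
  | axm h => exact D.axm h
  | var h => exact D.var (hρ _ _ h)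
  | prod _ _ hr ih₁ ih₂ => exact D.prod (ih₁ hρ) (ih₂ (hρ.up _)) hr
  | abs _ _ ih₁ ih₂ => exact D.abs (ih₁ (hρ.up _)) (ih₂ hρ)
  | app _ _ ih₁ ih₂ => rw [inst_ren_comm]; exact D.app (ih₁ hρ) (ih₂ hρ)
  | conv _ _ hc ih₁ ih₂ => exact D.conv (ih₁ hρ) (ih₂ hρ) (hc.ren _)

theorem D.weaken {Γ : List (Expr S)} {M T : Expr S} (h : D P Γ M T) (A : Expr S) :
    D P (A :: Γ) M.shift T.shift :=
  h.ren (TRen.shift Γ A)

/-- Typed substitutions. -/
def TSub (P : Spec S) (σ : ℕ → Expr S) (Γ Δ : List (Expr S)) : Prop :=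
  ∀ i A, Lookup Γ i A → D P Δ (σ i) (A.sub σ)

theorem TSub.up {σ : ℕ → Expr S} {Γ Δ : List (Expr S)} (h : TSub P σ Γ Δ) (A : Expr S) :
    TSub P (Expr.up σ) (A :: Γ) (A.sub σ :: Δ) := by
  intro i B hB
  cases hB with
  | zero => rw [shift_sub]; exact D.var Lookup.zero
  | succ hB => rw [shift_sub]; exact (h _ _ hB).weaken _

theorem D.sub {Γ Δ : List (Expr S)} {M T : Expr S} (h : D P Γ M T) {σ : ℕ → Expr S}
    (hσ : TSub P σ Γ Δ) : D P Δ (M.sub σ) (T.sub σ) := by
  induction h generalizing σ Δ with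
  | axm h => exact D.axm h
  | var h => exact hσ _ _ h
  | prod _ _ hr ih₁ ih₂ => exact D.prod (ih₁ hσ) (ih₂ (hσ.up _)) hr
  | abs _ _ ih₁ ih₂ => exact D.abs (ih₁ (hσ.up _)) (ih₂ hσ)
  | app _ _ ih₁ ih₂ => rw [inst_sub_comm]; exact D.app (ih₁ hσ) (ih₂ hσ)
  | conv _ _ hc ih₁ ih₂ => exact D.conv (ih₁ hσ) (ih₂ hσ) (hc.sub _)

theorem TSub.inst {Γ : List (Expr S)} {N A : Expr S} (h : D P Γ N A) :
    TSub P (scons N Expr.var) (A :: Γ) Γ := by
  intro i B hB
  cases hB with
  | zero => rw [shift_sub_scons, sub_var]; exact h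
  | succ hB => rw [shift_sub_scons, sub_var]; exact D.var hB

theorem D.inst {Γ : List (Expr S)} {M T N A : Expr S} (h : D P (A :: Γ) M T)
    (hN : D P Γ N A) : D P Γ (M.inst N) (T.inst N) :=
  h.sub (TSub.inst hN)

theorem TSub.changeHead {Γ : List (Expr S)} {A A' : Expr S} {s : S}
    (hA : D P Γ A (.sort s)) (hc : Conv A A') : TSub P Expr.var (A :: Γ) (A' :: Γ) := by
  intro i B hB
  rw [sub_var]
  cases hB with
  | zero =>
    have h₁ : D P (A' :: Γ) A.shift (Expr.sort s) := hA.weaken A'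
    exact D.conv (D.var Lookup.zero) h₁ hc.symm.shift
  | succ hB => exact D.var (Lookup.succ hB)

theorem D.changeHead {Γ : List (Expr S)} {A A' M T : Expr S} {s : S} (h : D P (A :: Γ) M T)
    (hA : D P Γ A (.sort s)) (hc : Conv A A') : D P (A' :: Γ) M T := by
  have := h.sub (TSub.changeHead hA hc)
  rwa [sub_var, sub_var] at this

/-! ### Generation -/

theorem gen_var {Γ : List (Expr S)} {i : ℕ} {T : Expr S} (h : D P Γ (.var i) T) :
    ∃ A, Lookup Γ i A ∧ Conv A T := by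
  generalize hX : Expr.var i = X at h
  induction h with
  | var hl => cases hX; exact ⟨_, hl, Conv.refl _⟩
  | conv _ _ hc ih _ =>
    obtain ⟨A, hl, hA⟩ := ih hX
    exact ⟨A, hl, hA.trans hc⟩
  | axm => cases hX
  | prod => cases hX
  | abs => cases hX
  | app => cases hX

theorem gen_sort {Γ : List (Expr S)} {s : S} {T : Expr S} (h : D P Γ (.sort s) T) :
    ∃ t, P.ax s t ∧ Conv (.sort t) T := by
  generalize hX : Expr.sort s = X at h
  induction h with
  | axm hax => cases hX; exact ⟨_, hax, Conv.refl _⟩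
  | conv _ _ hc ih _ =>
    obtain ⟨t, ht, hA⟩ := ih hX
    exact ⟨t, ht, hA.trans hc⟩
  | var => cases hX
  | prod => cases hX
  | abs => cases hX
  | app => cases hX

theorem gen_pi {Γ : List (Expr S)} {A B T : Expr S} (h : D P Γ (.pi A B) T) :
    ∃ a b c, D P Γ A (.sort a) ∧ D P (A :: Γ) B (.sort b) ∧ P.rule a b c ∧
      Conv (.sort c) T := by
  generalize hX : Expr.pi A B = X at h
  induction h with
  | prod hA hB hr => cases hX; exact ⟨_, _, _, hA, hB, hr, Conv.refl _⟩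
  | conv _ _ hc ih _ =>
    obtain ⟨a, b, c, hA, hB, hr, hT⟩ := ih hX
    exact ⟨a, b, c, hA, hB, hr, hT.trans hc⟩
  | var => cases hX
  | axm => cases hX
  | abs => cases hX
  | app => cases hX

theorem gen_lam {Γ : List (Expr S)} {A M T : Expr S} (h : D P Γ (.lam A M) T) :
    ∃ B s, D P (A :: Γ) M B ∧ D P Γ (.pi A B) (.sort s) ∧ Conv (.pi A B) T := by
  generalize hX : Expr.lam A M = X at h
  induction h with
  | abs hM hP => cases hX; exact ⟨_, _, hM, hP, Conv.refl _⟩
  | conv _ _ hc ih _ =>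
    obtain ⟨B, s, hM, hP, hT⟩ := ih hX
    exact ⟨B, s, hM, hP, hT.trans hc⟩
  | var => cases hX
  | axm => cases hX
  | prod => cases hX
  | app => cases hX

theorem gen_app {Γ : List (Expr S)} {M N T : Expr S} (h : D P Γ (.app M N) T) :
    ∃ A B, D P Γ M (.pi A B) ∧ D P Γ N A ∧ Conv (B.inst N) T := by
  generalize hX : Expr.app M N = X at h
  induction h with
  | app hM hN => cases hX; exact ⟨_, _, hM, hN, Conv.refl _⟩
  | conv _ _ hc ih _ =>
    obtain ⟨A, B, hM, hN, hT⟩ := ih hX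
    exact ⟨A, B, hM, hN, hT.trans hc⟩
  | var => cases hX
  | axm => cases hX
  | prod => cases hX
  | abs => cases hX

theorem D.dom_sort {Γ : List (Expr S)} {A B T : Expr S} (h : D P Γ (.pi A B) T) :
    ∃ a, D P Γ A (.sort a) := by
  obtain ⟨a, _, _, hA, -⟩ := gen_pi h
  exact ⟨a, hA⟩

theorem WF.lookup {Γ : List (Expr S)} {i : ℕ} {A : Expr S} (hw : WF P Γ)
    (h : Lookup Γ i A) : ∃ s, D P Γ A (.sort s) := by
  induction h with
  | zero =>
    cases hw with
    | cons _ hA => exact ⟨_, D.weaken hA _⟩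
  | succ _ ih =>
    cases hw with
    | cons hw _ =>
      obtain ⟨s, hs⟩ := ih hw
      exact ⟨s, D.weaken hs _⟩

theorem D.correctness {Γ : List (Expr S)} {M T : Expr S} (h : D P Γ M T) (hw : WF P Γ) :
    (∃ s, T = .sort s) ∨ ∃ s, D P Γ T (.sort s) := by
  induction h with
  | axm => exact Or.inl ⟨_, rfl⟩
  | var hl => exact Or.inr (hw.lookup hl)
  | prod => exact Or.inl ⟨_, rfl⟩
  | abs _ hP => exact Or.inr ⟨_, hP⟩
  | app _ hN ih _ =>
    rcases ih hw with ⟨s, hs⟩ | ⟨s, hs⟩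
    · cases hs
    · obtain ⟨a, b, c, -, hB, -, -⟩ := gen_pi hs
      exact Or.inr ⟨b, hB.inst hN⟩
  | conv _ hB => exact Or.inr ⟨_, hB⟩

theorem D.pi_type {Γ : List (Expr S)} {M A B : Expr S} (h : D P Γ M (.pi A B))
    (hw : WF P Γ) :
    ∃ a b c, D P Γ A (.sort a) ∧ D P (A :: Γ) B (.sort b) ∧ P.rule a b c ∧
      D P Γ (.pi A B) (.sort c) := by
  rcases h.correctness hw with ⟨s, hs⟩ | ⟨s, hs⟩
  · cases hs
  · obtain ⟨a, b, c, hA, hB, hr, -⟩ := gen_pi hs
    exact ⟨a, b, c, hA, hB, hr, D.prod hA hB hr⟩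

theorem subject_reduction {Γ : List (Expr S)} {M T : Expr S} (h : D P Γ M T) (hw : WF P Γ)
    {M' : Expr S} (hb : Beta M M') : D P Γ M' T := by
  induction h generalizing M' with
  | axm => cases hb
  | var => cases hb
  | prod hA hB hr ihA ihB =>
    cases hb with
    | piL _ hb => exact D.prod (ihA hw hb) (hB.changeHead hA (Conv.step hb)) hr
    | piR _ hb => exact D.prod hA (ihB (WF.cons hw hA) hb) hr
  | @abs Γ A B M s hM hP ihM ihP =>
    obtain ⟨a, hA⟩ := hP.dom_sort
    cases hb with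
    | lamL _ hb =>
      exact D.conv (D.abs (hM.changeHead hA (Conv.step hb)) (ihP hw (Beta.piL _ hb))) hP
        (Conv.step (Beta.piL _ hb)).symm
    | lamR _ hb => exact D.abs (ihM (WF.cons hw hA) hb) hP
  | @app Γ A B M N hM hN ihM ihN =>
    cases hb with
    | redex A₀ M₀ _ =>
      obtain ⟨B₀, s, hM₀, hP₀, hc⟩ := gen_lam hM
      obtain ⟨a₀, hA₀⟩ := hP₀.dom_sort
      obtain ⟨hcA, hcB⟩ := hc.pi_inj
      obtain ⟨a, b, c, -, hB, -, -⟩ := hM.pi_type hw
      exact D.conv (hM₀.inst (D.conv hN hA₀ hcA.symm)) (hB.inst hN) (hcB.sub _)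
    | appL _ hb => exact D.app (ihM hw hb) hN
    | @appR _ _ N' hb =>
      obtain ⟨a, b, c, -, hB, -, -⟩ := hM.pi_type hw
      refine D.conv (D.app hM (ihN hw hb)) (hB.inst hN) ?_
      refine (Steps.sub_congr B ?_).conv.symm
      intro i; cases i with
      | zero => exact Steps.single hb
      | succ n => exact Steps.refl _
  | conv _ hB hc ih _ => exact D.conv (ih hw hb) hB hc

theorem D.steps {Γ : List (Expr S)} {M T M' : Expr S} (h : D P Γ M T) (hw : WF P Γ)
    (hb : Steps M M') : D P Γ M' T := by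
  induction hb with
  | refl => exact h
  | tail _ hb ih => exact subject_reduction ih hw hb

/-! ### Specifications with functional axioms and rules of the form `(a, b, b)` -/

/-- Axioms are functional and rules have the form `(a, b, b)`. -/
structure Basic (P : Spec S) : Prop where
  functional : ∀ s t t', P.ax s t → P.ax s t' → t = t'
  generalized : ∀ a b c, P.rule a b c → c = b

theorem D.unique (hP : Basic P) {Γ : List (Expr S)} {M T T' : Expr S} (h : D P Γ M T)
    (h' : D P Γ M T') : Conv T T' := by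
  induction M generalizing Γ T T' with
  | var i =>
    obtain ⟨A, hA, hc⟩ := gen_var h
    obtain ⟨A', hA', hc'⟩ := gen_var h'
    rw [Lookup.det hA hA'] at hc
    exact hc.symm.trans hc'
  | sort s =>
    obtain ⟨t, ht, hc⟩ := gen_sort h
    obtain ⟨t', ht', hc'⟩ := gen_sort h'
    rw [hP.functional _ _ _ ht ht'] at hc
    exact hc.symm.trans hc'
  | app M N ihM _ =>
    obtain ⟨A, B, hM, -, hc⟩ := gen_app h
    obtain ⟨A', B', hM', -, hc'⟩ := gen_app h'
    exact (hc.symm.trans ((ihM hM hM').pi_inj.2.sub _)).trans hc'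
  | lam A M _ ihM =>
    obtain ⟨B, s, hM, -, hc⟩ := gen_lam h
    obtain ⟨B', s', hM', -, hc'⟩ := gen_lam h'
    refine (hc.symm.trans ?_).trans hc'
    exact Conv.map (f := fun X => Expr.pi A X) (fun _ _ hh => Beta.piR A hh) (ihM hM hM')
  | pi A B _ ihB =>
    obtain ⟨a, b, c, -, hB, hr, hc⟩ := gen_pi h
    obtain ⟨a', b', c', -, hB', hr', hc'⟩ := gen_pi h'
    have hbb := (ihB hB hB').sort_eq
    rw [hP.generalized _ _ _ hr, hbb, ← hP.generalized _ _ _ hr'] at hc
    exact hc.symm.trans hc'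

theorem D.sort_unique (hP : Basic P) {Γ : List (Expr S)} {M : Expr S} {s t : S}
    (h : D P Γ M (.sort s)) (h' : D P Γ M (.sort t)) : s = t :=
  (D.unique hP h h').sort_eq

/-- `HasCol P Γ M c`: the type of `M` has sort `c`. -/
def HasCol (P : Spec S) (Γ : List (Expr S)) (M : Expr S) (c : S) : Prop :=
  ∃ T, D P Γ M T ∧ D P Γ T (.sort c)

theorem HasCol.unique (hP : Basic P) {Γ : List (Expr S)} (hw : WF P Γ) {M : Expr S} {c c' : S}
    (h : HasCol P Γ M c) (h' : HasCol P Γ M c') : c = c' := by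
  obtain ⟨T, hM, hT⟩ := h
  obtain ⟨T', hM', hT'⟩ := h'
  obtain ⟨L, h₁, h₂⟩ := (D.unique hP hM hM').join
  exact D.sort_unique hP (hT.steps hw h₁) (hT'.steps hw h₂)

open Classical in
/-- The sort of a type expression, when it has one. -/
noncomputable def srt (P : Spec S) (Γ : List (Expr S)) (A : Expr S) : Option S :=
  if h : ∃ s, D P Γ A (.sort s) then some h.choose else none

open Classical in
/-- The colour of an expression: the sort of its type, when it has one. -/
noncomputable def col (P : Spec S) (Γ : List (Expr S)) (M : Expr S) : Option S :=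
  if h : ∃ c, HasCol P Γ M c then some h.choose else none

theorem srt_eq (hP : Basic P) {Γ : List (Expr S)} {A : Expr S} {s : S}
    (h : D P Γ A (.sort s)) : srt P Γ A = some s := by
  have hex : ∃ s, D P Γ A (.sort s) := ⟨s, h⟩
  rw [srt, dif_pos hex]
  exact congrArg some (D.sort_unique hP hex.choose_spec h)

theorem col_eq (hP : Basic P) {Γ : List (Expr S)} (hw : WF P Γ) {M : Expr S} {c : S}
    (h : HasCol P Γ M c) : col P Γ M = some c := by
  have hex : ∃ c, HasCol P Γ M c := ⟨c, h⟩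
  rw [col, dif_pos hex]
  exact congrArg some (HasCol.unique hP hw hex.choose_spec h)

/-! ### Comparison with the judgment `Der` -/

theorem Der.toD {Γ : List (Expr S)} {M T : Expr S} (h : Der P Γ M T) :
    WF P Γ ∧ D P Γ M T := by
  induction h with
  | axm h => exact ⟨WF.nil, D.axm h⟩
  | var _ ih => exact ⟨WF.cons ih.1 ih.2, D.var Lookup.zero⟩
  | weak _ _ ih₁ ih₂ => exact ⟨WF.cons ih₁.1 ih₂.2, ih₁.2.weaken _⟩
  | prod _ _ hr ih₁ ih₂ => exact ⟨ih₁.1, D.prod ih₁.2 ih₂.2 hr⟩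
  | abs _ _ ih₁ ih₂ => exact ⟨ih₂.1, D.abs ih₁.2 ih₂.2⟩
  | app _ _ ih₁ ih₂ => exact ⟨ih₁.1, D.app ih₁.2 ih₂.2⟩
  | conv _ _ hc ih₁ ih₂ => exact ⟨ih₁.1, D.conv ih₁.2 ih₂.2 hc⟩

end Vale.Agent.P340
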