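import Vale.Agent.P340.OcDefs
import Vale.Agent.P340.Typing
import Vale.Agent.P340.StCst

/-!
# Oddly connected targets: edges, junk types, constants

The rule graph, the closed junk types used by the memory translation, and the transfer of weak
normalization to terms with typed closed constants.
-/

namespace Vale.Agent.P340.Oc

open Relation

universe u
variable {S : Type u}

theorem OddlyConnected.toBasic {P : Spec S} (h : OddlyConnected P) : Basic P :=
  ⟨h.functional, h.generalized⟩

theorem Edge.tgt {P : Spec S} {a b : S} (h : Edge P a b) : Tgt P b := ⟨a, h⟩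

/-! ### Sorts of types are touched -/

theorem touched_of_type {P : Spec S} (hP : Basic P) {Γ : List (Expr S)} {A T : Expr S} (h : D P Γ A T) :
    ∀ {s : S}, WF P Γ → Vale.Agent.P340.Conv T (.sort s) → Touched P s := by
  intro s hw hc
  rcases h.correctness hw with ⟨t, rfl⟩ | ⟨t, ht⟩
  swap
  · obtain ⟨t', ht', -⟩ := gen_sort (ht.steps hw hc.steps_to_sort)
    exact ⟨t', Or.inl ht'⟩
  · obtain rfl := hc.sort_eq
    clear hc
    generalize hT : Expr.sort t = T at h
    induction h with
    | axm ha => cases hT; exact ⟨_, Or.inr ha⟩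
    | var hl =>
      obtain ⟨s, hs⟩ := hw.lookup hl
      obtain ⟨t', ht', -⟩ := gen_sort (hT ▸ hs)
      exact ⟨t', Or.inl ht'⟩
    | @prod Γ A B a b c hA hB hr ihA ihB =>
      cases hT
      obtain rfl := hP.generalized _ _ _ hr
      exact ihB (WF.cons hw hA) rfl
    | abs => cases hT
    | app hM hN _ _ =>
      obtain ⟨a, b, c, -, hB, -, -⟩ := hM.pi_type hw
      obtain ⟨t', ht', -⟩ := gen_sort (hT ▸ hB.inst hN)
      exact ⟨t', Or.inl ht'⟩
    | conv _ hB _ _ _ =>
      obtain ⟨t', ht', -⟩ := gen_sort (hT ▸ hB)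
      exact ⟨t', Or.inl ht'⟩

theorem touched_of_sort {P : Spec S} (hP : Basic P) {Γ : List (Expr S)} (hw : WF P Γ)
    {A : Expr S} {s : S} (h : D P Γ A (.sort s)) : Touched P s :=
  touched_of_type hP h hw (Vale.Agent.P340.Conv.refl _)

/-- The rule used by a product is an edge. -/
theorem edge_of_prod {P : Spec S} (hP : Basic P) {Γ : List (Expr S)} (hw : WF P Γ)
    {A B : Expr S} {a b : S} (hA : D P Γ A (.sort a)) (hB : D P (A :: Γ) B (.sort b))
    (hr : P.rule a b b) : Edge P a b :=
  ⟨hr, touched_of_sort hP hw hA, touched_of_sort hP (WF.cons hw hA) hB⟩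

/-! ### Weak normalization with typed constants -/

/-- The specification as a specification of the internal language. -/
def toPS (P : Spec S) : PTS.Spec S := ⟨P.ax, P.rule⟩

/-- The internal system with closed constants. -/
def QS (P : Spec S) : St.Sys S := St.withCst (toPS P)

/-- Expressions of the internal language as expressions. -/
def ofP : PTS.Expr S → Expr S
  | .var i => .var i
  | .sort s => .sort s
  | .app a b => .app (ofP a) (ofP b)
  | .lam a b => .lam (ofP a) (ofP b)
  | .pi a b => .pi (ofP a) (ofP b)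

/-- Expressions as expressions of the internal language. -/
def toP : Expr S → PTS.Expr S
  | .var i => .var i
  | .sort s => .sort s
  | .app a b => .app (toP a) (toP b)
  | .lam a b => .lam (toP a) (toP b)
  | .pi a b => .pi (toP a) (toP b)

theorem liftRen_eq (f : ℕ → ℕ) : PTS.Expr.liftRen f = upRen f := by
  funext n; cases n <;> rfl

theorem ofP_ren (e : PTS.Expr S) : ∀ f, ofP (e.rename f) = (ofP e).ren f := by
  induction e with
  | var i => intro f; rfl
  | sort s => intro f; rfl
  | app a b ha hb => intro f; simp [PTS.Expr.rename, ofP, Expr.ren, ha, hb]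
  | lam a b ha hb => intro f; simp [PTS.Expr.rename, ofP, Expr.ren, ha, hb, liftRen_eq]
  | pi a b ha hb => intro f; simp [PTS.Expr.rename, ofP, Expr.ren, ha, hb, liftRen_eq]

theorem ofP_subst (e : PTS.Expr S) : ∀ f : ℕ → PTS.Expr S,
    ofP (e.subst f) = (ofP e).sub (fun i => ofP (f i)) := by
  have hl : ∀ f : ℕ → PTS.Expr S,
      (fun i => ofP (PTS.Expr.liftSub f i)) = Expr.up (fun i => ofP (f i)) := by
    intro f; funext n
    cases n with
    | zero => rfl
    | succ n => exact ofP_ren _ _
  induction e with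
  | var i => intro f; rfl
  | sort s => intro f; rfl
  | app a b ha hb => intro f; simp [PTS.Expr.subst, ofP, Expr.sub, ha, hb]
  | lam a b ha hb => intro f; simp [PTS.Expr.subst, ofP, Expr.sub, ha, hb, hl]
  | pi a b ha hb => intro f; simp [PTS.Expr.subst, ofP, Expr.sub, ha, hb, hl]

theorem ofP_inst (B N : PTS.Expr S) : ofP (B.inst N) = (ofP B).inst (ofP N) := by
  rw [PTS.Expr.inst, ofP_subst, Expr.inst]
  congr 1
  funext n; cases n <;> rfl

theorem toP_ofP (e : PTS.Expr S) : toP (ofP e) = e := by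
  induction e <;> simp [toP, ofP, *]

theorem ofP_toP (e : Expr S) : ofP (toP e) = e := by
  induction e <;> simp [toP, ofP, *]

theorem ofP_beta {e e' : PTS.Expr S} (h : PTS.Beta e e') : Beta (ofP e) (ofP e') := by
  induction h with
  | beta A M N => rw [ofP_inst]; exact Beta.redex _ _ _
  | appL N _ ih => exact Beta.appL _ ih
  | appR M _ ih => exact Beta.appR _ ih
  | lamL M _ ih => exact Beta.lamL _ ih
  | lamR A _ ih => exact Beta.lamR _ ih
  | piL B _ ih => exact Beta.piL _ ih
  | piR A _ ih => exact Beta.piR _ ih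

theorem toP_inst (B N : Expr S) : toP (B.inst N) = (toP B).inst (toP N) := by
  have h := congrArg toP (ofP_inst (toP B) (toP N))
  rw [toP_ofP, ofP_toP, ofP_toP] at h
  exact h.symm

theorem toP_beta {e e' : Expr S} (h : Beta e e') : PTS.Beta (toP e) (toP e') := by
  induction h with
  | redex A M N => rw [toP_inst]; exact PTS.Beta.beta _ _ _
  | appL N _ ih => exact PTS.Beta.appL _ ih
  | appR M _ ih => exact PTS.Beta.appR _ ih
  | lamL M _ ih => exact PTS.Beta.lamL _ ih
  | lamR A _ ih => exact PTS.Beta.lamR _ ih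
  | piL B _ ih => exact PTS.Beta.piL _ ih
  | piR A _ ih => exact PTS.Beta.piR _ ih

theorem ofP_conv {e e' : PTS.Expr S} (h : PTS.BetaEq e e') :
    Vale.Agent.P340.Conv (ofP e) (ofP e') := by
  induction h with
  | rel _ _ h => exact EqvGen.rel _ _ (ofP_beta h)
  | refl => exact EqvGen.refl _
  | symm _ _ _ ih => exact EqvGen.symm _ _ ih
  | trans _ _ _ _ _ ih₁ ih₂ => exact EqvGen.trans _ _ _ ih₁ ih₂

theorem der_of_typed {P : Spec S} {Γ : List (PTS.Expr S)} {M A : PTS.Expr S}
    (h : PTS.Typed (toPS P) Γ M A) : Der P (Γ.map ofP) (ofP M) (ofP A) := by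
  induction h with
  | ax h => exact Der.axm h
  | var _ ih => rw [PTS.Expr.shift, ofP_ren]; exact Der.var ih
  | weak _ _ ih₁ ih₂ =>
    rw [PTS.Expr.shift, PTS.Expr.shift, ofP_ren, ofP_ren]
    exact Der.weak ih₁ ih₂
  | prod _ _ hr ih₁ ih₂ => exact Der.prod ih₁ ih₂ hr
  | abs _ _ ih₁ ih₂ => exact Der.abs ih₁ ih₂
  | app _ _ ih₁ ih₂ => rw [ofP_inst]; exact Der.app ih₁ ih₂
  | conv _ _ hc ih₁ ih₂ => exact Der.conv ih₁ ih₂ (ofP_conv hc)

theorem wn_pts {P : Spec S} (h : WeaklyNormalizing P) :
    PTS.WeaklyNormalizing (toPS P) := by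
  intro M hM
  obtain ⟨Γ, A, hA⟩ := hM
  obtain ⟨N, hs, hn⟩ := h (ofP M) ⟨_, ofP A, hA.imp der_of_typed der_of_typed⟩
  refine ⟨toP N, ?_, fun N' h' => hn (ofP N') ?_⟩
  · have := hs.lift toP fun _ _ h => toP_beta h
    simp only [Function.onFun, toP_ofP] at this; exact this
  · have := ofP_beta h'
    rwa [ofP_toP] at this

/-- Typed internal terms, constants included, have normal forms. -/
theorem wn_QS [Inhabited S] {P : Spec S} (h : WeaklyNormalizing P) {Γ : List (St.Tm S)}
    {M A : St.Tm S} (hM : St.Has (QS P) Γ M A) :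
    ∃ N, St.Steps M N ∧ ∀ N', ¬ St.Step N N' :=
  St.wn_internal (wn_pts h) hM

/-! ### Junk types -/

open Classical in
/-- A closed type of sort `d`. -/
noncomputable def W (P : Spec S) (d : S) : St.Tm S :=
  if ∃ t, P.ax d t then .cst 0 (.srt d)
  else if h : ∃ y, P.ax y d then .srt h.choose else .srt d

theorem W_typed {P : Spec S} {d : S} (h : Touched P d) :
    St.Has (QS P) [] (W P d) (.srt d) := by
  unfold W
  by_cases h₁ : ∃ t, P.ax d t
  · rw [if_pos h₁]
    obtain ⟨t, ht⟩ := h₁
    exact St.Has.cst 0 trivial (St.Has.ax ht)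
  · obtain ⟨t, ht | ht⟩ := h
    · exact absurd ⟨t, ht⟩ h₁
    · have h₂ : ∃ y, P.ax y d := ⟨t, ht⟩
      rw [if_neg h₁, dif_pos h₂]
      exact St.Has.ax h₂.choose_spec

@[simp] theorem W_closed (P : Spec S) (d : S) (f : ℕ → ℕ) : St.Tm.ren f (W P d) = W P d := by
  unfold W; split
  · rfl
  · split <;> rfl

@[simp] theorem W_sub (P : Spec S) (d : S) (f : ℕ → St.Tm S) :
    St.Tm.sub f (W P d) = W P d := by
  unfold W; split
  · rfl
  · split <;> rfl

@[simp] theorem W_sh (P : Spec S) (d : S) : St.Tm.sh (W P d) = W P d := W_closed P d _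

theorem OddPath.last {P : Spec S} {a b : S} (h : OddPath P a b) :
    Tgt P a → ∃ d, Tgt P d ∧ Edge P d b := by
  induction h with
  | one h => exact fun ha => ⟨_, ha, h⟩
  | more _ h₂ _ ih => exact fun _ => ih h₂.tgt

open Classical in
/-- The sort of the junk of colour `b`. -/
noncomputable def jd (P : Spec S) (b : S) : S :=
  if h : ∃ d, Tgt P d ∧ Edge P d b then h.choose else b

theorem jd_spec {P : Spec S} (hC : OddlyConnected P) {b : S} (hb : Tgt P b) :
    Tgt P (jd P b) ∧ Edge P (jd P b) b := by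
  have h : ∃ d, Tgt P d ∧ Edge P d b := (hC.connected b b hb hb).last hb
  rw [jd, dif_pos h]
  exact h.choose_spec

theorem Tgt.touched {P : Spec S} {b : S} (h : Tgt P b) : Touched P b :=
  h.elim fun _ he => he.2.2

end Vale.Agent.P340.Oc
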