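import Vale.Agent.P340.Defs

/-!
# Oddly connected specifications: the definitions used by the statement

The rule graph has an edge from `a` to `b` for every rule `(a, b, b)` whose sorts occur in
axioms (rules with other sorts cannot be used in any derivation).
-/

namespace Vale.Agent.P340.Oc

universe u
variable {S : Type u}

/-- The sort occurs in an axiom. -/
def Touched (P : Spec S) (s : S) : Prop := ∃ t, P.ax s t ∨ P.ax t s

/-- An edge of the rule graph. -/
def Edge (P : Spec S) (a b : S) : Prop := P.rule a b b ∧ Touched P a ∧ Touched P b

/-- The sorts of products. -/
def Tgt (P : Spec S) (b : S) : Prop := ∃ a, Edge P a b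

/-- Paths of odd length in the rule graph. -/
inductive OddPath (P : Spec S) : S → S → Prop
  | one {a b : S} : Edge P a b → OddPath P a b
  | more {a p q b : S} : Edge P a p → Edge P p q → OddPath P q b → OddPath P a b

/-- Functional axioms, rules `(a,b,b)`, and every target of a rule reaches every target by a
path of odd length. -/
structure OddlyConnected (P : Spec S) : Prop where
  functional : ∀ s t t', P.ax s t → P.ax s t' → t = t'
  generalized : ∀ a b c, P.rule a b c → c = b
  connected : ∀ a b, Tgt P a → Tgt P b → OddPath P a b

end Vale.Agent.P340.Oc
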