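import Mathlib.Logic.Relation
import Mathlib.Tactic.Common

/-!
Pure lambda terms with constants. If every abstraction uses its variable (lambda-I), a term that
reduces to a normal form is strongly normalizing; the proof goes through standardization.
-/

namespace Vale.Agent.P340.St

open Relation

inductive UTm : Type where
  | var : ℕ → UTm
  | cst : ℕ → UTm
  | app : UTm → UTm → UTm
  | lam : UTm → UTm

namespace UTm

def liftF (f : ℕ → ℕ) : ℕ → ℕ
  | 0 => 0
  | n + 1 => f n + 1

theorem liftF_comp (f g : ℕ → ℕ) : liftF g ∘ liftF f = liftF (g ∘ f) := by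
  funext n; cases n <;> rfl

theorem liftF_id : liftF (id : ℕ → ℕ) = id := by funext n; cases n <;> rfl

def ren : (ℕ → ℕ) → UTm → UTm
  | f, var n => var (f n)
  | _, cst c => cst c
  | f, app a b => app (ren f a) (ren f b)
  | f, lam b => lam (ren (liftF f) b)

def up (f : ℕ → UTm) : ℕ → UTm
  | 0 => var 0
  | n + 1 => ren Nat.succ (f n)

def sub : (ℕ → UTm) → UTm → UTm
  | f, var n => f n
  | _, cst c => cst c
  | f, app a b => app (sub f a) (sub f b)
  | f, lam b => lam (sub (up f) b)

def scons (a : UTm) (f : ℕ → UTm) : ℕ → UTm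
  | 0 => a
  | n + 1 => f n

def inst (B N : UTm) : UTm := sub (scons N var) B

theorem ren_ren (M : UTm) : ∀ f g : ℕ → ℕ, ren g (ren f M) = ren (g ∘ f) M := by
  induction M with
  | var n => intros; rfl
  | cst c => intros; rfl
  | app a b ha hb => intros; simp [ren, ha, hb]
  | lam b hb => intros; simp [ren, hb, liftF_comp]

theorem ren_id (M : UTm) : ren id M = M := by
  induction M with
  | var n => rfl
  | cst c => rfl
  | app a b ha hb => simp [ren, ha, hb]
  | lam b hb => simp [ren, hb, liftF_id]

theorem up_liftF (f : ℕ → ℕ) (g : ℕ → UTm) : up g ∘ liftF f = up (g ∘ f) := by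
  funext n; cases n <;> rfl

theorem ren_up (f : ℕ → UTm) (g : ℕ → ℕ) : ren (liftF g) ∘ up f = up (ren g ∘ f) := by
  funext n
  cases n with
  | zero => rfl
  | succ n => simp only [Function.comp, up, ren_ren]; rfl

theorem sub_ren (M : UTm) : ∀ (f : ℕ → ℕ) (g : ℕ → UTm), sub g (ren f M) = sub (g ∘ f) M := by
  induction M with
  | var n => intros; rfl
  | cst c => intros; rfl
  | app a b ha hb => intros; simp [ren, sub, ha, hb]
  | lam b hb => intros; simp [ren, sub, hb, up_liftF]

theorem ren_sub (M : UTm) : ∀ (f : ℕ → UTm) (g : ℕ → ℕ),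
    ren g (sub f M) = sub (ren g ∘ f) M := by
  induction M with
  | var n => intros; rfl
  | cst c => intros; rfl
  | app a b ha hb => intros; simp [ren, sub, ha, hb]
  | lam b hb => intros; simp [ren, sub, hb, ren_up]

theorem sub_up (f g : ℕ → UTm) : sub (up g) ∘ up f = up (sub g ∘ f) := by
  funext n
  cases n with
  | zero => rfl
  | succ n => simp only [Function.comp, up, sub_ren, ren_sub]; rfl

theorem sub_sub (M : UTm) : ∀ f g : ℕ → UTm, sub g (sub f M) = sub (sub g ∘ f) M := by
  induction M with
  | var n => intros; rfl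
  | cst c => intros; rfl
  | app a b ha hb => intros; simp [sub, ha, hb]
  | lam b hb => intros; simp [sub, hb, sub_up]

theorem up_var : up var = var := by funext n; cases n <;> rfl

theorem sub_var (M : UTm) : sub var M = M := by
  induction M with
  | var n => rfl
  | cst c => rfl
  | app a b ha hb => simp [sub, ha, hb]
  | lam b hb => simp [sub, hb, up_var]

theorem ren_eq_sub (M : UTm) (f : ℕ → ℕ) : ren f M = sub (var ∘ f) M := by
  rw [← sub_ren, sub_var]

theorem sub_inst (B N : UTm) (f : ℕ → UTm) :
    sub f (inst B N) = inst (sub (up f) B) (sub f N) := by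
  simp only [inst, sub_sub]
  congr 1
  funext n
  cases n with
  | zero => rfl
  | succ n =>
    simp only [Function.comp, scons, up, sub, sub_ren]
    exact (sub_var (f n)).symm

theorem ren_inst (B N : UTm) (f : ℕ → ℕ) :
    ren f (inst B N) = inst (ren (liftF f) B) (ren f N) := by
  simp only [inst, ren_sub, sub_ren]
  congr 1
  funext n; cases n <;> rfl

inductive Step : UTm → UTm → Prop where
  | beta (M N : UTm) : Step (app (lam M) N) (inst M N)
  | appL {M M' : UTm} (N : UTm) : Step M M' → Step (app M N) (app M' N)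
  | appR (M : UTm) {N N' : UTm} : Step N N' → Step (app M N) (app M N')
  | lamB {M M' : UTm} : Step M M' → Step (lam M) (lam M')

inductive HStep : UTm → UTm → Prop where
  | beta (M N : UTm) : HStep (app (lam M) N) (inst M N)
  | appL {M M' : UTm} (N : UTm) : HStep M M' → HStep (app M N) (app M' N)

theorem HStep.step {M N : UTm} (h : HStep M N) : Step M N := by
  induction h with
  | beta M N => exact .beta M N
  | appL N _ ih => exact .appL N ih

theorem Step.sub {M N : UTm} (h : Step M N) : ∀ f, Step (sub f M) (sub f N) := by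
  induction h with
  | beta M N => intro f; rw [sub_inst]; exact .beta _ _
  | appL N _ ih => intro f; exact .appL _ (ih f)
  | appR M _ ih => intro f; exact .appR _ (ih f)
  | lamB _ ih => intro f; exact .lamB (ih _)

theorem Step.ren {M N : UTm} (h : Step M N) (f : ℕ → ℕ) : Step (ren f M) (ren f N) := by
  rw [ren_eq_sub, ren_eq_sub]; exact h.sub _

theorem HStep.sub {M N : UTm} (h : HStep M N) : ∀ f, HStep (sub f M) (sub f N) := by
  induction h with
  | beta M N => intro f; rw [sub_inst]; exact .beta _ _
  | appL N _ ih => intro f; exact .appL _ (ih f)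

abbrev Steps : UTm → UTm → Prop := ReflTransGen Step
abbrev HSteps : UTm → UTm → Prop := ReflTransGen HStep

theorem Steps.app {M M' N N' : UTm} (h₁ : Steps M M') (h₂ : Steps N N') :
    Steps (.app M N) (.app M' N') :=
  (h₁.lift (fun x => UTm.app x N) fun _ _ h => Step.appL N h).trans
    (h₂.lift (fun x => UTm.app M' x) fun _ _ h => Step.appR M' h)

theorem Steps.lam {M M' : UTm} (h : Steps M M') : Steps (.lam M) (.lam M') :=
  h.lift UTm.lam fun _ _ h => Step.lamB h

theorem Steps.up {f g : ℕ → UTm} (h : ∀ n, Steps (f n) (g n)) :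
    ∀ n, Steps (UTm.up f n) (UTm.up g n)
  | 0 => .refl
  | n + 1 => (h n).lift _ fun _ _ hs => hs.ren _

theorem Steps.sub_arg (M : UTm) :
    ∀ f g : ℕ → UTm, (∀ n, Steps (f n) (g n)) → Steps (UTm.sub f M) (UTm.sub g M) := by
  induction M with
  | var n => intro f g h; exact h n
  | cst c => intro f g h; exact .refl
  | app a b ha hb => intro f g h; exact Steps.app (ha f g h) (hb f g h)
  | lam b hb => intro f g h; exact Steps.lam (hb _ _ (Steps.up h))

/-- Standard reduction. -/
inductive Std : UTm → UTm → Prop where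
  | var {M : UTm} (i : ℕ) : HSteps M (var i) → Std M (var i)
  | cst {M : UTm} (c : ℕ) : HSteps M (cst c) → Std M (cst c)
  | app {M P P' Q Q' : UTm} : HSteps M (app P Q) → Std P P' → Std Q Q' → Std M (app P' Q')
  | lam {M P P' : UTm} : HSteps M (lam P) → Std P P' → Std M (lam P')

theorem Std.refl : ∀ M : UTm, Std M M
  | .var i => .var i .refl
  | .cst c => .cst c .refl
  | .app a b => .app .refl (Std.refl a) (Std.refl b)
  | .lam b => .lam .refl (Std.refl b)

theorem Std.head {M M' N : UTm} (h : HSteps M M') (h' : Std M' N) : Std M N := by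
  cases h' with
  | var i hh => exact .var i (h.trans hh)
  | cst c hh => exact .cst c (h.trans hh)
  | app hh h₁ h₂ => exact .app (h.trans hh) h₁ h₂
  | lam hh h₁ => exact .lam (h.trans hh) h₁

theorem HSteps.sub {M N : UTm} (h : HSteps M N) (f : ℕ → UTm) :
    HSteps (UTm.sub f M) (UTm.sub f N) :=
  h.lift _ fun _ _ hs => hs.sub f

theorem Std.sub_gen {M N : UTm} (h : Std M N) :
    ∀ f g : ℕ → UTm, (∀ n, Std (f n) (g n)) →
      (∀ n (f' : ℕ → ℕ), Std (UTm.ren f' (f n)) (UTm.ren f' (g n))) →
      Std (UTm.sub f M) (UTm.sub g N) := by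
  induction h with
  | var i hh => intro f g h _; exact Std.head (HSteps.sub hh f) (h i)
  | cst c hh => intro f g h _; exact .cst c (HSteps.sub hh f)
  | app hh _ _ ih₁ ih₂ =>
    intro f g h h'; exact .app (HSteps.sub hh f) (ih₁ f g h h') (ih₂ f g h h')
  | lam hh _ ih =>
    intro f g h h'
    refine .lam (HSteps.sub hh f) (ih _ _ ?_ ?_)
    · rintro (_ | n)
      · exact .refl _
      · exact h' n _
    · rintro (_ | n) f'
      · exact .refl _
      · simp only [UTm.up, ren_ren]; exact h' n _

theorem Std.ren {M N : UTm} (h : Std M N) (f : ℕ → ℕ) : Std (UTm.ren f M) (UTm.ren f N) := by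
  rw [ren_eq_sub, ren_eq_sub]
  exact h.sub_gen _ _ (fun n => .refl _) (fun n f' => .refl _)

theorem Std.sub {M N : UTm} (h : Std M N) {f g : ℕ → UTm} (hfg : ∀ n, Std (f n) (g n)) :
    Std (UTm.sub f M) (UTm.sub g N) :=
  h.sub_gen f g hfg fun n f' => (hfg n).ren f'

theorem Std.inst {M N P Q : UTm} (h₁ : Std M N) (h₂ : Std P Q) :
    Std (UTm.inst M P) (UTm.inst N Q) := by
  refine h₁.sub ?_
  rintro (_ | n)
  · exact h₂
  · exact .refl _

theorem Std.tail {M N : UTm} (h : Std M N) : ∀ {N'}, Step N N' → Std M N' := by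
  induction h with
  | var i hh => intro N' h; cases h
  | cst c hh => intro N' h; cases h
  | lam hh _ ih => intro N' h; cases h with | lamB h => exact .lam hh (ih h)
  | @app M P P' Q Q' hh hP hQ ihP ihQ =>
    intro N' h
    cases h with
    | appL _ h => exact .app hh (ihP h) hQ
    | appR _ h => exact .app hh hP (ihQ h)
    | beta B _ =>
      cases hP with
      | @lam _ P₀ _ hh₀ hP₀ =>
        refine Std.head ?_ (hP₀.inst hQ)
        exact (hh.trans (hh₀.lift (fun x => UTm.app x Q) fun _ _ h => HStep.appL Q h)).tail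
          (.beta _ _)

theorem Std.of_steps {M N : UTm} (h : Steps M N) : Std M N := by
  induction h with
  | refl => exact .refl _
  | tail _ hs ih => exact ih.tail hs

/-- Free occurrence of a variable. -/
def Occ : ℕ → UTm → Prop
  | i, var j => i = j
  | _, cst _ => False
  | i, app a b => Occ i a ∨ Occ i b
  | i, lam b => Occ (i + 1) b

/-- Every abstraction uses its variable. -/
def RelI : UTm → Prop
  | var _ => True
  | cst _ => True
  | app a b => RelI a ∧ RelI b
  | lam b => Occ 0 b ∧ RelI b

theorem occ_ren (M : UTm) : ∀ (f : ℕ → ℕ) i, Occ i (ren f M) ↔ ∃ j, Occ j M ∧ f j = i := by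
  induction M with
  | var n => intro f i; simp [ren, Occ, eq_comm]
  | cst c => intro f i; simp [ren, Occ]
  | app a b ha hb =>
    intro f i; simp only [ren, Occ, ha, hb]
    constructor
    · rintro (⟨j, h, e⟩ | ⟨j, h, e⟩)
      · exact ⟨j, .inl h, e⟩
      · exact ⟨j, .inr h, e⟩
    · rintro ⟨j, h | h, e⟩
      · exact .inl ⟨j, h, e⟩
      · exact .inr ⟨j, h, e⟩
  | lam b hb =>
    intro f i; simp only [ren, Occ, hb]
    constructor
    · rintro ⟨_ | j, h, e⟩
      · simp [liftF] at e
      · exact ⟨j, h, by simpa [liftF] using e⟩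
    · rintro ⟨j, h, e⟩
      exact ⟨j + 1, h, by simp [liftF, e]⟩

theorem occ_sub (M : UTm) :
    ∀ (f : ℕ → UTm) i, Occ i (sub f M) ↔ ∃ j, Occ j M ∧ Occ i (f j) := by
  induction M with
  | var n => intro f i; simp [sub, Occ]
  | cst c => intro f i; simp [sub, Occ]
  | app a b ha hb =>
    intro f i; simp only [sub, Occ, ha, hb]
    constructor
    · rintro (⟨j, h, e⟩ | ⟨j, h, e⟩)
      · exact ⟨j, .inl h, e⟩
      · exact ⟨j, .inr h, e⟩
    · rintro ⟨j, h | h, e⟩
      · exact .inl ⟨j, h, e⟩
      · exact .inr ⟨j, h, e⟩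
  | lam b hb =>
    intro f i; simp only [sub, Occ, hb]
    constructor
    · rintro ⟨_ | j, h, e⟩
      · simp [up, Occ] at e
      · refine ⟨j, h, ?_⟩
        simp only [up, occ_ren] at e
        obtain ⟨k, hk, e⟩ := e
        cases e; exact hk
    · rintro ⟨j, h, e⟩
      exact ⟨j + 1, h, by simp only [up, occ_ren]; exact ⟨i, e, rfl⟩⟩

theorem relI_ren {M : UTm} (h : RelI M) : ∀ f, RelI (ren f M) := by
  induction M with
  | var n => intros; trivial
  | cst c => intros; trivial
  | app a b ha hb => intro f; exact ⟨ha h.1 f, hb h.2 f⟩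
  | lam b hb =>
    intro f
    exact ⟨(occ_ren _ _ _).2 ⟨0, h.1, rfl⟩, hb h.2 _⟩

theorem relI_sub {M : UTm} (h : RelI M) : ∀ f, (∀ n, RelI (f n)) → RelI (sub f M) := by
  induction M with
  | var n => intro f hf; exact hf n
  | cst c => intros; trivial
  | app a b ha hb => intro f hf; exact ⟨ha h.1 f hf, hb h.2 f hf⟩
  | lam b hb =>
    intro f hf
    refine ⟨(occ_sub _ _ _).2 ⟨0, h.1, rfl⟩, hb h.2 _ ?_⟩
    rintro (_ | n)
    · trivial
    · exact relI_ren (hf n) _

theorem relI_step {M N : UTm} (h : Step M N) :
    RelI M → RelI N ∧ ∀ i, Occ i M → Occ i N := by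
  induction h with
  | beta M N =>
    intro hI
    refine ⟨relI_sub hI.1.2 _ ?_, ?_⟩
    · rintro (_ | n)
      · exact hI.2
      · trivial
    · intro i hi
      rw [inst, occ_sub]
      rcases hi with hi | hi
      · exact ⟨i + 1, hi, rfl⟩
      · exact ⟨0, hI.1.1, hi⟩
  | appL N _ ih =>
    intro hI
    exact ⟨⟨(ih hI.1).1, hI.2⟩, fun i hi => hi.imp ((ih hI.1).2 i) id⟩
  | appR M _ ih =>
    intro hI
    exact ⟨⟨hI.1, (ih hI.2).1⟩, fun i hi => hi.imp id ((ih hI.2).2 i)⟩
  | lamB _ ih =>
    intro hI
    exact ⟨⟨(ih hI.2).2 0 hI.1, (ih hI.2).1⟩, fun i hi => (ih hI.2).2 (i + 1) hi⟩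

/-- Strong normalization. -/
abbrev SN : UTm → Prop := Acc (fun y x => Step x y)

theorem SN.steps {M N : UTm} (h : SN M) (hs : Steps M N) : SN N := by
  induction hs with
  | refl => exact h
  | tail _ hs ih => exact ih.inv hs

theorem SN.appL {M N : UTm} (h : SN (app M N)) : SN M := by
  generalize e : app M N = X at h
  induction h generalizing M with
  | intro X _ ih => subst e; exact Acc.intro M fun M' hM => ih _ (Step.appL N hM) rfl

theorem SN.appR {M N : UTm} (h : SN (app M N)) : SN N := by
  generalize e : app M N = X at h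
  induction h generalizing N with
  | intro X _ ih => subst e; exact Acc.intro N fun N' hN => ih _ (Step.appR M hN) rfl

theorem SN.lam {M : UTm} (h : SN M) : SN (.lam M) := by
  induction h with
  | intro M _ ih =>
    refine Acc.intro _ fun X hX => ?_
    cases hX with | lamB h => exact ih _ h

theorem SN.of_sub {M : UTm} {f : ℕ → UTm} (h : SN (UTm.sub f M)) : SN M := by
  generalize e : UTm.sub f M = X at h
  induction h generalizing M with
  | intro X _ ih => subst e; exact Acc.intro M fun M' hM => ih _ (hM.sub f) rfl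

theorem SN.of_ren {M : UTm} {f : ℕ → ℕ} (h : SN (UTm.ren f M)) : SN M := by
  rw [ren_eq_sub] at h; exact h.of_sub

theorem SN.occ {M : UTm} : ∀ {f : ℕ → UTm} {i : ℕ}, Occ i M → SN (UTm.sub f M) → SN (f i) := by
  induction M with
  | var n => intro f i h hs; cases h; exact hs
  | cst c => intro f i h; exact h.elim
  | app a b ha hb =>
    intro f i h hs
    rcases h with h | h
    · exact ha h hs.appL
    · exact hb h hs.appR
  | lam b hb =>
    intro f i h hs
    have hb' : SN (UTm.sub (up f) b) := by
      simp only [UTm.sub] at hs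
      generalize e : UTm.sub (up f) b = Y at hs ⊢
      clear e
      generalize e : UTm.lam Y = X at hs
      induction hs generalizing Y with
      | intro X _ ih => subst e; exact Acc.intro Y fun Y' hY => ih _ (Step.lamB hY) _ rfl
    exact (hb (i := i + 1) h hb').of_ren

theorem HStep.commute {P P' : UTm} (h : HStep P P') : ∀ {P₁}, Step P P₁ →
    P₁ = P' ∨ ∃ P₁', HStep P₁ P₁' ∧ Steps P' P₁' := by
  induction h with
  | beta M N =>
    intro P₁ h₁
    cases h₁ with
    | beta => exact .inl rfl
    | appL _ h => cases h with | lamB h => exact .inr ⟨_, .beta _ _, .single (h.sub _)⟩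
    | @appR _ _ N' h =>
      refine .inr ⟨_, .beta _ _, Steps.sub_arg M _ _ ?_⟩
      rintro (_ | n)
      · exact .single h
      · exact .refl
  | @appL M M' N hM ih =>
    intro P₁ h₁
    cases h₁ with
    | beta B _ => cases hM
    | appL _ h =>
      rcases ih h with rfl | ⟨X, hX, hs⟩
      · exact .inl rfl
      · exact .inr ⟨_, .appL _ hX, Steps.app hs .refl⟩
    | appR _ h => exact .inr ⟨_, .appL _ hM, .single (.appR _ h)⟩

theorem SN.hexpand {M M' : UTm} (h : HStep M M') : RelI M → SN M' → SN M := by
  induction h with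
  | beta A B =>
    intro hI hs
    have hA : SN A := SN.of_sub hs
    have hB : SN B := SN.occ (f := scons B var) (i := 0) hI.1.1 hs
    induction hA generalizing B with
    | intro A _ ihA =>
      induction hB with
      | intro B hB' ihB =>
        refine Acc.intro _ fun X hX => ?_
        cases hX with
        | beta => exact hs
        | appL _ h =>
          cases h with
          | @lamB _ A' hA' =>
            have hI' : RelI (UTm.app (UTm.lam A') B) := (relI_step (.appL B (.lamB hA')) hI).1
            exact ihA A' hA' B hI' (hs.inv (hA'.sub _)) (Acc.intro B hB')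
        | @appR _ _ B' hB'' =>
          have hI' : RelI (UTm.app (UTm.lam A) B') := (relI_step (.appR _ hB'') hI).1
          refine ihB B' hB'' hI' (hs.steps (Steps.sub_arg A _ _ ?_))
          rintro (_ | n)
          · exact .single hB''
          · exact .refl
  | @appL P P' Q hP ih =>
    intro hI hs
    have hP1 : SN P := ih hI.1 hs.appL
    have hQ : SN Q := hs.appR
    clear ih
    induction hP1 generalizing P' Q with
    | intro P _ ihP =>
      induction hQ with
      | intro Q hQ' ihQ =>
        refine Acc.intro _ fun X hX => ?_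
        cases hX with
        | beta B _ => cases hP
        | @appL _ P₁ _ h =>
          rcases hP.commute h with rfl | ⟨X, hX', hXs⟩
          · exact hs
          · have hI' := (relI_step (.appL Q h) hI).1
            exact ihP P₁ h Q hX' hI' (hs.steps (Steps.app hXs .refl)) (Acc.intro Q hQ')
        | @appR _ _ Q₁ h =>
          exact ihQ Q₁ h (relI_step (.appR P h) hI).1 (hs.inv (.appR _ h))

theorem SN.hexpands {M M' : UTm} (h : HSteps M M') (hI : RelI M) (hs : SN M') : SN M := by
  induction h using Relation.ReflTransGen.head_induction_on with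
  | refl => exact hs
  | head h _ ih => exact SN.hexpand h hI (ih (relI_step h.step hI).1)

theorem relI_hsteps {M M' : UTm} (h : HSteps M M') (hI : RelI M) : RelI M' := by
  induction h with
  | refl => exact hI
  | tail _ h ih => exact (relI_step h.step ih).1

/-- Neutral terms with strongly normalizing arguments. -/
inductive Neu : UTm → Prop where
  | var (i : ℕ) : Neu (.var i)
  | cst (c : ℕ) : Neu (.cst c)
  | app {P Q : UTm} : Neu P → SN Q → Neu (.app P Q)

theorem Neu.step {P P' : UTm} (h : Neu P) : Step P P' → Neu P' := by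
  induction h generalizing P' with
  | var i => intro h; cases h
  | cst c => intro h; cases h
  | app hP hQ ih =>
    intro h
    cases h with
    | beta => cases hP
    | appL _ h => exact .app (ih h) hQ
    | appR _ h => exact .app hP (hQ.inv h)

theorem Neu.sn {P : UTm} (h : Neu P) : SN P := by
  induction h with
  | var i => exact Acc.intro _ fun X hX => by cases hX
  | cst c => exact Acc.intro _ fun X hX => by cases hX
  | @app P Q hP hQ ih =>
    induction ih generalizing Q with
    | intro P _ ihP =>
      induction hQ with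
      | intro Q hQ' ihQ =>
        refine Acc.intro _ fun X hX => ?_
        cases hX with
        | beta => cases hP
        | appL _ h => exact ihP _ h (hP.step h) (Acc.intro Q hQ')
        | appR _ h => exact ihQ _ h

def Normal (N : UTm) : Prop := ∀ N', ¬ Step N N'

/-- In lambda-I, a term with a normal form is strongly normalizing. -/
theorem sn_of_wn {M N : UTm} (hI : RelI M) (h : Steps M N) (hN : Normal N) : SN M := by
  have hS := Std.of_steps h
  suffices key : ∀ M N, Std M N → RelI M → Normal N →
      SN M ∧ ((∀ B, N ≠ .lam B) → ∃ P, HSteps M P ∧ Neu P) from (key M N hS hI hN).1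
  intro M N hS
  induction hS with
  | var i hh => intro hI _; exact ⟨SN.hexpands hh hI (Neu.var i).sn, fun _ => ⟨_, hh, .var i⟩⟩
  | cst c hh => intro hI _; exact ⟨SN.hexpands hh hI (Neu.cst c).sn, fun _ => ⟨_, hh, .cst c⟩⟩
  | lam hh _ ih =>
    intro hI hN
    refine ⟨SN.hexpands hh hI (SN.lam (ih (relI_hsteps hh hI).2 ?_).1),
      fun h => absurd rfl (h _)⟩
    exact fun N' h => hN _ (.lamB h)
  | @app M P P' Q Q' hh _ _ ihP ihQ =>
    intro hI hN
    have hI' := relI_hsteps hh hI
    have hQ := (ihQ hI'.2 fun N' h => hN _ (.appR _ h)).1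
    obtain ⟨R, hR, hRn⟩ := (ihP hI'.1 fun N' h => hN _ (.appL _ h)).2
      (fun B e => hN _ (e ▸ Step.beta B Q'))
    have hh' : HSteps M (.app R Q) :=
      hh.trans (hR.lift (fun x => UTm.app x Q) fun _ _ h => HStep.appL Q h)
    exact ⟨SN.hexpands hh' hI (Neu.app hRn hQ).sn, fun _ => ⟨_, hh', .app hRn hQ⟩⟩

end UTm

end Vale.Agent.P340.St
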