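import Vale.Agent.P340.OcNu
import Vale.Agent.P340.StPure

/-!
# Erasure of memory translations

A memory translation erases to an untyped term: type annotations and the first variable of each
doubled binder disappear. Steps of the typed term become steps of the erasure and normal terms
have normal erasures, so the erasure of a typed translation has a normal form.
-/

namespace Vale.Agent.P340.Oc

open Relation

universe u
variable {S : Type u}

/-- Kinds of variables: type level, computation, junk. -/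
inductive VK : Type
  | nu
  | comp
  | junk

/-- Kinds of translated terms. -/
inductive TK : Type
  | comp
  | val
  | junk
  | data

/-- Kind and erased index of each variable. -/
abbrev KEnv : Type := ℕ → VK × ℕ

/-- Pass under a kept binder. -/
def KEnv.keep (g : KEnv) (k : VK) : KEnv
  | 0 => (k, 0)
  | n + 1 => ((g n).1, (g n).2 + 1)

/-- Pass under an erased binder. -/
def KEnv.drop (g : KEnv) : KEnv
  | 0 => (.nu, 0)
  | n + 1 => g n

/-- The erasure relation. -/
inductive Er : KEnv → TK → St.Tm S → St.UTm → Prop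
  | cVar {g : KEnv} {i : ℕ} : (g i).1 = .comp → Er g .comp (.var i) (.var (g i).2)
  | cCst {g : KEnv} {n : ℕ} {A : St.Tm S} : Er g .comp (.cst n A) (.cst n)
  | cLam {g : KEnv} {A b : St.Tm S} {u : St.UTm} :
      Er (g.keep .junk) .val b u → Er g .comp (.lam A b) (.lam u)
  | eVar {g : KEnv} {i : ℕ} : (g i).1 = .junk → Er g .junk (.var i) (.var (g i).2)
  | eCst {g : KEnv} {n : ℕ} {A : St.Tm S} : Er g .junk (.cst n A) (.cst n)
  | eApp {g : KEnv} {k : TK} {f a : St.Tm S} {uf ua : St.UTm} :
      Er g .junk f uf → Er g k a ua → Er g .junk (.app f a) (.app uf ua)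
  | eDrop {g : KEnv} {f t : St.Tm S} {uf : St.UTm} :
      Er g .junk f uf → Er g .junk (.app f t) uf
  | vE {g : KEnv} {T : St.Tm S} {u : St.UTm} : Er g .junk T u → Er g .val T u
  | vC {g : KEnv} {f a : St.Tm S} {uf ua : St.UTm} :
      Er g .comp f uf → Er g .junk a ua → Er g .val (.app f a) (.app uf ua)
  | vApp {g : KEnv} {f t a : St.Tm S} {uf ua : St.UTm} :
      Er g .val f uf → Er g .comp a ua → Er g .val (.app (.app f t) a) (.app uf ua)
  | vLam {g : KEnv} {A B b : St.Tm S} {u : St.UTm} :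
      Er (g.drop.keep .comp) .val b u → Er g .val (.lam A (.lam B b)) (.lam u)
  | vHalf {g : KEnv} {B b a : St.Tm S} {u ua : St.UTm} :
      Er (g.keep .comp) .val b u → Er g .comp a ua →
        Er g .val (.app (.lam B b) a) (.app (.lam u) ua)
  | dLam {g : KEnv} {A b : St.Tm S} {u : St.UTm} :
      Er (g.keep .junk) .junk b u → Er g .data (.lam A b) (.lam u)

/-- The term kind of a kept variable kind. -/
def VK.tk : VK → Option TK
  | .nu => none
  | .comp => some .comp
  | .junk => some .junk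

/-- Renamings respecting kinds. -/
def KRen (g g' : KEnv) (φ ψ : ℕ → ℕ) : Prop :=
  ∀ i, (g' (φ i)).1 = (g i).1 ∧ ((g i).1 ≠ .nu → (g' (φ i)).2 = ψ (g i).2)

theorem KRen.keep {g g' : KEnv} {φ ψ : ℕ → ℕ} (h : KRen g g' φ ψ) (k : VK) :
    KRen (g.keep k) (g'.keep k) (St.upR φ) (St.UTm.liftF ψ) := by
  intro i
  cases i with
  | zero => exact ⟨rfl, fun _ => rfl⟩
  | succ n => exact ⟨(h n).1, fun hn => congrArg (· + 1) ((h n).2 hn)⟩

theorem KRen.drop {g g' : KEnv} {φ ψ : ℕ → ℕ} (h : KRen g g' φ ψ) :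
    KRen g.drop g'.drop (St.upR φ) ψ := by
  intro i
  cases i with
  | zero => exact ⟨rfl, fun hn => absurd rfl hn⟩
  | succ n => exact h n

theorem Er.ren {g : KEnv} {k : TK} {T : St.Tm S} {u : St.UTm} (h : Er g k T u) :
    ∀ {g' : KEnv} {φ ψ : ℕ → ℕ}, KRen g g' φ ψ →
      Er g' k (St.Tm.ren φ T) (St.UTm.ren ψ u) := by
  induction h with
  | @cVar g i hi =>
    intro g' φ ψ h
    have := h i
    show Er g' .comp (.var (φ i)) (.var (ψ (g i).2))
    rw [← this.2 (by rw [hi]; exact fun e => by cases e)]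
    exact .cVar (this.1.trans hi)
  | cCst => intro g' φ ψ h; exact .cCst
  | cLam _ ih => intro g' φ ψ h; exact .cLam (ih (h.keep _))
  | @eVar g i hi =>
    intro g' φ ψ h
    have := h i
    show Er g' .junk (.var (φ i)) (.var (ψ (g i).2))
    rw [← this.2 (by rw [hi]; exact fun e => by cases e)]
    exact .eVar (this.1.trans hi)
  | eCst => intro g' φ ψ h; exact .eCst
  | eApp _ _ ih₁ ih₂ => intro g' φ ψ h; exact .eApp (ih₁ h) (ih₂ h)
  | eDrop _ ih => intro g' φ ψ h; exact .eDrop (ih h)
  | vE _ ih => intro g' φ ψ h; exact .vE (ih h)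
  | vC _ _ ih₁ ih₂ => intro g' φ ψ h; exact .vC (ih₁ h) (ih₂ h)
  | vApp _ _ ih₁ ih₂ => intro g' φ ψ h; exact .vApp (ih₁ h) (ih₂ h)
  | vLam _ ih => intro g' φ ψ h; exact .vLam (ih (h.drop.keep _))
  | vHalf _ _ ih₁ ih₂ => intro g' φ ψ h; exact .vHalf (ih₁ (h.keep _)) (ih₂ h)
  | dLam _ ih => intro g' φ ψ h; exact .dLam (ih (h.keep _))

/-- Substitutions respecting kinds. -/
def KSub (g g' : KEnv) (τ : ℕ → St.Tm S) (f : ℕ → St.UTm) : Prop :=
  ∀ i k, VK.tk (g i).1 = some k → Er g' k (τ i) (f (g i).2)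

theorem KSub.keep {g g' : KEnv} {τ : ℕ → St.Tm S} {f : ℕ → St.UTm} (h : KSub g g' τ f)
    (k : VK) : KSub (g.keep k) (g'.keep k) (St.Tm.up τ) (St.UTm.up f) := by
  intro i t hi
  cases i with
  | zero =>
    cases k with
    | nu => simp [KEnv.keep, VK.tk] at hi
    | comp => cases hi; exact .cVar (g := g'.keep .comp) (i := 0) rfl
    | junk => cases hi; exact .eVar (g := g'.keep .junk) (i := 0) rfl
  | succ n => exact (h n t hi).ren fun j => ⟨rfl, fun _ => rfl⟩

theorem KSub.drop {g g' : KEnv} {τ : ℕ → St.Tm S} {f : ℕ → St.UTm} (h : KSub g g' τ f) :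
    KSub g.drop g'.drop (St.Tm.up τ) f := by
  intro i t hi
  cases i with
  | zero => simp [KEnv.drop, VK.tk] at hi
  | succ n =>
    have := (h n t hi).ren (g' := g'.drop) (φ := Nat.succ) (ψ := id) fun j => ⟨rfl, fun _ => rfl⟩
    rwa [St.UTm.ren_id] at this

theorem Er.sub {g : KEnv} {k : TK} {T : St.Tm S} {u : St.UTm} (h : Er g k T u) :
    ∀ {g' : KEnv} {τ : ℕ → St.Tm S} {f : ℕ → St.UTm}, KSub g g' τ f →
      Er g' k (St.Tm.sub τ T) (St.UTm.sub f u) := by
  induction h with
  | @cVar g i hi => intro g' τ f h; exact h i _ (by rw [hi]; rfl)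
  | cCst => intro g' τ f h; exact .cCst
  | cLam _ ih => intro g' τ f h; exact .cLam (ih (h.keep _))
  | @eVar g i hi => intro g' τ f h; exact h i _ (by rw [hi]; rfl)
  | eCst => intro g' τ f h; exact .eCst
  | eApp _ _ ih₁ ih₂ => intro g' τ f h; exact .eApp (ih₁ h) (ih₂ h)
  | eDrop _ ih => intro g' τ f h; exact .eDrop (ih h)
  | vE _ ih => intro g' τ f h; exact .vE (ih h)
  | vC _ _ ih₁ ih₂ => intro g' τ f h; exact .vC (ih₁ h) (ih₂ h)
  | vApp _ _ ih₁ ih₂ => intro g' τ f h; exact .vApp (ih₁ h) (ih₂ h)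
  | vLam _ ih => intro g' τ f h; exact .vLam (ih (h.drop.keep _))
  | vHalf _ _ ih₁ ih₂ => intro g' τ f h; exact .vHalf (ih₁ (h.keep _)) (ih₂ h)
  | dLam _ ih => intro g' τ f h; exact .dLam (ih (h.keep _))

/-- Substitution for a kept variable. -/
theorem Er.inst {g : KEnv} {k : TK} {v : VK} {kv : TK} (hv : v.tk = some kv) {T a : St.Tm S}
    {u ua : St.UTm} (h : Er (g.keep v) k T u) (ha : Er g kv a ua) :
    Er g k (St.Tm.inst T a) (St.UTm.inst u ua) := by
  refine h.sub fun i t hi => ?_
  cases i with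
  | zero => obtain rfl : kv = t := Option.some.inj (hv.symm.trans hi); exact ha
  | succ n =>
    show Er g t (.var n) (.var (g n).2)
    have hi' : VK.tk (g n).1 = some t := hi
    cases hk : (g n).1 with
    | nu => rw [hk] at hi'; cases hi'
    | comp => rw [hk] at hi'; cases hi'; exact .cVar hk
    | junk => rw [hk] at hi'; cases hi'; exact .eVar hk

theorem Er.junk_notLam {g : KEnv} {T : St.Tm S} {u : St.UTm} {k : TK} (h : Er g k T u) :
    k = .junk → (∀ A b, T ≠ .lam A b) ∧ ∀ b, u ≠ .lam b := by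
  induction h with
  | eVar => exact fun _ => ⟨fun _ _ e => (by cases e), fun _ e => (by cases e)⟩
  | eCst => exact fun _ => ⟨fun _ _ e => (by cases e), fun _ e => (by cases e)⟩
  | eApp => exact fun _ => ⟨fun _ _ e => (by cases e), fun _ e => (by cases e)⟩
  | eDrop _ ih => exact fun _ => ⟨fun _ _ e => (by cases e), (ih rfl).2⟩
  | _ => intro e; cases e

theorem Er.comp_lam {g : KEnv} {T : St.Tm S} {b : St.UTm} (h : Er g .comp T (.lam b)) :
    ∃ A B, T = .lam A B := by
  cases h with
  | cLam _ => exact ⟨_, _, rfl⟩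

theorem Er.val_lam {g : KEnv} {T : St.Tm S} {b : St.UTm} (h : Er g .val T (.lam b)) :
    ∃ A B, T = .lam A B := by
  cases h with
  | vE h => exact absurd rfl ((h.junk_notLam rfl).2 b)
  | vLam _ => exact ⟨_, _, rfl⟩

/-- Steps are simulated. -/
theorem Er.step {g : KEnv} {k : TK} {T : St.Tm S} {u : St.UTm} (h : Er g k T u) :
    ∀ {T' : St.Tm S}, St.Step T T' → ∃ u', St.UTm.Steps u u' ∧ Er g k T' u' := by
  induction h with
  | cVar => intro T' h; cases h
  | cCst => intro T' h; cases h
  | @cLam g A b u hb ih =>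
    intro T' h
    cases h with
    | lamL _ h => exact ⟨_, .refl, .cLam hb⟩
    | lamR _ h =>
      obtain ⟨u', hu, he⟩ := ih h
      exact ⟨_, St.UTm.Steps.lam hu, .cLam he⟩
  | eVar => intro T' h; cases h
  | eCst => intro T' h; cases h
  | @eApp g k f a uf ua hf ha ihf iha =>
    intro T' h
    cases h with
    | beta A M _ => exact absurd rfl ((hf.junk_notLam rfl).1 A M)
    | appL _ h =>
      obtain ⟨u', hu, he⟩ := ihf h
      exact ⟨_, St.UTm.Steps.app hu .refl, .eApp he ha⟩
    | appR _ h =>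
      obtain ⟨u', hu, he⟩ := iha h
      exact ⟨_, St.UTm.Steps.app .refl hu, .eApp hf he⟩
  | @eDrop g f t uf hf ihf =>
    intro T' h
    cases h with
    | beta A M _ => exact absurd rfl ((hf.junk_notLam rfl).1 A M)
    | appL _ h =>
      obtain ⟨u', hu, he⟩ := ihf h
      exact ⟨_, hu, .eDrop he⟩
    | appR _ h => exact ⟨_, .refl, .eDrop hf⟩
  | vE _ ih =>
    intro T' h
    obtain ⟨u', hu, he⟩ := ih h
    exact ⟨_, hu, .vE he⟩
  | @vC g f a uf ua hf ha ihf iha =>
    intro T' h
    cases h with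
    | beta A M _ =>
      cases hf with
      | cLam hb => exact ⟨_, .single (.beta _ _), hb.inst rfl ha⟩
    | appL _ h =>
      obtain ⟨u', hu, he⟩ := ihf h
      exact ⟨_, St.UTm.Steps.app hu .refl, .vC he ha⟩
    | appR _ h =>
      obtain ⟨u', hu, he⟩ := iha h
      exact ⟨_, St.UTm.Steps.app .refl hu, .vC hf he⟩
  | @vApp g f t a uf ua hf ha ihf iha =>
    intro T' h
    cases h with
    | appL _ h =>
      cases h with
      | beta A M _ =>
        cases hf with
        | vE hf => exact absurd rfl ((hf.junk_notLam rfl).1 A M)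
        | @vLam _ _ B b u hb =>
          refine ⟨_, .refl, .vHalf ?_ ha⟩
          have := hb.sub (g' := g.keep .comp) (τ := St.Tm.up (St.Tm.scons t .var))
            (f := St.UTm.var) ?_
          · rwa [St.UTm.sub_var] at this
          · intro i k hi
            match i with
            | 0 => cases hi; exact .cVar (g := g.keep .comp) (i := 0) rfl
            | 1 => cases hi
            | n + 2 =>
              show Er (g.keep .comp) k (.var (n + 1)) (.var ((g n).2 + 1))
              have hi' : VK.tk (g n).1 = some k := hi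
              cases hk : (g n).1 with
              | nu => rw [hk] at hi'; cases hi'
              | comp => rw [hk] at hi'; cases hi'; exact .cVar (g := g.keep .comp) (i := n + 1) hk
              | junk => rw [hk] at hi'; cases hi'; exact .eVar (g := g.keep .comp) (i := n + 1) hk
      | appL _ h =>
        obtain ⟨u', hu, he⟩ := ihf h
        exact ⟨_, St.UTm.Steps.app hu .refl, .vApp he ha⟩
      | appR _ h => exact ⟨_, .refl, .vApp hf ha⟩
    | appR _ h =>
      obtain ⟨u', hu, he⟩ := iha h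
      exact ⟨_, St.UTm.Steps.app .refl hu, .vApp hf he⟩
  | @vLam g A B b u hb ih =>
    intro T' h
    cases h with
    | lamL _ h => exact ⟨_, .refl, .vLam hb⟩
    | lamR _ h =>
      cases h with
      | lamL _ h => exact ⟨_, .refl, .vLam hb⟩
      | lamR _ h =>
        obtain ⟨u', hu, he⟩ := ih h
        exact ⟨_, St.UTm.Steps.lam hu, .vLam he⟩
  | @vHalf g B b a u ua hb ha ihb iha =>
    intro T' h
    cases h with
    | beta A M _ => exact ⟨_, .single (.beta _ _), hb.inst rfl ha⟩
    | appL _ h =>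
      cases h with
      | lamL _ h => exact ⟨_, .refl, .vHalf hb ha⟩
      | lamR _ h =>
        obtain ⟨u', hu, he⟩ := ihb h
        exact ⟨_, St.UTm.Steps.app (St.UTm.Steps.lam hu) .refl, .vHalf he ha⟩
    | appR _ h =>
      obtain ⟨u', hu, he⟩ := iha h
      exact ⟨_, St.UTm.Steps.app .refl hu, .vHalf hb he⟩
  | @dLam g A b u hb ih =>
    intro T' h
    cases h with
    | lamL _ h => exact ⟨_, .refl, .dLam hb⟩
    | lamR _ h =>
      obtain ⟨u', hu, he⟩ := ih h
      exact ⟨_, St.UTm.Steps.lam hu, .dLam he⟩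

theorem normal_app {a b : St.UTm} (ha : St.UTm.Normal a) (hb : St.UTm.Normal b)
    (hn : ∀ c, a ≠ .lam c) : St.UTm.Normal (.app a b) := by
  intro X h
  cases h with
  | beta M _ => exact hn M rfl
  | appL _ h => exact ha _ h
  | appR _ h => exact hb _ h

theorem normal_lam {a : St.UTm} (ha : St.UTm.Normal a) : St.UTm.Normal (.lam a) := by
  intro X h
  cases h with
  | lamB h => exact ha _ h

/-- Normal terms have normal erasures. -/
theorem Er.normal {g : KEnv} {k : TK} {T : St.Tm S} {u : St.UTm} (h : Er g k T u) :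
    (∀ T', ¬ St.Step T T') → St.UTm.Normal u := by
  induction h with
  | cVar => intro _ X hX; cases hX
  | cCst => intro _ X hX; cases hX
  | cLam _ ih => intro hn; exact normal_lam (ih fun _ h => hn _ (.lamR _ h))
  | eVar => intro _ X hX; cases hX
  | eCst => intro _ X hX; cases hX
  | eApp hf _ ih₁ ih₂ =>
    intro hn
    exact normal_app (ih₁ fun _ h => hn _ (.appL _ h)) (ih₂ fun _ h => hn _ (.appR _ h))
      (hf.junk_notLam rfl).2
  | eDrop _ ih => intro hn; exact ih fun _ h => hn _ (.appL _ h)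
  | vE _ ih => intro hn; exact ih hn
  | vC hf _ ih₁ ih₂ =>
    intro hn
    refine normal_app (ih₁ fun _ h => hn _ (.appL _ h)) (ih₂ fun _ h => hn _ (.appR _ h)) ?_
    intro c e
    subst e
    obtain ⟨A, B, rfl⟩ := hf.comp_lam
    exact hn _ (.beta _ _ _)
  | vApp hf _ ih₁ ih₂ =>
    intro hn
    refine normal_app (ih₁ fun _ h => hn _ (.appL _ (.appL _ h)))
      (ih₂ fun _ h => hn _ (.appR _ h)) ?_
    intro c e
    subst e
    obtain ⟨A, B, rfl⟩ := hf.val_lam
    exact hn _ (.appL _ (.beta _ _ _))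
  | vLam _ ih => intro hn; exact normal_lam (ih fun _ h => hn _ (.lamR _ (.lamR _ h)))
  | vHalf _ _ _ _ => intro hn; exact absurd (St.Step.beta _ _ _) (hn _)
  | dLam _ ih => intro hn; exact normal_lam (ih fun _ h => hn _ (.lamR _ h))

/-- The erasure of a typed term is strongly normalizing, if it is a lambda-I term. -/
theorem Er.sn [Inhabited S] {P : Spec S} (hwn : WeaklyNormalizing P) {g : KEnv} {k : TK}
    {Δ : List (St.Tm S)} {T A : St.Tm S} {u : St.UTm} (h : Er g k T u)
    (hT : St.Has (QS P) Δ T A) (hI : St.UTm.RelI u) : St.UTm.SN u := by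
  obtain ⟨N, hs, hn⟩ := wn_QS hwn hT
  clear hT
  suffices ∃ u', St.UTm.Steps u u' ∧ Er g k N u' by
    obtain ⟨u', hu, he⟩ := this
    exact St.UTm.sn_of_wn hI hu (he.normal hn)
  clear hn
  induction hs with
  | refl => exact ⟨u, .refl, h⟩
  | tail _ hb ih =>
    obtain ⟨u', hu, he⟩ := ih
    obtain ⟨u'', hu', he'⟩ := he.step hb
    exact ⟨u'', hu.trans hu', he'⟩

end Vale.Agent.P340.Oc
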