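import Vale.Agent.P340.OcReal
import Vale.Agent.P340.Classify

/-!
# Weak normalization implies strong normalization for oddly connected targets
-/

namespace Vale.Agent.P340.Oc

open Relation
open St (UTm)

universe u
variable {S : Type u} {P : Spec S}

/-- Without products every typed expression is normal. -/
theorem sn_no_tgt (hP : Basic P) (hT : ∀ b, ¬ Tgt P b) {Γ : List (Expr S)} (hw : WF P Γ)
    {M T : Expr S} (h : D P Γ M T) : Vale.Agent.P340.SN M := by
  cases M with
  | var i => exact Vale.Agent.P340.SN.var i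
  | sort s => exact Vale.Agent.P340.SN.sort s
  | app M N =>
    obtain ⟨A, B, a, b, -, -, hA, hB, hr, -⟩ := app_col hP hw h
    exact absurd (edge_of_prod hP hw hA hB hr).tgt (hT b)
  | lam A M =>
    obtain ⟨a, b, B, hA, -, hB, hr, -⟩ := body_col hP h
    exact absurd (edge_of_prod hP hw hA hB hr).tgt (hT b)
  | pi A B =>
    obtain ⟨a, b, c, hA, hB, hr, -⟩ := gen_pi h
    have := hP.generalized _ _ _ hr
    subst this
    exact absurd (edge_of_prod hP hw hA hB hr).tgt (hT _)

theorem sn_typed [Inhabited S] (hC : OddlyConnected P) (hwn : WeaklyNormalizing P)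
    {Γ : List (Expr S)} (hw : WF P Γ) {M T : Expr S} (h : D P Γ M T) :
    Vale.Agent.P340.SN M := by
  have hP := hC.toBasic
  by_cases hT : ∃ y, Tgt P y
  swap
  · exact sn_no_tgt hP (fun b hb => hT ⟨b, hb⟩) hw h
  obtain ⟨τ, κ, he⟩ := root_env hC hT hw
  obtain ⟨y, hy⟩ := hT
  have key : ∀ U, Tr P Γ [] (fun _ => (VK.nu, 0)) (fun _ => .cst 0) M U →
      Vale.Agent.P340.SN M := by
    rintro U ⟨C, u₀, hC₀, hR, hE⟩
    exact hR.sn hP hw h
      (hE.sn hwn hC₀ (UTm.relI_sub hR.relI _ fun _ => trivial)).of_sub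
  by_cases hat : Atom P Γ M
  · exact key _ ((realAll hC M Γ [] _ τ κ _ T hw he h).2 hat y hy)
  · simp only [Atom, not_forall, not_not] at hat
    obtain ⟨c, ⟨T', hM', hT'⟩, hc⟩ := hat
    exact key _ ((realAll hC M Γ [] _ τ κ _ T' hw he hM').1 c hT' hc)

theorem strongly_of_weakly (hC : OddlyConnected P) (hwn : WeaklyNormalizing P) :
    StronglyNormalizing P := by
  intro M hM
  obtain ⟨Γ, T, h | h⟩ := hM
  all_goals
    obtain ⟨hw, hD⟩ := h.toD
    have hex : Nonempty S := by
      clear hw hD hwn hC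
      induction h with
      | @axm s t _ => exact ⟨s⟩
      | _ => assumption
    have : Inhabited S := Classical.inhabited_of_nonempty hex
  · exact (sn_typed hC hwn hw hD).not_seq
  · rcases hD.correctness hw with ⟨t, rfl⟩ | ⟨s, hs⟩
    · exact (Vale.Agent.P340.SN.sort t).not_seq
    · exact (sn_typed hC hwn hw hs).not_seq

/-- The Barendregt-Geuvers-Klop statement for oddly connected specifications. -/
theorem weakly_iff_strongly (hC : OddlyConnected P) :
    WeaklyNormalizing P ↔ StronglyNormalizing P :=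
  ⟨strongly_of_weakly hC, wn_of_sn⟩

end Vale.Agent.P340.Oc
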