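import Vale.Agent.P340.OcBase

/-!
# The type-level translation

`nu` doubles every binder: `x : A` becomes `x : νA` and `x° : tp νA`. The second variable never
occurs in a translation, so `nu` commutes with substitution and preserves β-equality; the types
of the memory translation are computed with it.
-/

namespace Vale.Agent.P340.Oc

open Relation

universe u
variable {S : Type u}

/-- The nondependent product. -/
def arr (A B : St.Tm S) : St.Tm S := St.Tm.pi A (St.Tm.sh B)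

theorem arr_sub (A B : St.Tm S) (f : ℕ → St.Tm S) :
    St.Tm.sub f (arr A B) = arr (St.Tm.sub f A) (St.Tm.sub f B) := by
  simp only [arr, St.Tm.sub, St.Tm.sub_up_sh]

theorem arr_ren (A B : St.Tm S) (f : ℕ → ℕ) :
    St.Tm.ren f (arr A B) = arr (St.Tm.ren f A) (St.Tm.ren f B) := by
  simp only [arr, St.Tm.ren, St.Tm.ren_sh]

/-- A closed element of the junk type. -/
noncomputable def jk (P : Spec S) (d : S) : St.Tm S := .cst 0 (W P d)

open Classical in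
/-- The type of the second variable of a binder with domain sort `a` and body sort `b`. -/
noncomputable def tp (P : Spec S) (a b : S) (A : St.Tm S) : St.Tm S :=
  if Tgt P a then arr (W P (jd P a)) A else arr (W P (jd P (jd P b))) (W P (jd P b))

open Classical in
/-- The second argument built from the first. -/
noncomputable def lift (P : Spec S) (a b : S) (t : St.Tm S) : St.Tm S :=
  if Tgt P a then .lam (W P (jd P a)) (St.Tm.sh t)
  else .lam (W P (jd P (jd P b))) (jk P (jd P b))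

theorem tp_sub (P : Spec S) (a b : S) (A : St.Tm S) (f : ℕ → St.Tm S) :
    St.Tm.sub f (tp P a b A) = tp P a b (St.Tm.sub f A) := by
  unfold tp; split <;> simp [arr_sub]

theorem lift_sub (P : Spec S) (a b : S) (t : St.Tm S) (f : ℕ → St.Tm S) :
    St.Tm.sub f (lift P a b t) = lift P a b (St.Tm.sub f t) := by
  unfold lift; split
  · simp [St.Tm.sub, St.Tm.sub_up_sh]
  · simp [St.Tm.sub, jk]

variable [Inhabited S]

/-- The sort of a type, with a default. -/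
noncomputable def srtD (P : Spec S) (Γ : List (Expr S)) (A : Expr S) : S :=
  (srt P Γ A).getD default

/-- The colour of an expression, with a default. -/
noncomputable def colD (P : Spec S) (Γ : List (Expr S)) (M : Expr S) : S :=
  (col P Γ M).getD default

theorem srtD_eq {P : Spec S} (hP : Basic P) {Γ : List (Expr S)} {A : Expr S} {s : S}
    (h : D P Γ A (.sort s)) : srtD P Γ A = s := by
  rw [srtD, srt_eq hP h]; rfl

theorem colD_eq {P : Spec S} (hP : Basic P) {Γ : List (Expr S)} (hw : WF P Γ) {M : Expr S}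
    {c : S} (h : HasCol P Γ M c) : colD P Γ M = c := by
  rw [colD, col_eq hP hw h]; rfl

/-- Pass under a doubled binder. -/
def nup (τ : ℕ → St.Tm S) : ℕ → St.Tm S
  | 0 => .var 1
  | n + 1 => St.Tm.ren (fun i => i + 2) (τ n)

omit [Inhabited S] in
theorem sub_nup (f τ : ℕ → St.Tm S) :
    St.Tm.sub (St.Tm.up (St.Tm.up f)) ∘ nup τ = nup (St.Tm.sub f ∘ τ) := by
  funext n
  cases n with
  | zero => rfl
  | succ n =>
    simp only [Function.comp, nup, St.Tm.sub_ren, St.Tm.ren_sub]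
    congr 1
    funext i
    simp [St.Tm.up, St.Tm.ren_ren]
    rfl

/-- The translation. -/
noncomputable def nu (P : Spec S) : List (Expr S) → (ℕ → St.Tm S) → Expr S → St.Tm S
  | _, τ, .var i => τ i
  | _, _, .sort s => .srt s
  | Γ, τ, .app M N =>
    .app (.app (nu P Γ τ M) (nu P Γ τ N))
      (lift P (colD P Γ N) (colD P Γ (.app M N)) (nu P Γ τ N))
  | Γ, τ, .lam A M =>
    .lam (nu P Γ τ A) (.lam (St.Tm.sh (tp P (srtD P Γ A) (colD P (A :: Γ) M) (nu P Γ τ A)))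
      (nu P (A :: Γ) (nup τ) M))
  | Γ, τ, .pi A B =>
    .pi (nu P Γ τ A) (.pi (St.Tm.sh (tp P (srtD P Γ A) (srtD P (A :: Γ) B) (nu P Γ τ A)))
      (nu P (A :: Γ) (nup τ) B))

theorem nu_tm_sub (P : Spec S) (M : Expr S) : ∀ (Γ : List (Expr S)) (τ f : ℕ → St.Tm S),
    St.Tm.sub f (nu P Γ τ M) = nu P Γ (St.Tm.sub f ∘ τ) M := by
  induction M with
  | var i => intros; rfl
  | sort s => intros; rfl
  | app M N hM hN => intro Γ τ f; simp only [nu, St.Tm.sub, lift_sub, hM, hN]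
  | lam A M hA hM =>
    intro Γ τ f
    simp only [nu, St.Tm.sub, St.Tm.sub_up_sh, tp_sub, hA, hM, sub_nup]
  | pi A B hA hB =>
    intro Γ τ f
    simp only [nu, St.Tm.sub, St.Tm.sub_up_sh, tp_sub, hA, hB, sub_nup]

theorem nu_tm_ren (P : Spec S) (M : Expr S) (Γ : List (Expr S)) (τ : ℕ → St.Tm S) (f : ℕ → ℕ) :
    St.Tm.ren f (nu P Γ τ M) = nu P Γ (St.Tm.ren f ∘ τ) M := by
  rw [St.Tm.ren_eq_sub, nu_tm_sub]
  congr 1
  funext i
  exact (St.Tm.ren_eq_sub _ f).symm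

variable {P : Spec S}

omit [Inhabited S] in
/-- The colour of a body. -/
theorem body_col {Γ : List (Expr S)} {A M T : Expr S} (hP : Basic P) (h : D P Γ (.lam A M) T) :
    ∃ a b B, D P Γ A (.sort a) ∧ D P (A :: Γ) M B ∧ D P (A :: Γ) B (.sort b) ∧
      P.rule a b b ∧ D P Γ (.pi A B) (.sort b) ∧ HasCol P (A :: Γ) M b ∧
        Vale.Agent.P340.Conv (.pi A B) T := by
  obtain ⟨B, s, hM, hPi, hc⟩ := gen_lam h
  obtain ⟨a, b, c, hA, hB, hr, hc'⟩ := gen_pi hPi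
  obtain rfl := hP.generalized _ _ _ hr
  exact ⟨a, c, B, hA, hM, hB, hr, D.prod hA hB hr, ⟨B, hM, hB⟩, hc⟩

omit [Inhabited S] in
/-- The colours of an application and of its argument. -/
theorem app_col {Γ : List (Expr S)} {M N T : Expr S} (hP : Basic P) (hw : WF P Γ)
    (h : D P Γ (.app M N) T) :
    ∃ A B a b, D P Γ M (.pi A B) ∧ D P Γ N A ∧ D P Γ A (.sort a) ∧
      D P (A :: Γ) B (.sort b) ∧ P.rule a b b ∧ D P Γ (.pi A B) (.sort b) ∧
      HasCol P Γ N a ∧ HasCol P Γ (.app M N) b ∧ Vale.Agent.P340.Conv (B.inst N) T := by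
  obtain ⟨A, B, hM, hN, hc⟩ := gen_app h
  obtain ⟨a, b, c, hA, hB, hr, hPi⟩ := hM.pi_type hw
  obtain rfl := hP.generalized _ _ _ hr
  exact ⟨A, B, a, c, hM, hN, hA, hB, hr, hPi, ⟨A, hN, hA⟩,
    ⟨B.inst N, D.app hM hN, hB.inst hN⟩, hc⟩

theorem nu_ren (hP : Basic P) (M : Expr S) : ∀ {Γ Δ : List (Expr S)} {ρ : ℕ → ℕ} {T : Expr S}
    (τ : ℕ → St.Tm S), WF P Γ → WF P Δ → TRen ρ Γ Δ → D P Γ M T →
      nu P Δ τ (M.ren ρ) = nu P Γ (τ ∘ ρ) M := by
  induction M with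
  | var i => intros; rfl
  | sort s => intros; rfl
  | app M N ihM ihN =>
    intro Γ Δ ρ T τ hwΓ hwΔ hρ h
    obtain ⟨A, B, a, b, hM, hN, -, -, -, -, hcN, hc, -⟩ := app_col hP hwΓ h
    have hc' : HasCol P Δ (.app (M.ren ρ) (N.ren ρ)) b := hc.elim fun T hT =>
      ⟨T.ren ρ, hT.1.ren hρ, hT.2.ren hρ⟩
    have hcN' : HasCol P Δ (N.ren ρ) a := hcN.elim fun T hT =>
      ⟨T.ren ρ, hT.1.ren hρ, hT.2.ren hρ⟩
    simp only [Expr.ren, nu, ihM τ hwΓ hwΔ hρ hM, ihN τ hwΓ hwΔ hρ hN, colD_eq hP hwΓ hc,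
      colD_eq hP hwΔ hc', colD_eq hP hwΓ hcN, colD_eq hP hwΔ hcN']
  | lam A M ihA ihM =>
    intro Γ Δ ρ T τ hwΓ hwΔ hρ h
    obtain ⟨a, b, B, hA, hM, hB, -, -, hcM, -⟩ := body_col hP h
    have hA' : D P Δ (A.ren ρ) (.sort a) := hA.ren hρ
    have hcM' : HasCol P (A.ren ρ :: Δ) (M.ren (upRen ρ)) b :=
      ⟨B.ren (upRen ρ), hM.ren (hρ.up A), hB.ren (hρ.up A)⟩
    have e : nup τ ∘ upRen ρ = nup (τ ∘ ρ) := by funext n; cases n <;> rfl
    simp only [Expr.ren, nu, ihA τ hwΓ hwΔ hρ hA, srtD_eq hP hA, srtD_eq hP hA',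
      ihM (nup τ) (WF.cons hwΓ hA) (WF.cons hwΔ hA') (hρ.up A) hM,
      colD_eq hP (WF.cons hwΓ hA) hcM, colD_eq hP (WF.cons hwΔ hA') hcM', e]
  | pi A B ihA ihB =>
    intro Γ Δ ρ T τ hwΓ hwΔ hρ h
    obtain ⟨a, b, c, hA, hB, -, -⟩ := gen_pi h
    have hA' : D P Δ (A.ren ρ) (.sort a) := hA.ren hρ
    have hB' : D P (A.ren ρ :: Δ) (B.ren (upRen ρ)) (.sort b) := hB.ren (hρ.up A)
    have e : nup τ ∘ upRen ρ = nup (τ ∘ ρ) := by funext n; cases n <;> rfl
    simp only [Expr.ren, nu, ihA τ hwΓ hwΔ hρ hA, srtD_eq hP hA, srtD_eq hP hA',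
      ihB (nup τ) (WF.cons hwΓ hA) (WF.cons hwΔ hA') (hρ.up A) hB,
      srtD_eq hP hB, srtD_eq hP hB', e]

theorem nu_shift (hP : Basic P) {Γ : List (Expr S)} {A M T : Expr S} {s : S} (hw : WF P Γ)
    (hA : D P Γ A (.sort s)) (hM : D P Γ M T) (τ : ℕ → St.Tm S) :
    nu P (A :: Γ) (nup τ) M.shift = St.Tm.ren (fun i => i + 2) (nu P Γ τ M) := by
  rw [Expr.shift, nu_ren hP M (nup τ) hw (WF.cons hw hA) (TRen.shift Γ A) hM, nu_tm_ren]
  rfl

theorem nu_sub (hP : Basic P) (M : Expr S) : ∀ {Γ Δ : List (Expr S)} {σ : ℕ → Expr S}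
    {T : Expr S} (τ : ℕ → St.Tm S), WF P Γ → WF P Δ → TSub P σ Γ Δ → D P Γ M T →
      ∀ τ' : ℕ → St.Tm S, (∀ i A, Lookup Γ i A → nu P Δ τ (σ i) = τ' i) →
      nu P Δ τ (M.sub σ) = nu P Γ τ' M := by
  have hup : ∀ {Γ Δ : List (Expr S)} {σ : ℕ → Expr S} {τ τ' : ℕ → St.Tm S} {A : Expr S} {a : S},
      WF P Δ → TSub P σ Γ Δ → D P Γ A (.sort a) →
      (∀ i B, Lookup Γ i B → nu P Δ τ (σ i) = τ' i) →
      ∀ i B, Lookup (A :: Γ) i B → nu P (A.sub σ :: Δ) (nup τ) (Expr.up σ i) = nup τ' i := by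
    intro Γ Δ σ τ τ' A a hwΔ hσ hA hτ i B hB
    cases hB with
    | zero => rfl
    | @succ _ _ B₀ j hB =>
      show nu P (A.sub σ :: Δ) (nup τ) (σ j).shift = _
      rw [nu_shift hP hwΔ (hA.sub hσ) (hσ j B₀ hB), hτ j B₀ hB]
      rfl
  induction M with
  | var i =>
    intro Γ Δ σ T τ _ _ _ h τ' hτ
    obtain ⟨A, hA, -⟩ := gen_var h
    exact hτ i A hA
  | sort s => intros; rfl
  | app M N ihM ihN =>
    intro Γ Δ σ T τ hwΓ hwΔ hσ h τ' hτ
    obtain ⟨A, B, a, b, hM, hN, -, -, -, -, hcN, hc, -⟩ := app_col hP hwΓ h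
    have hc' : HasCol P Δ (.app (M.sub σ) (N.sub σ)) b := hc.elim fun T hT =>
      ⟨T.sub σ, hT.1.sub hσ, hT.2.sub hσ⟩
    have hcN' : HasCol P Δ (N.sub σ) a := hcN.elim fun T hT =>
      ⟨T.sub σ, hT.1.sub hσ, hT.2.sub hσ⟩
    simp only [Expr.sub, nu, ihM τ hwΓ hwΔ hσ hM τ' hτ, ihN τ hwΓ hwΔ hσ hN τ' hτ,
      colD_eq hP hwΓ hc, colD_eq hP hwΔ hc', colD_eq hP hwΓ hcN, colD_eq hP hwΔ hcN']
  | lam A M ihA ihM =>
    intro Γ Δ σ T τ hwΓ hwΔ hσ h τ' hτ
    obtain ⟨a, b, B, hA, hM, hB, -, -, hcM, -⟩ := body_col hP h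
    have hA' : D P Δ (A.sub σ) (.sort a) := hA.sub hσ
    have hcM' : HasCol P (A.sub σ :: Δ) (M.sub (Expr.up σ)) b :=
      ⟨B.sub (Expr.up σ), hM.sub (hσ.up A), hB.sub (hσ.up A)⟩
    simp only [Expr.sub, nu, ihA τ hwΓ hwΔ hσ hA τ' hτ, srtD_eq hP hA, srtD_eq hP hA',
      ihM (nup τ) (WF.cons hwΓ hA) (WF.cons hwΔ hA') (hσ.up A) hM (nup τ') (hup hwΔ hσ hA hτ),
      colD_eq hP (WF.cons hwΓ hA) hcM, colD_eq hP (WF.cons hwΔ hA') hcM']
  | pi A B ihA ihB =>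
    intro Γ Δ σ T τ hwΓ hwΔ hσ h τ' hτ
    obtain ⟨a, b, c, hA, hB, -, -⟩ := gen_pi h
    have hA' : D P Δ (A.sub σ) (.sort a) := hA.sub hσ
    have hB' : D P (A.sub σ :: Δ) (B.sub (Expr.up σ)) (.sort b) := hB.sub (hσ.up A)
    simp only [Expr.sub, nu, ihA τ hwΓ hwΔ hσ hA τ' hτ, srtD_eq hP hA, srtD_eq hP hA',
      ihB (nup τ) (WF.cons hwΓ hA) (WF.cons hwΔ hA') (hσ.up A) hB (nup τ') (hup hwΔ hσ hA hτ),
      srtD_eq hP hB, srtD_eq hP hB']

theorem nu_changeHead (hP : Basic P) {Γ : List (Expr S)} {A A' M T : Expr S} {a : S}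
    (hw : WF P Γ) (hA : D P Γ A (.sort a)) (hA' : D P Γ A' (.sort a))
    (hc : Vale.Agent.P340.Conv A A') (hM : D P (A :: Γ) M T) (τ : ℕ → St.Tm S) :
    nu P (A' :: Γ) τ M = nu P (A :: Γ) τ M := by
  have := nu_sub hP M τ (WF.cons hw hA) (WF.cons hw hA') (σ := Expr.var)
    (TSub.changeHead hA hc) hM τ (fun i _ _ => rfl)
  rwa [Expr.sub_var] at this

/-- The substitution lemma for a single variable. -/
theorem nu_inst (hP : Basic P) {Γ : List (Expr S)} {A M N T : Expr S} {a : S} (hw : WF P Γ)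
    (hA : D P Γ A (.sort a)) (hN : D P Γ N A) (hM : D P (A :: Γ) M T) (τ : ℕ → St.Tm S)
    (L : St.Tm S) :
    St.Tm.inst (St.Tm.sub (St.Tm.up (St.Tm.scons (nu P Γ τ N) .var)) (nu P (A :: Γ) (nup τ) M))
        L = nu P Γ τ (M.inst N) := by
  rw [St.Tm.inst, St.Tm.sub_sub, nu_tm_sub]
  refine (nu_sub hP M τ (WF.cons hw hA) hw (TSub.inst hN) hM _ ?_).symm
  intro i B hB
  cases hB with
  | zero =>
    show nu P Γ τ N = _
    simp [nup, St.Tm.sub, St.Tm.sub_ren]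
    exact (St.Tm.sub_var _).symm
  | @succ _ _ B₀ j hB =>
    show τ j = _
    simp [nup, St.Tm.sub_ren]
    exact (St.Tm.sub_var _).symm

theorem nu_beta (hP : Basic P) {M M' : Expr S} (hb : Beta M M') :
    ∀ {Γ : List (Expr S)} {T : Expr S} (τ : ℕ → St.Tm S), WF P Γ → D P Γ M T →
      St.Steps (nu P Γ τ M) (nu P Γ τ M') := by
  induction hb with
  | redex A₀ M N =>
    intro Γ T τ hw h
    obtain ⟨A, B, a, b, hL, hN, hA, -, -, -, -, -, -⟩ := app_col hP hw h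
    obtain ⟨a₀, b₀, B₀, hA₀, hM₀, -, -, hPi₀, -, hc⟩ := body_col hP hL
    have hN₀ : D P Γ N A₀ := D.conv hN hA₀ hc.pi_inj.1.symm
    simp only [nu]
    rw [← nu_inst hP hw hA₀ hN₀ hM₀ τ
      (lift P (colD P Γ N) (colD P Γ (.app (.lam A₀ M) N)) (nu P Γ τ N))]
    exact (ReflTransGen.single (St.Step.appL _ (St.Step.beta _ _ _))).tail (St.Step.beta _ _ _)
  | @appL M M' N hb ih =>
    intro Γ T τ hw h
    obtain ⟨A, B, a, b, hM, hN, -, -, -, -, -, hc, -⟩ := app_col hP hw h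
    have hc' := hc.elim fun U hU => (⟨U, subject_reduction hU.1 hw (Beta.appL N hb), hU.2⟩ :
      HasCol P Γ (.app M' N) b)
    simp only [nu, colD_eq hP hw hc, colD_eq hP hw hc']
    exact St.Steps.app (St.Steps.app (ih τ hw hM) .refl) .refl
  | @appR M N N' hb ih =>
    intro Γ T τ hw h
    obtain ⟨A, B, a, b, hM, hN, hA, -, -, -, hcN, hc, -⟩ := app_col hP hw h
    have hc' := hc.elim fun U hU => (⟨U, subject_reduction hU.1 hw (Beta.appR M hb), hU.2⟩ :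
      HasCol P Γ (.app M N') b)
    have hcN' : HasCol P Γ N' a := ⟨A, subject_reduction hN hw hb, hA⟩
    simp only [nu, colD_eq hP hw hc, colD_eq hP hw hc', colD_eq hP hw hcN, colD_eq hP hw hcN']
    refine St.Steps.app (St.Steps.app .refl (ih τ hw hN)) ?_
    unfold lift
    split
    · exact St.Steps.lam .refl (St.Steps.ren (ih τ hw hN) _)
    · exact .refl
  | @lamL A A' M hb ih =>
    intro Γ T τ hw h
    obtain ⟨a, b, B, hA, hM, -, -, -, hcM, -⟩ := body_col hP h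
    have hA' := subject_reduction hA hw hb
    have hcv := Vale.Agent.P340.Conv.step hb
    have hcM' := hcM.elim fun U hU => (⟨U, hU.1.changeHead hA hcv, hU.2.changeHead hA hcv⟩ :
      HasCol P (A' :: Γ) M b)
    simp only [nu, srtD_eq hP hA, srtD_eq hP hA', colD_eq hP (WF.cons hw hA) hcM,
      colD_eq hP (WF.cons hw hA') hcM', nu_changeHead hP hw hA hA' hcv hM]
    refine St.Steps.lam (ih τ hw hA) (St.Steps.lam ?_ .refl)
    refine St.Steps.ren ?_ _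
    unfold tp
    split
    · exact St.Steps.pi .refl (St.Steps.ren (ih τ hw hA) _)
    · exact .refl
  | @lamR A M M' hb ih =>
    intro Γ T τ hw h
    obtain ⟨a, b, B, hA, hM, hB, -, -, hcM, -⟩ := body_col hP h
    have hcM' : HasCol P (A :: Γ) M' b := ⟨B, subject_reduction hM (WF.cons hw hA) hb, hB⟩
    simp only [nu, colD_eq hP (WF.cons hw hA) hcM, colD_eq hP (WF.cons hw hA) hcM']
    exact St.Steps.lam .refl (St.Steps.lam .refl (ih _ (WF.cons hw hA) hM))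
  | @piL A A' B hb ih =>
    intro Γ T τ hw h
    obtain ⟨a, b, c, hA, hB, -, -⟩ := gen_pi h
    have hA' := subject_reduction hA hw hb
    have hcv := Vale.Agent.P340.Conv.step hb
    simp only [nu, srtD_eq hP hA, srtD_eq hP hA', srtD_eq hP hB,
      srtD_eq hP (hB.changeHead hA hcv), nu_changeHead hP hw hA hA' hcv hB]
    refine St.Steps.pi (ih τ hw hA) (St.Steps.pi ?_ .refl)
    refine St.Steps.ren ?_ _
    unfold tp
    split
    · exact St.Steps.pi .refl (St.Steps.ren (ih τ hw hA) _)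
    · exact .refl
  | @piR A B B' hb ih =>
    intro Γ T τ hw h
    obtain ⟨a, b, c, hA, hB, -, -⟩ := gen_pi h
    simp only [nu, srtD_eq hP hB, srtD_eq hP (subject_reduction hB (WF.cons hw hA) hb)]
    exact St.Steps.pi .refl (St.Steps.pi .refl (ih _ (WF.cons hw hA) hB))

/-- An expression is typed or is a sort. -/
def Ok (P : Spec S) (Γ : List (Expr S)) (M : Expr S) : Prop :=
  (∃ T, D P Γ M T) ∨ ∃ s, M = .sort s

theorem nu_steps (hP : Basic P) {Γ : List (Expr S)} (hw : WF P Γ) {M M' : Expr S}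
    (hM : Ok P Γ M) (hs : Vale.Agent.P340.Steps M M') (τ : ℕ → St.Tm S) :
    St.Steps (nu P Γ τ M) (nu P Γ τ M') := by
  rcases hM with ⟨T, hM⟩ | ⟨s, rfl⟩
  · induction hs with
    | refl => exact .refl
    | tail hs hb ih => exact ih.trans (nu_beta hP hb τ hw (hM.steps hw hs))
  · rw [hs.sort_inv]

theorem nu_conv (hP : Basic P) {Γ : List (Expr S)} (hw : WF P Γ) {M N : Expr S}
    (hM : Ok P Γ M) (hN : Ok P Γ N) (hc : Vale.Agent.P340.Conv M N) (τ : ℕ → St.Tm S) :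
    St.Conv (nu P Γ τ M) (nu P Γ τ N) := by
  obtain ⟨L, h₁, h₂⟩ := hc.join
  exact St.conv_iff.2 ⟨_, nu_steps hP hw hM h₁ τ, nu_steps hP hw hN h₂ τ⟩

/-- Typed environments. -/
def EnvOK (P : Spec S) (Γ : List (Expr S)) (Δ : List (St.Tm S)) (τ : ℕ → St.Tm S) : Prop :=
  St.Wf (QS P) Δ ∧ ∀ i A, Lookup Γ i A → St.Has (QS P) Δ (τ i) (nu P Γ τ A)

omit [Inhabited S] in
theorem has_W {Δ : List (St.Tm S)} (hΔ : St.Wf (QS P) Δ) {d : S} (h : Touched P d) :
    St.Has (QS P) Δ (W P d) (.srt d) :=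
  hΔ.weakenClosed (W_typed h)

omit [Inhabited S] in
theorem has_jk {Δ : List (St.Tm S)} (hΔ : St.Wf (QS P) Δ) {d : S} (h : Touched P d) :
    St.Has (QS P) Δ (jk P d) (W P d) :=
  hΔ.weakenClosed (St.Has.cst 0 trivial (W_typed h))

omit [Inhabited S] in
theorem has_arr {Δ : List (St.Tm S)} {A B : St.Tm S} {a b : S}
    (hA : St.Has (QS P) Δ A (.srt a)) (hB : St.Has (QS P) Δ B (.srt b)) (he : Edge P a b) :
    St.Has (QS P) Δ (arr A B) (.srt b) :=
  St.Has.pi hA (hB.sh hA) he.1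

omit [Inhabited S] in
/-- The second variable's type is typed, with an edge to the body's sort. -/
theorem has_tp (hC : OddlyConnected P) {Δ : List (St.Tm S)} {A : St.Tm S} {a b : S}
    (hA : St.Has (QS P) Δ A (.srt a)) (he : Edge P a b) :
    ∃ a', St.Has (QS P) Δ (tp P a b A) (.srt a') ∧ Edge P a' b ∧ Tgt P a' := by
  unfold tp
  split
  · next h =>
    obtain ⟨h₁, h₂⟩ := jd_spec hC h
    exact ⟨a, has_arr (has_W hA.wf h₁.touched) hA h₂, he, h⟩
  · obtain ⟨h₁, h₂⟩ := jd_spec hC he.tgt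
    obtain ⟨h₃, h₄⟩ := jd_spec hC h₁
    exact ⟨_, has_arr (has_W hA.wf h₃.touched) (has_W hA.wf h₁.touched) h₄, h₂, h₁⟩

omit [Inhabited S] in
theorem has_lift (hC : OddlyConnected P) {Δ : List (St.Tm S)} {A t : St.Tm S} {a b c : S}
    (hT : St.Has (QS P) Δ (tp P a b A) (.srt c)) (ht : St.Has (QS P) Δ t A) (he : Edge P a b) :
    St.Has (QS P) Δ (lift P a b t) (tp P a b A) := by
  unfold lift
  unfold tp at hT ⊢
  split
  · next h =>
    rw [if_pos h] at hT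
    obtain ⟨x, y, z, hW, -, -, -⟩ := St.Has.gen_pi hT
    exact St.Has.lam (ht.sh hW) hT
  · next h =>
    rw [if_neg h] at hT
    obtain ⟨x, y, z, hW, -, -, -⟩ := St.Has.gen_pi hT
    refine St.Has.lam ?_ hT
    rw [W_sh]
    exact has_jk (St.Wf.cons ht.wf hW) (jd_spec hC he.tgt).1.touched

theorem EnvOK.up (hC : OddlyConnected P) {Γ : List (Expr S)} {Δ : List (St.Tm S)}
    {τ : ℕ → St.Tm S} (hw : WF P Γ) (he : EnvOK P Γ Δ τ) {A : Expr S} {a b : S}
    (hA : D P Γ A (.sort a)) {a₁ a₂ : S} (hA' : St.Has (QS P) Δ (nu P Γ τ A) (.srt a₁))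
    (hT' : St.Has (QS P) (nu P Γ τ A :: Δ) (St.Tm.sh (tp P a b (nu P Γ τ A))) (.srt a₂)) :
    EnvOK P (A :: Γ) (St.Tm.sh (tp P a b (nu P Γ τ A)) :: nu P Γ τ A :: Δ) (nup τ) := by
  have hw₁ : St.Wf (QS P) (nu P Γ τ A :: Δ) := St.Wf.cons he.1 hA'
  refine ⟨St.Wf.cons hw₁ hT', fun i B hB => ?_⟩
  cases hB with
  | zero =>
    rw [nu_shift hC.toBasic hw hA hA]
    have := (St.Has.var hA').sh hT'
    simp only [St.Tm.sh, St.Tm.ren, St.Tm.ren_ren] at this
    exact this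
  | @succ _ _ B₀ j hB =>
    obtain ⟨s, hs⟩ := hw.lookup hB
    rw [nu_shift hC.toBasic hw hA hs]
    have := ((he.2 j B₀ hB).sh hA').sh hT'
    simp only [St.Tm.sh, St.Tm.ren_ren] at this
    exact this

theorem nu_typed (hC : OddlyConnected P) {Γ : List (Expr S)} {M T : Expr S}
    (h : D P Γ M T) : ∀ {Δ : List (St.Tm S)} {τ : ℕ → St.Tm S}, WF P Γ → EnvOK P Γ Δ τ →
      St.Has (QS P) Δ (nu P Γ τ M) (nu P Γ τ T) := by
  have hP := hC.toBasic
  induction h with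
  | axm ha => intro Δ τ _ he; exact he.1.weakenClosed (St.Has.ax ha)
  | var hl => intro Δ τ _ he; exact he.2 _ _ hl
  | @prod Γ A B a b c hA hB hr ihA ihB =>
    intro Δ τ hw he
    obtain rfl := hP.generalized _ _ _ hr
    have hab := edge_of_prod hP hw hA hB hr
    have hA' := ihA hw he
    obtain ⟨a', hT, hae, -⟩ := has_tp hC hA' hab
    have hB' := ihB (WF.cons hw hA) (he.up hC hw hA hA' (hT.sh hA'))
    simp only [nu, srtD_eq hP hA, srtD_eq hP hB]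
    exact St.Has.pi hA' (St.Has.pi (hT.sh hA') hB' hae.1) hr
  | @abs Γ A B M s hM hPi ihM ihPi =>
    intro Δ τ hw he
    obtain ⟨a, b, c, hA, hB, hr, hc⟩ := gen_pi hPi
    obtain rfl := hP.generalized _ _ _ hr
    have hab := edge_of_prod hP hw hA hB hr
    have hPi' := ihPi hw he
    simp only [nu, srtD_eq hP hA, srtD_eq hP hB] at hPi'
    obtain ⟨a₁, b₁, c₁, hA', hIn, -, -⟩ := hPi'.gen_pi
    simp only [nu, srtD_eq hP hA, srtD_eq hP hB,
      colD_eq hP (WF.cons hw hA) (⟨B, hM, hB⟩ : HasCol P (A :: Γ) M c)]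
    obtain ⟨a₂, b₂, c₂, hT', -, -, -⟩ := hIn.gen_pi
    exact St.Has.lam (St.Has.lam (ihM (WF.cons hw hA) (he.up hC hw hA hA' hT')) hIn) hPi'
  | @app Γ A B M N hM hN ihM ihN =>
    intro Δ τ hw he
    obtain ⟨a, b, c, hA, hB, hr, hPi⟩ := hM.pi_type hw
    obtain rfl := hP.generalized _ _ _ hr
    have hab := edge_of_prod hP hw hA hB hr
    have hN' := ihN hw he
    have hM' := ihM hw he
    simp only [nu, srtD_eq hP hA, srtD_eq hP hB] at hM'
    rcases hM'.correct with ⟨s, hs⟩ | ⟨s, hs⟩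
    swap
    · cases hs
    obtain ⟨a₁, b₁, c₁, hA', hIn, -, -⟩ := hs.gen_pi
    obtain ⟨a₂, b₂, c₂, hT', -, -, -⟩ := hIn.gen_pi
    have hT := hT'.inst hN'
    rw [St.Tm.inst_sh] at hT
    have hL := has_lift hC hT hN' hab
    simp only [nu, colD_eq hP hw (⟨A, hN, hA⟩ : HasCol P Γ N a),
      colD_eq hP hw (⟨B.inst N, D.app hM hN, hB.inst hN⟩ : HasCol P Γ (.app M N) c)]
    have h₁ : St.Has (QS P) Δ (.app (nu P Γ τ M) (nu P Γ τ N))
        (.pi (tp P a c (nu P Γ τ A))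
          (St.Tm.sub (St.Tm.up (St.Tm.scons (nu P Γ τ N) .var)) (nu P (A :: Γ) (nup τ) B))) := by
      have := St.Has.app hM' hN'
      simp only [St.Tm.inst, St.Tm.sub, St.Tm.sub_scons_sh, St.Tm.sub_var] at this
      exact this
    rw [← nu_inst hP hw hA hN hB τ (lift P a c (nu P Γ τ N))]
    exact St.Has.app h₁ hL
  | @conv Γ M A B s hM hB hc ihM ihB =>
    intro Δ τ hw he
    refine St.Has.conv (ihM hw he) (ihB hw he) (nu_conv hP hw ?_ (Or.inl ⟨_, hB⟩) hc τ)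
    rcases hM.correctness hw with ⟨t, rfl⟩ | ⟨t, ht⟩
    · exact Or.inr ⟨t, rfl⟩
    · exact Or.inl ⟨_, ht⟩

end Vale.Agent.P340.Oc
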