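import Vale.Agent.P340.OcAbs

/-!
# The typed memory translation

Every typed expression has an erased translation which is the erasure of a typed term of the
same system (with closed constants).
-/

namespace Vale.Agent.P340.Oc

open Relation
open St (UTm)

universe u
variable {S : Type u} {P : Spec S}

/-- A typed junk term, its erasure given through a substitution `F`. -/
def Jn (P : Spec S) (g : KEnv) (Δ : List (St.Tm S)) (F : ℕ → UTm) (y : S) (X₀ : UTm) : Prop :=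
  Tgt P y ∧ ∃ X, St.Has (QS P) Δ X (W P y) ∧ Er g .junk X (UTm.sub F X₀)

theorem Jn.cast {g : KEnv} {Δ : List (St.Tm S)} {F F' : ℕ → UTm} {y : S} {a a' : UTm}
    (h : Jn P g Δ F y a) (e : UTm.sub F a = UTm.sub F' a') : Jn P g Δ F' y a' := by
  obtain ⟨hy, X, h₁, h₂⟩ := h
  exact ⟨hy, X, h₁, e ▸ h₂⟩

theorem Jn.conv (hC : OddlyConnected P) {g : KEnv} {Δ : List (St.Tm S)} {F : ℕ → UTm} {p q : S}
    {a : UTm} (h : Jn P g Δ F p a) (hq : Tgt P q) :
    ∃ a', Jn P g Δ F q a' ∧ CBox a a' := by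
  obtain ⟨hp, X, h₁, h₂⟩ := h
  obtain ⟨X', u', h₃, h₄, hb⟩ := conv_tgt hC hp hq h₁ h₂
  obtain ⟨a', ha', rfl⟩ := hb.sub_inv
  exact ⟨a', ⟨hq, X', h₃, h₄⟩, ha'⟩

theorem Jn.pair (hC : OddlyConnected P) {g : KEnv} {Δ : List (St.Tm S)} {F : ℕ → UTm}
    {p q y : S} {a b : UTm} (ha : Jn P g Δ F p a) (hb : Jn P g Δ F q b) (hy : Tgt P y) :
    ∃ a' b', CBox a a' ∧ CBox b b' ∧ Jn P g Δ F y (.app (.app (.cst 0) a') b') := by
  have hd := (jd_spec hC hy).1
  obtain ⟨a', ⟨-, X, hX, hu⟩, h₁⟩ := ha.conv hC hd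
  obtain ⟨b', ⟨-, Y, hY, hv⟩, h₂⟩ := hb.conv hC hd
  obtain ⟨Z, hZ, hz⟩ := pair_junk hC hy hX hu hY hv
  exact ⟨a', b', h₁, h₂, hy, Z, hZ, hz⟩

theorem Jn.of_value (hC : OddlyConnected P) {g : KEnv} {Δ : List (St.Tm S)} (hs : Sc P Δ)
    {F : ℕ → UTm} {k : TK} {v T : St.Tm S} {v₀ : UTm} {u y : S}
    (hT : St.Has (QS P) Δ T (.srt u)) (hu : Tgt P u) (hy : Tgt P y)
    (hv : St.Has (QS P) Δ v T) (he : Er g k v (UTm.sub F v₀)) :
    ∃ X₀, Jn P g Δ F y X₀ ∧ CBox v₀ X₀ := by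
  obtain ⟨X, ux, h₁, h₂, hb⟩ := absorb hC hs hT hu hy hv he
  obtain ⟨X₀, hX, rfl⟩ := hb.sub_inv
  exact ⟨X₀, ⟨hy, X, h₁, h₂⟩, hX⟩

/-- Weakening by one junk variable. -/
theorem Jn.weaken2 {g : KEnv} {Δ : List (St.Tm S)} {F : ℕ → UTm} {y : S} {a : UTm}
    {A B : St.Tm S} {s t : S} (h : Jn P g Δ F y a) (hA : St.Has (QS P) Δ A (.srt s))
    (hB : St.Has (QS P) (A :: Δ) B (.srt t)) :
    Jn P (g.drop.keep .comp) (B :: A :: Δ) (UTm.up F) y (UTm.ren Nat.succ a) := by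
  obtain ⟨hy, X, h₁, h₂⟩ := h
  refine ⟨hy, St.Tm.ren (fun i => i + 2) X, ?_, ?_⟩
  · have := (h₁.sh hA).sh hB
    simp only [St.Tm.sh, St.Tm.ren_ren, W_closed] at this
    exact this
  · rw [sub_up_ren_succ]
    exact h₂.ren fun i => ⟨rfl, fun _ => rfl⟩

/-- The node of a closed result type. -/
theorem close_node (hC : OddlyConnected P) {g : KEnv} {Δ : List (St.Tm S)} {ρ : ℕ → UTm}
    {y : S} {U : St.Tm S} {X₀ : UTm} (hy : Tgt P y) (hU : St.Has (QS P) [] U (.srt y))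
    (hw : St.Wf (QS P) Δ)
    (hX : Jn P (g.keep .junk) (W P (jd P y) :: Δ) (UTm.up ρ) (jd P y) X₀) :
    ∃ C, St.Has (QS P) Δ C (arr (W P (jd P y)) U) ∧
      Er g .comp C (UTm.sub ρ (.lam (.app (.cst 0) X₀))) := by
  obtain ⟨-, X, h₁, h₂⟩ := hX
  obtain ⟨-, he⟩ := jd_spec hC hy
  obtain ⟨t, e⟩ := cst_app (W_typed he.2.1) hU he h₁ h₂
  refine ⟨_, St.Has.lam ?_ (has_arr (has_W hw he.2.1) (hw.weakenClosed hU) he), .cLam (.vE e)⟩
  rwa [St.Tm.sh, hU.scoped.1.ren_closed]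

variable [Inhabited S]

/-- Environments of the translation. -/
structure EnvR (P : Spec S) (Γ : List (Expr S)) (Δ : List (St.Tm S)) (g : KEnv)
    (τ κ : ℕ → St.Tm S) (ρ : ℕ → UTm) : Prop where
  env : EnvOK P Γ Δ τ
  scope : Sc P Δ
  erased : ∀ i A, Lookup Γ i A → Er g .comp (κ i) (ρ i)
  active : ∀ i A a, Lookup Γ i A → D P Γ A (.sort a) → Tgt P a →
    St.Has (QS P) Δ (κ i) (arr (W P (jd P a)) (nu P Γ τ A))
  passive : ∀ i A a, Lookup Γ i A → D P Γ A (.sort a) → ¬ Tgt P a →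
    ∃ y, Tgt P y ∧ St.Has (QS P) Δ (κ i) (arr (W P (jd P y)) (W P y))

theorem EnvR.junk (hC : OddlyConnected P) {Γ : List (Expr S)} {Δ : List (St.Tm S)} {g : KEnv}
    {τ κ : ℕ → St.Tm S} {ρ : ℕ → UTm} (h : EnvR P Γ Δ g τ κ ρ) {y : S} (hy : Tgt P y) :
    EnvR P Γ (W P (jd P y) :: Δ) (g.keep .junk) (St.Tm.ren Nat.succ ∘ τ)
      (St.Tm.ren Nat.succ ∘ κ) (UTm.ren Nat.succ ∘ ρ) := by
  obtain ⟨hd, he⟩ := jd_spec hC hy
  have hW := has_W (P := P) h.env.1 hd.touched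
  refine ⟨⟨St.Wf.cons h.env.1 hW, fun i A hl => ?_⟩, Sc.cons h.scope hW he, ?_, ?_, ?_⟩
  · have := (h.env.2 i A hl).sh hW
    simp only [St.Tm.sh, nu_tm_ren] at this
    exact this
  · intro i A hl
    exact (h.erased i A hl).ren fun i => ⟨rfl, fun _ => rfl⟩
  · intro i A a hl hA ha
    have := (h.active i A a hl hA ha).sh hW
    simp only [St.Tm.sh, arr_ren, W_closed, nu_tm_ren] at this
    exact this
  · intro i A a hl hA ha
    obtain ⟨z, hz, hκ⟩ := h.passive i A a hl hA ha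
    have := hκ.sh hW
    simp only [St.Tm.sh, arr_ren, W_closed] at this
    exact ⟨z, hz, this⟩

/-- The translation of the variable of a binder. -/
def bindK (κ : ℕ → St.Tm S) : ℕ → St.Tm S
  | 0 => .var 0
  | n + 1 => St.Tm.ren (fun i => i + 2) (κ n)

theorem EnvR.bind (hC : OddlyConnected P) {Γ : List (Expr S)} {Δ : List (St.Tm S)} {g : KEnv}
    {τ κ : ℕ → St.Tm S} {ρ : ℕ → UTm} (h : EnvR P Γ Δ g τ κ ρ) (hw : WF P Γ) {A : Expr S}
    {a b : S} (hA : D P Γ A (.sort a)) (hab : Edge P a b) :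
    EnvR P (A :: Γ) (St.Tm.sh (tp P a b (nu P Γ τ A)) :: nu P Γ τ A :: Δ)
      (g.drop.keep .comp) (nup τ) (bindK κ) (UTm.up ρ) := by
  have hP := hC.toBasic
  have hA' := nu_typed hC hA hw h.env
  obtain ⟨a', hT, hae, -⟩ := has_tp hC hA' hab
  have hT' := hT.sh hA'
  refine ⟨h.env.up hC hw hA hA' hT', Sc.cons (Sc.cons h.scope hA' hab) hT' hae, ?_, ?_, ?_⟩
  · intro i B hl
    cases hl with
    | zero => exact .cVar (g := g.drop.keep .comp) (i := 0) rfl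
    | @succ _ _ B₀ j hl => exact (h.erased j B₀ hl).ren fun i => ⟨rfl, fun _ => rfl⟩
  · intro i B c hl hB hc
    cases hl with
    | zero =>
      obtain rfl : c = a := D.sort_unique hP hB (hA.weaken A)
      have := St.Has.var hT'
      rw [tp, if_pos hc] at this ⊢
      rw [nu_shift hP hw hA hA]
      simp only [St.Tm.sh, arr_ren, W_closed, St.Tm.ren_ren] at this ⊢
      exact this
    | @succ _ _ B₀ j hl =>
      obtain ⟨s, hs⟩ := hw.lookup hl
      obtain rfl : c = s := D.sort_unique hP hB (hs.weaken A)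
      rw [nu_shift hP hw hA hs]
      have := ((h.active j B₀ c hl hs hc).sh hA').sh hT'
      simp only [St.Tm.sh, St.Tm.ren_ren, arr_ren, W_closed] at this
      exact this
  · intro i B c hl hB hc
    cases hl with
    | zero =>
      obtain rfl : c = a := D.sort_unique hP hB (hA.weaken A)
      have := St.Has.var hT'
      rw [tp, if_neg hc] at this ⊢
      simp only [St.Tm.sh, arr_ren, W_closed, St.Tm.ren_ren] at this ⊢
      exact ⟨_, (jd_spec hC hab.tgt).1, this⟩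
    | @succ _ _ B₀ j hl =>
      obtain ⟨s, hs⟩ := hw.lookup hl
      obtain rfl : c = s := D.sort_unique hP hB (hs.weaken A)
      obtain ⟨z, hz, hκ⟩ := h.passive j B₀ c hl hs hc
      have := (hκ.sh hA').sh hT'
      simp only [St.Tm.sh, St.Tm.ren_ren, arr_ren, W_closed] at this
      exact ⟨z, hz, this⟩

/-- A typed translation of `M` at type `U`. -/
def Tr (P : Spec S) (Γ : List (Expr S)) (Δ : List (St.Tm S)) (g : KEnv) (ρ : ℕ → UTm)
    (M : Expr S) (U : St.Tm S) : Prop :=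
  ∃ C u₀, St.Has (QS P) Δ C U ∧ Rel P Γ M u₀ ∧ Er g .comp C (UTm.sub ρ u₀)

/-- `M` is translated in every environment. -/
def Real (P : Spec S) (Γ : List (Expr S)) (M : Expr S) : Prop :=
  ∀ Δ g τ κ ρ T, WF P Γ → EnvR P Γ Δ g τ κ ρ → D P Γ M T →
    (∀ c, D P Γ T (.sort c) → Tgt P c →
      Tr P Γ Δ g ρ M (arr (W P (jd P c)) (nu P Γ τ T))) ∧
    (Atom P Γ M → ∀ y, Tgt P y → Tr P Γ Δ g ρ M (arr (W P (jd P y)) (W P y)))

/-- The absorbed value of a translated expression. -/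
theorem content (hC : OddlyConnected P) {Γ : List (Expr S)} {M T : Expr S} (h : Real P Γ M)
    {Δ : List (St.Tm S)} {g : KEnv} {τ κ : ℕ → St.Tm S} {ρ : ℕ → UTm} (hw : WF P Γ)
    (he : EnvR P Γ Δ g τ κ ρ) (hD : D P Γ M T) {y : S} (hy : Tgt P y) :
    ∃ u₀ X₀, Rel P Γ M u₀ ∧ Jn P g Δ ρ y X₀ ∧ CBox (.app u₀ (.cst 0)) X₀ := by
  have hP := hC.toBasic
  have key : ∀ (c : S) (U : St.Tm S), Tgt P c → St.Has (QS P) Δ U (.srt c) →
      Tr P Γ Δ g ρ M (arr (W P (jd P c)) U) →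
      ∃ u₀ X₀, Rel P Γ M u₀ ∧ Jn P g Δ ρ y X₀ ∧ CBox (.app u₀ (.cst 0)) X₀ := by
    rintro c U hc hU ⟨C, u₀, hCt, hR, hE⟩
    have h₁ := St.Has.app hCt (has_jk (P := P) he.env.1 (jd_spec hC hc).1.touched)
    rw [St.Tm.inst_sh] at h₁
    obtain ⟨X₀, hX, hb⟩ := Jn.of_value hC he.scope (v₀ := .app u₀ (.cst 0)) hU hc hy h₁
      (.vC hE .eCst)
    exact ⟨u₀, X₀, hR, hX, hb⟩
  by_cases hat : Atom P Γ M
  · exact key y _ hy (has_W he.env.1 hy.touched) ((h Δ g τ κ ρ T hw he hD).2 hat y hy)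
  · simp only [Atom, not_forall, not_not] at hat
    obtain ⟨c, ⟨T', hM', hT'⟩, hc⟩ := hat
    exact key c _ hc (nu_typed hC hT' hw he.env) ((h Δ g τ κ ρ T' hw he hM').1 c hT' hc)

/-- Changing the type of a translation along conversion. -/
theorem retype (hC : OddlyConnected P) {Γ : List (Expr S)} {Δ : List (St.Tm S)}
    {τ : ℕ → St.Tm S} (hw : WF P Γ) (he : EnvOK P Γ Δ τ) {T T' : Expr S} {c : S}
    (hT : D P Γ T (.sort c)) (hc : Tgt P c) (hT' : Ok P Γ T')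
    (hcv : Vale.Agent.P340.Conv T' T) {C : St.Tm S}
    (hCt : St.Has (QS P) Δ C (arr (W P (jd P c)) (nu P Γ τ T'))) :
    St.Has (QS P) Δ C (arr (W P (jd P c)) (nu P Γ τ T)) := by
  obtain ⟨hd, hde⟩ := jd_spec hC hc
  refine St.Has.conv hCt
    (has_arr (has_W he.1 hd.touched) (nu_typed hC hT hw he) hde) ?_
  obtain ⟨L, h₁, h₂⟩ := St.conv_iff.1 (nu_conv hC.toBasic hw hT' (Or.inl ⟨_, hT⟩) hcv τ)
  exact St.conv_iff.2 ⟨_, St.Steps.pi .refl (h₁.ren _), St.Steps.pi .refl (h₂.ren _)⟩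

/-- A junk variable. -/
theorem jn_var (hC : OddlyConnected P) {Γ : List (Expr S)} {Δ : List (St.Tm S)} {g : KEnv}
    {τ κ : ℕ → St.Tm S} {ρ : ℕ → UTm} (he : EnvR P Γ Δ g τ κ ρ) {y : S} (hy : Tgt P y) :
    Jn P (g.keep .junk) (W P (jd P y) :: Δ) (UTm.up ρ) (jd P y) (.var 0) := by
  obtain ⟨hd, -⟩ := jd_spec hC hy
  refine ⟨hd, .var 0, ?_, .eVar (g := g.keep .junk) (i := 0) rfl⟩
  have := St.Has.var (has_W (P := P) he.env.1 hd.touched)
  rwa [W_sh] at this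

theorem real_sort (hC : OddlyConnected P) (Γ : List (Expr S)) (s : S) :
    Real P Γ (.sort s) := by
  intro Δ g τ κ ρ T hw he hD
  have hmk : ∀ (y : S) (U : St.Tm S), Tgt P y → St.Has (QS P) [] U (.srt y) →
      Tr P Γ Δ g ρ (.sort s) (arr (W P (jd P y)) U) := by
    intro y U hy hU
    obtain ⟨C, h₁, h₂⟩ := close_node hC hy hU he.env.1 (jn_var hC he hy)
    exact ⟨C, _, h₁, .sort s (X := .app (.cst 0) (.var 0)) ⟨trivial, trivial⟩ (Or.inr rfl), h₂⟩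
  refine ⟨fun c hTc hc => ?_, fun _ y hy => hmk y _ hy (W_typed hy.touched)⟩
  obtain ⟨t, ht, hcv⟩ := gen_sort hD
  obtain ⟨c', hc', he'⟩ := gen_sort (hTc.steps hw hcv.symm.steps_to_sort)
  obtain rfl : c' = c := he'.sort_eq
  obtain ⟨C, u₀, hCt, hR, hE⟩ := hmk c' _ hc (St.Has.ax hc')
  exact ⟨C, u₀, retype hC hw he.env hTc hc (Or.inr ⟨t, rfl⟩) hcv hCt, hR, hE⟩

theorem real_var (hC : OddlyConnected P) (Γ : List (Expr S)) (i : ℕ) :
    Real P Γ (.var i) := by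
  intro Δ g τ κ ρ T hw he hD
  have hP := hC.toBasic
  obtain ⟨A, hl, hcv⟩ := gen_var hD
  obtain ⟨s, hs⟩ := hw.lookup hl
  have hcol : HasCol P Γ (.var i) s := ⟨A, D.var hl, hs⟩
  refine ⟨fun c hTc hc => ?_, fun hat y hy => ?_⟩
  · obtain rfl : s = c := HasCol.unique hP hw hcol ⟨T, hD, hTc⟩
    exact ⟨κ i, .var i, retype hC hw he.env hTc hc (Or.inl ⟨_, hs⟩) hcv
      (he.active i A s hl hs hc), .var i, he.erased i A hl⟩
  · obtain ⟨z, hz, hκ⟩ := he.passive i A s hl hs (hat s hcol)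
    obtain ⟨hd, hde⟩ := jd_spec hC hy
    have hW := has_W (P := P) he.env.1 hd.touched
    obtain ⟨J, hJ, hJb⟩ := (jn_var hC he hy).conv hC (jd_spec hC hz).1
    obtain ⟨-, Jt, hJt, hJe⟩ := hJ
    have hκ' := hκ.sh hW
    simp only [St.Tm.sh, arr_ren, W_closed] at hκ'
    have h₁ := St.Has.app hκ' hJt
    rw [St.Tm.inst_sh] at h₁
    have he₁ : Er (g.keep .junk) .val (.app (St.Tm.ren Nat.succ (κ i)) Jt)
        (UTm.sub (UTm.up ρ) (.app (UTm.ren Nat.succ (.var i)) J)) :=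
      .vC ((he.erased i A hl).ren fun i => ⟨rfl, fun _ => rfl⟩) hJe
    obtain ⟨X, ux, hX, heX, hb⟩ := conv_tgt hC hz hy h₁ he₁
    obtain ⟨X₀, hX₀, rfl⟩ := hb.sub_inv
    refine ⟨.lam (W P (jd P y)) X, .lam X₀, St.Has.lam ?_ (has_arr hW (has_W he.env.1 hy.touched)
      hde), .wrapC (.var i) hat (hJb.box.relI trivial) (hJb.box.occ rfl) hX₀.box, .cLam (.vE heX)⟩
    rw [W_sh]; exact hX

theorem real_app (hC : OddlyConnected P) {Γ : List (Expr S)} {M N : Expr S}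
    (ihM : Real P Γ M) (ihN : Real P Γ N) : Real P Γ (.app M N) := by
  intro Δ g τ κ ρ T hw he hD
  have hP := hC.toBasic
  obtain ⟨A, B, a, b, hM, hN, hA, hB, hr, hPi, hcN, hc, hcv⟩ := app_col hP hw hD
  have hab := edge_of_prod hP hw hA hB hr
  refine ⟨fun c hTc _ => ?_, fun hat => absurd hab.tgt (hat b hc)⟩
  obtain rfl : b = c := HasCol.unique hP hw hc ⟨T, hD, hTc⟩
  have hb := hab.tgt
  obtain ⟨hd, hde⟩ := jd_spec hC hb
  have he₁ := he.junk hC hb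
  have hW := has_W (P := P) he.env.1 hd.touched
  obtain ⟨CM, uM, hCM, hRM, hEM⟩ := (ihM _ _ _ _ _ _ hw he₁ hM).1 b hPi hb
  obtain ⟨CN, uN, hCN, hRN, hEN⟩ : Tr P Γ (W P (jd P b) :: Δ) (g.keep .junk)
      (UTm.ren Nat.succ ∘ ρ) N (tp P a b (nu P Γ (St.Tm.ren Nat.succ ∘ τ) A)) := by
    unfold tp
    split
    · next ha => exact (ihN _ _ _ _ _ _ hw he₁ hN).1 a hA ha
    · next ha =>
      refine (ihN _ _ _ _ _ _ hw he₁ hN).2 ?_ _ hd
      intro x hx
      rwa [HasCol.unique hP hw hx hcN]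
  obtain ⟨-, J, hJ, hJe⟩ := jn_var hC he hb
  have h₁ := St.Has.app hCM hJ
  rw [St.Tm.inst_sh] at h₁
  simp only [nu, srtD_eq hP hA, srtD_eq hP hB] at h₁
  have h₂ := St.Has.app h₁ (nu_typed hC hN hw he₁.env)
  simp only [St.Tm.inst, St.Tm.sub, St.Tm.sub_scons_sh, St.Tm.sub_var] at h₂
  have h₃ := St.Has.app h₂ hCN
  rw [nu_inst hP hw hA hN hB] at h₃
  have hTy := nu_typed hC (hB.inst hN) hw he.env
  have h₄ : St.Has (QS P) Δ _ (arr (W P (jd P b)) (nu P Γ τ (B.inst N))) :=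
    St.Has.lam (B := St.Tm.sh (nu P Γ τ (B.inst N)))
      (by rw [St.Tm.sh, nu_tm_ren]; exact h₃) (has_arr hW hTy hde)
  refine ⟨_, .lam (.app (.app (UTm.ren Nat.succ uM) (.var 0)) (UTm.ren Nat.succ uN)),
    retype hC hw he.env hTc hb (Or.inl ⟨_, hB.inst hN⟩) hcv h₄,
    .app hRM hRN trivial rfl, ?_⟩
  simp only [UTm.sub, sub_up_ren_succ, UTm.up]
  refine .cLam (.vApp (.vC ?_ hJe) ?_)
  · rw [UTm.ren_sub]; exact hEM
  · rw [UTm.ren_sub]; exact hEN

omit [Inhabited S] in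
/-- The absorbed variable of the innermost binder. -/
theorem jn_bound (hC : OddlyConnected P) {Δ : List (St.Tm S)} {A : St.Tm S} {a b : S}
    (hs : Sc P Δ) (hA : St.Has (QS P) Δ A (.srt a)) (hab : Edge P a b) {g : KEnv}
    {F : ℕ → UTm} :
    ∃ X₀, Jn P (g.drop.keep .comp) (St.Tm.sh (tp P a b A) :: A :: Δ) (UTm.up F)
      (jd P b) X₀ ∧ CBox (.var 0) X₀ := by
  obtain ⟨a', hT, hae, ha'⟩ := has_tp hC hA hab
  have hT' := hT.sh hA
  exact Jn.of_value hC (v₀ := .var 0) (Sc.cons (Sc.cons hs hA hab) hT' hae) (hT'.sh hT') ha'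
    (jd_spec hC hab.tgt).1 (St.Has.var hT') (.cVar (g := g.drop.keep .comp) (i := 0) rfl)

theorem real_lam (hC : OddlyConnected P) {Γ : List (Expr S)} {A M : Expr S}
    (ihA : Real P Γ A) (ihM : Real P (A :: Γ) M) : Real P Γ (.lam A M) := by
  intro Δ g τ κ ρ T hw he hD
  have hP := hC.toBasic
  obtain ⟨a, b, B, hA, hM, hB, hr, hPi, hcM, hcv⟩ := body_col hP hD
  have hab := edge_of_prod hP hw hA hB hr
  have hcol : HasCol P Γ (.lam A M) b := ⟨_, D.abs hM hPi, hPi⟩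
  refine ⟨fun c hTc _ => ?_, fun hat => absurd hab.tgt (hat b hcol)⟩
  obtain rfl : b = c := HasCol.unique hP hw hcol ⟨T, hD, hTc⟩
  have hb := hab.tgt
  obtain ⟨hd, hde⟩ := jd_spec hC hb
  have he₁ := he.junk hC hb
  have hw₁ := WF.cons hw hA
  have hW := has_W (P := P) he.env.1 hd.touched
  have hA' := nu_typed hC hA hw he₁.env
  obtain ⟨a', hT, hae, -⟩ := has_tp hC hA' hab
  have hT' := hT.sh hA'
  have he₂ := he₁.bind hC hw hA hab
  obtain ⟨CM, uM, hCM, hRM, hEM⟩ := (ihM _ _ _ _ _ _ hw₁ he₂ hM).1 b hB hb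
  -- the junk passed to the body
  obtain ⟨uA, XA, hRA, hXA, hbA⟩ := content hC ihA hw he₁ hA hd
  have hXA' : Jn P (g.keep .junk) (W P (jd P b) :: Δ) (UTm.up ρ) (jd P b)
      (UTm.ren Nat.succ XA) := hXA.cast (by rw [sub_up_ren_succ, UTm.ren_sub])
  have jA := hXA'.weaken2 hA' hT'
  have jJ := (jn_var hC he hb).weaken2 hA' hT'
  obtain ⟨Xx, jx, hbx⟩ := jn_bound (g := g.keep .junk) (F := UTm.up ρ) hC he₁.scope hA' hab
  obtain ⟨A₁, x₁, hbA₁, hbx₁, jI⟩ := jA.pair hC jx hd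
  obtain ⟨J₂, I₂, hbJ, hbI, jX⟩ := jJ.pair hC jI hd
  obtain ⟨-, X, hX, heX⟩ := jX
  have hIJ : UTm.RelI J₂ := hbJ.box.relI trivial
  have hIA : UTm.RelI (UTm.ren Nat.succ (UTm.ren Nat.succ XA)) :=
    UTm.relI_ren (UTm.relI_ren (hbA.box.relI ⟨hRA.relI, trivial⟩) _) _
  have hIx : UTm.RelI Xx := hbx.box.relI trivial
  have hIA₁ : UTm.RelI A₁ := hbA₁.box.relI hIA
  have hIx₁ : UTm.RelI x₁ := hbx₁.box.relI hIx
  have hII : UTm.RelI I₂ := hbI.box.relI ⟨⟨trivial, hIA₁⟩, hIx₁⟩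
  have hBoxA : Box (.app (UTm.ren (fun i => i + 2) uA) (.cst 0))
      (.app (.app (.cst 0) J₂) I₂) := by
    have h₀ := (hbA.box.ren Nat.succ).ren Nat.succ
    simp only [UTm.ren, UTm.ren_ren] at h₀
    have h₁ : Box (.app (UTm.ren (fun i => i + 2) uA) (.cst 0)) A₁ := by
      have := hbA₁.box
      rw [UTm.ren_ren] at this
      exact Box.trans h₀ this
    exact ((((h₁.appR (f := .cst 0) trivial).appL hIx₁).trans hbI.box).appR
      (f := .app (.cst 0) J₂) ⟨trivial, hIJ⟩)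
  have h₁ := St.Has.app hCM hX
  rw [St.Tm.inst_sh] at h₁
  have hPi₁ := nu_typed hC hPi hw he₁.env
  simp only [nu, srtD_eq hP hA, srtD_eq hP hB] at hPi₁
  obtain ⟨_, _, _, -, hIn, -, -⟩ := hPi₁.gen_pi
  have h₂ := St.Has.lam (St.Has.lam h₁ hIn) hPi₁
  have hTy := nu_typed hC hPi hw he.env
  have h₄ : St.Has (QS P) Δ _ (arr (W P (jd P b)) (nu P Γ τ (.pi A B))) :=
    St.Has.lam (B := St.Tm.sh (nu P Γ τ (.pi A B)))
      (by rw [St.Tm.sh, nu_tm_ren]; simp only [nu, srtD_eq hP hA, srtD_eq hP hB]; exact h₂)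
      (has_arr hW hTy hde)
  refine ⟨_, .lam (.lam (.app (UTm.ren (UTm.liftF Nat.succ) uM) (.app (.app (.cst 0) J₂) I₂))),
    retype hC hw he.env hTc hb (Or.inl ⟨_, hPi⟩) hcv h₄,
    .lam hRA hRM hBoxA ⟨⟨trivial, hIJ⟩, hII⟩
      (Or.inr (hbI.box.occ (Or.inr (hbx₁.box.occ (hbx.box.occ rfl)))))
      (Or.inl (Or.inr (hbJ.box.occ rfl))), ?_⟩
  simp only [UTm.sub]
  refine .cLam (.vLam (.vC ?_ heX))
  rw [sub_up2_lift]
  convert hEM using 1
  rw [UTm.ren_sub]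
  congr 1
  funext n
  cases n with
  | zero => rfl
  | succ n => simp only [Function.comp, UTm.up, UTm.ren_ren]; rfl

theorem real_pi (hC : OddlyConnected P) {Γ : List (Expr S)} {A B : Expr S}
    (ihA : Real P Γ A) (ihB : Real P (A :: Γ) B) : Real P Γ (.pi A B) := by
  intro Δ g τ κ ρ T hw he hD
  have hP := hC.toBasic
  obtain ⟨a, b, e, hA, hB, hr, hcv⟩ := gen_pi hD
  have heb := hP.generalized _ _ _ hr
  subst heb
  have hab := edge_of_prod hP hw hA hB hr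
  have hw₁ := WF.cons hw hA
  have hmk : ∀ (y : S) (U : St.Tm S), Tgt P y → St.Has (QS P) [] U (.srt y) →
      Tr P Γ Δ g ρ (.pi A B) (arr (W P (jd P y)) U) := by
    intro y U hy hU
    obtain ⟨hd, -⟩ := jd_spec hC hy
    have he₁ := he.junk hC hy
    have hA' := nu_typed hC hA hw he₁.env
    obtain ⟨a', hT, hae, -⟩ := has_tp hC hA' hab
    have hT' := hT.sh hA'
    have he₂ := he₁.bind hC hw hA hab
    obtain ⟨uA, XA, hRA, hXA, hbA⟩ := content hC ihA hw he₁ hA hd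
    have jA : Jn P (g.keep .junk) (W P (jd P y) :: Δ) (UTm.up ρ) (jd P y)
        (UTm.ren Nat.succ XA) := hXA.cast (by rw [sub_up_ren_succ, UTm.ren_sub])
    obtain ⟨uB, XB, hRB, hXB, hbB⟩ := content hC ihB hw₁ he₂ hB (jd_spec hC hab.tgt).1
    have jB := hXB.cast (F' := UTm.up (UTm.up ρ)) (a' := UTm.ren (UTm.liftF Nat.succ) XB) (by
      rw [sub_up2_lift, UTm.ren_sub]
      congr 1
      funext n
      cases n with
      | zero => rfl
      | succ n => simp only [Function.comp, UTm.up, UTm.ren_ren]; rfl)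
    obtain ⟨Xx, jx, hbx⟩ := jn_bound (g := g.keep .junk) (F := UTm.up ρ) hC he₁.scope hA' hab
    obtain ⟨x₁, B₁, hbx₁, hbB₁, jY⟩ := jx.pair hC jB hab.tgt
    obtain ⟨-, Y, hY, heY⟩ := jY
    have hIB : UTm.RelI B₁ := hbB₁.box.relI
      (UTm.relI_ren (hbB.box.relI ⟨hRB.relI, trivial⟩) _)
    have hIx : UTm.RelI x₁ := hbx₁.box.relI (hbx.box.relI trivial)
    have hYT := has_W (P := P) he₂.env.1 hab.2.2
    have hPi₂ := St.Has.pi hA' (St.Has.pi hT' hYT hae.1) hab.1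
    have hF := St.Has.lam (St.Has.lam hY (St.Has.pi hT' hYT hae.1)) hPi₂
    have hY0 : UTm.Occ 0 (.app (.app (.cst 0) x₁) B₁) :=
      Or.inl (Or.inr (hbx₁.box.occ (hbx.box.occ rfl)))
    obtain ⟨XF, jF, hbF⟩ := Jn.of_value hC (v₀ := .lam (.app (.app (.cst 0) x₁) B₁))
      (F := UTm.up ρ) he₁.scope hPi₂ hab.tgt hd hF (.vLam (.vE heY))
    obtain ⟨A₁, F₁, hbA₁, hbF₁, jI⟩ := jA.pair hC jF hd
    obtain ⟨J₂, I₂, hbJ, hbI, jX⟩ := (jn_var hC he hy).pair hC jI hd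
    obtain ⟨C, hC₁, hC₂⟩ := close_node hC hy hU he.env.1 jX
    have hIY : UTm.RelI (.app (.app (.cst 0) x₁) B₁) := ⟨⟨trivial, hIx⟩, hIB⟩
    have hIJ : UTm.RelI J₂ := hbJ.box.relI trivial
    have hIA : UTm.RelI A₁ := hbA₁.box.relI
      (UTm.relI_ren (hbA.box.relI ⟨hRA.relI, trivial⟩) _)
    have hIF : UTm.RelI F₁ := hbF₁.box.relI (hbF.box.relI ⟨hY0, hIY⟩)
    have hII : UTm.RelI I₂ := hbI.box.relI ⟨⟨trivial, hIA⟩, hIF⟩
    refine ⟨C, .lam (.app (.cst 0) (.app (.app (.cst 0) J₂) I₂)), hC₁,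
      .pi hRA hRB ((hbA.box.ren Nat.succ).trans hbA₁.box) ?_ hIY hY0
        (hbF.box.trans hbF₁.box) ((hbI.box.appR (f := .app (.cst 0) J₂) ⟨trivial, hIJ⟩).appR
          (f := .cst 0) trivial) ⟨trivial, ⟨trivial, hIJ⟩, hII⟩
        (Or.inr (Or.inl (Or.inr (hbJ.box.occ rfl)))), hC₂⟩
    exact ((hbB.box.ren (UTm.liftF Nat.succ)).trans hbB₁.box).appR
      (f := .app (.cst 0) x₁) ⟨trivial, hIx⟩
  refine ⟨fun c hTc hc => ?_, fun _ y hy => hmk y _ hy (W_typed hy.touched)⟩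
  obtain ⟨c', hc', he'⟩ := gen_sort (hTc.steps hw hcv.symm.steps_to_sort)
  obtain rfl : c' = c := he'.sort_eq
  obtain ⟨C, u₀, hCt, hR, hE⟩ := hmk c' _ hc (St.Has.ax hc')
  exact ⟨C, u₀, retype hC hw he.env hTc hc (Or.inr ⟨_, rfl⟩) hcv hCt, hR, hE⟩

theorem realAll (hC : OddlyConnected P) : ∀ (M : Expr S) (Γ : List (Expr S)), Real P Γ M
  | .var i, Γ => real_var hC Γ i
  | .sort s, Γ => real_sort hC Γ s
  | .app M N, Γ => real_app hC (realAll hC M Γ) (realAll hC N Γ)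
  | .lam A M, Γ => real_lam hC (realAll hC A Γ) (realAll hC M (A :: Γ))
  | .pi A B, Γ => real_pi hC (realAll hC A Γ) (realAll hC B (A :: Γ))

/-- A closed environment for every context. -/
theorem root_env (hC : OddlyConnected P) (hT : ∃ y, Tgt P y) {Γ : List (Expr S)} (hw : WF P Γ) :
    ∃ τ κ, EnvR P Γ [] (fun _ => (.nu, 0)) τ κ (fun _ => .cst 0) := by
  have hP := hC.toBasic
  induction hw with
  | nil =>
    exact ⟨fun _ => jk P default, fun _ => jk P default, ⟨.nil, fun i A h => by cases h⟩, .nil,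
      (fun i A h => by cases h), (fun i A a h => by cases h), fun i A a h => by cases h⟩
  | @cons Γ A s hw hA ih =>
    obtain ⟨τ, κ, he⟩ := ih
    have hA' := nu_typed hC hA hw he.env
    obtain ⟨y, hy⟩ := hT
    let U : St.Tm S := open Classical in
      if Tgt P s then arr (W P (jd P s)) (nu P Γ τ A) else arr (W P (jd P y)) (W P y)
    have hU : ∃ t, St.Has (QS P) [] U (.srt t) := by
      simp only [U]
      split
      · next hs =>
        obtain ⟨hd, hde⟩ := jd_spec hC hs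
        exact ⟨_, has_arr (W_typed hd.touched) hA' hde⟩
      · obtain ⟨hd, hde⟩ := jd_spec hC hy
        exact ⟨_, has_arr (W_typed hd.touched) (W_typed hy.touched) hde⟩
    obtain ⟨t, hU⟩ := hU
    let τ' : ℕ → St.Tm S := fun i =>
      match i with | 0 => .cst 0 (nu P Γ τ A) | n + 1 => τ n
    let κ' : ℕ → St.Tm S := fun i => match i with | 0 => .cst 0 U | n + 1 => κ n
    have hsh : ∀ B u, D P Γ B (.sort u) → nu P (A :: Γ) τ' B.shift = nu P Γ τ B := by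
      intro B u hB
      rw [Expr.shift, nu_ren hP B τ' hw (WF.cons hw hA) (TRen.shift Γ A) hB]
      rfl
    refine ⟨τ', κ', ⟨.nil, ?_⟩, .nil, ?_, ?_, ?_⟩
    · intro i B hl
      cases hl with
      | zero => rw [hsh A s hA]; exact St.Has.cst 0 trivial hA'
      | @succ _ _ B₀ j hl =>
        obtain ⟨u, hu⟩ := hw.lookup hl
        rw [hsh B₀ u hu]; exact he.env.2 j B₀ hl
    · intro i B hl
      cases hl with
      | zero => exact .cCst
      | @succ _ _ B₀ j hl => exact he.erased j B₀ hl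
    · intro i B c hl hB hc
      cases hl with
      | zero =>
        obtain rfl : c = s := D.sort_unique hP hB (hA.weaken A)
        rw [hsh A c hA]
        have := St.Has.cst (P := QS P) 0 trivial hU
        simp only [U, hc, if_true] at this ⊢
        simp only [κ', U, hc, if_true]
        exact this
      | @succ _ _ B₀ j hl =>
        obtain ⟨u, hu⟩ := hw.lookup hl
        obtain rfl : c = u := D.sort_unique hP hB (hu.weaken A)
        rw [hsh B₀ c hu]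
        exact he.active j B₀ c hl hu hc
    · intro i B c hl hB hc
      cases hl with
      | zero =>
        obtain rfl : c = s := D.sort_unique hP hB (hA.weaken A)
        have := St.Has.cst (P := QS P) 0 trivial hU
        refine ⟨y, hy, ?_⟩
        simp only [U, hc, if_false] at this ⊢
        simp only [κ', U, hc, if_false]
        exact this
      | @succ _ _ B₀ j hl =>
        obtain ⟨u, hu⟩ := hw.lookup hl
        obtain rfl : c = u := D.sort_unique hP hB (hu.weaken A)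
        exact he.passive j B₀ c hl hu hc

end Vale.Agent.P340.Oc
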