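import Vale.Agent.P340.OcEr

/-!
# The shape of erased translations and the simulation of β-steps

`Rel P Γ M u` says that `u` has the shape of an erased memory translation of `M`. Such terms are
lambda-I terms, the shape is closed under substitution, and every β-step of `M` is simulated by
at least one step of `u`.
-/

namespace Vale.Agent.P340.Oc

open Relation
open St (UTm)

universe u
variable {S : Type u}

/-! ### Boxes -/

/-- `X` is a lambda-I context filled with `v`, with at least one occurrence of `v`. -/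
def Box (v X : UTm) : Prop := ∃ Z, UTm.RelI Z ∧ UTm.Occ 0 Z ∧ X = UTm.inst Z v

theorem Box.refl (v : UTm) : Box v v := ⟨.var 0, trivial, rfl, rfl⟩

theorem relI_scons {v : UTm} (hv : UTm.RelI v) : ∀ n, UTm.RelI (UTm.scons v .var n)
  | 0 => hv
  | _ + 1 => trivial

theorem Box.relI {v X : UTm} (h : Box v X) (hv : UTm.RelI v) : UTm.RelI X := by
  obtain ⟨Z, hI, -, rfl⟩ := h
  exact UTm.relI_sub hI _ (relI_scons hv)

theorem Box.occ {v X : UTm} (h : Box v X) {i : ℕ} (hv : UTm.Occ i v) : UTm.Occ i X := by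
  obtain ⟨Z, -, h0, rfl⟩ := h
  exact (UTm.occ_sub _ _ _).2 ⟨0, h0, hv⟩

theorem inst_shift (M v : UTm) : UTm.inst (UTm.ren Nat.succ M) v = M := by
  rw [UTm.inst, UTm.sub_ren]
  exact UTm.sub_var M

theorem Box.appR {v X : UTm} (h : Box v X) {f : UTm} (hf : UTm.RelI f) :
    Box v (.app f X) := by
  obtain ⟨Z, hI, h0, rfl⟩ := h
  refine ⟨.app (UTm.ren Nat.succ f) Z, ⟨UTm.relI_ren hf _, hI⟩, Or.inr h0, ?_⟩
  show _ = UTm.app (UTm.inst (UTm.ren Nat.succ f) v) (UTm.inst Z v)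
  rw [inst_shift]

theorem Box.appL {v X : UTm} (h : Box v X) {a : UTm} (ha : UTm.RelI a) :
    Box v (.app X a) := by
  obtain ⟨Z, hI, h0, rfl⟩ := h
  refine ⟨.app Z (UTm.ren Nat.succ a), ⟨hI, UTm.relI_ren ha _⟩, Or.inl h0, ?_⟩
  show _ = UTm.app (UTm.inst Z v) (UTm.inst (UTm.ren Nat.succ a) v)
  rw [inst_shift]

theorem Box.trans {v w X : UTm} (h : Box v w) (h' : Box w X) : Box v X := by
  obtain ⟨Z, hI, h0, rfl⟩ := h
  obtain ⟨Z', hI', h0', rfl⟩ := h'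
  refine ⟨UTm.sub (UTm.scons Z fun n => .var (n + 1)) Z', UTm.relI_sub hI' _ ?_,
    (UTm.occ_sub _ _ _).2 ⟨0, h0', h0⟩, ?_⟩
  · rintro (_ | n)
    · exact hI
    · trivial
  · simp only [UTm.inst, UTm.sub_sub]
    congr 1
    funext n; cases n <;> rfl

theorem Box.sub {v X : UTm} (h : Box v X) {f : ℕ → UTm} (hf : ∀ n, UTm.RelI (f n)) :
    Box (UTm.sub f v) (UTm.sub f X) := by
  obtain ⟨Z, hI, h0, rfl⟩ := h
  refine ⟨UTm.sub (UTm.up f) Z, UTm.relI_sub hI _ ?_, (UTm.occ_sub _ _ _).2 ⟨0, h0, rfl⟩,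
    UTm.sub_inst _ _ _⟩
  rintro (_ | n)
  · trivial
  · exact UTm.relI_ren (hf n) _

theorem Box.ren {v X : UTm} (h : Box v X) (f : ℕ → ℕ) :
    Box (UTm.ren f v) (UTm.ren f X) := by
  rw [UTm.ren_eq_sub, UTm.ren_eq_sub]; exact h.sub fun _ => trivial

/-- At least one step. -/
abbrev Plus : UTm → UTm → Prop := TransGen UTm.Step

theorem Plus.map {f : UTm → UTm} (hf : ∀ a b, UTm.Step a b → UTm.Step (f a) (f b)) {a b : UTm}
    (h : Plus a b) : Plus (f a) (f b) := by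
  induction h with
  | single h => exact .single (hf _ _ h)
  | tail _ h ih => exact ih.tail (hf _ _ h)

theorem Plus.lam {a b : UTm} (h : Plus a b) : Plus (.lam a) (.lam b) :=
  h.map fun _ _ h => UTm.Step.lamB h

theorem Plus.appL {a b : UTm} (h : Plus a b) (c : UTm) : Plus (.app a c) (.app b c) :=
  h.map (f := fun x => UTm.app x c) fun _ _ h => UTm.Step.appL c h

theorem Plus.appR {a b : UTm} (h : Plus a b) (c : UTm) : Plus (.app c a) (.app c b) :=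
  h.map (f := fun x => UTm.app c x) fun _ _ h => UTm.Step.appR c h

theorem Plus.ren {a b : UTm} (h : Plus a b) (f : ℕ → ℕ) : Plus (UTm.ren f a) (UTm.ren f b) :=
  h.map fun _ _ h => h.ren f

theorem plus_relI {a b : UTm} (h : UTm.Steps a b) :
    UTm.RelI a → UTm.RelI b ∧ ∀ i, UTm.Occ i a → UTm.Occ i b := by
  induction h with
  | refl => exact fun hI => ⟨hI, fun _ h => h⟩
  | tail _ hb ih =>
    intro hI
    obtain ⟨h₁, h₂⟩ := ih hI
    obtain ⟨h₃, h₄⟩ := UTm.relI_step hb h₁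
    exact ⟨h₃, fun i hi => h₄ i (h₂ i hi)⟩

theorem plus_sub (Z : UTm) : ∀ {i : ℕ} {f g : ℕ → UTm}, UTm.Occ i Z →
    (∀ n, UTm.Steps (f n) (g n)) → Plus (f i) (g i) → Plus (UTm.sub f Z) (UTm.sub g Z) := by
  induction Z with
  | var n => intro i f g h _ hi; cases h; exact hi
  | cst c => intro i f g h; exact h.elim
  | app a b ha hb =>
    intro i f g h hs hi
    rcases h with h | h
    · exact TransGen.trans_left (Plus.appL (ha h hs hi) _)
        (UTm.Steps.app .refl (UTm.Steps.sub_arg b f g hs))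
    · exact TransGen.trans_left (Plus.appR (hb h hs hi) _)
        (UTm.Steps.app (UTm.Steps.sub_arg a f g hs) .refl)
  | lam b hb =>
    intro i f g h hs hi
    exact Plus.lam (hb (i := i + 1) h (UTm.Steps.up hs) (hi.ren _))

theorem Box.step {v v' X : UTm} (h : Box v X) (hs : Plus v v') :
    ∃ X', Plus X X' ∧ Box v' X' := by
  obtain ⟨Z, hI, h0, rfl⟩ := h
  refine ⟨UTm.inst Z v', plus_sub Z h0 ?_ hs, Z, hI, h0, rfl⟩
  rintro (_ | n)
  · exact hs.to_reflTransGen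
  · exact .refl

/-! ### Atoms -/

/-- An expression whose colour is not the sort of a product. -/
def Atom (P : Spec S) (Γ : List (Expr S)) (M : Expr S) : Prop :=
  ∀ c, HasCol P Γ M c → ¬ Tgt P c

variable {P : Spec S}

theorem Atom.map (hP : Basic P) {Γ Δ : List (Expr S)} {σ : ℕ → Expr S} (hw : WF P Γ)
    (hwΔ : WF P Δ) (hσ : TSub P σ Γ Δ) {M T : Expr S} (hM : D P Γ M T) (ha : Atom P Γ M) :
    Atom P Δ (M.sub σ) := by
  intro c hc
  rcases hM.correctness hw with ⟨t, rfl⟩ | ⟨s, hs⟩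
  · obtain ⟨T', hT', hc'⟩ := hc
    have hconv := D.unique hP hT' (hM.sub hσ)
    obtain ⟨c', hc'', he⟩ := gen_sort (hc'.steps hwΔ hconv.steps_to_sort)
    obtain rfl : c' = c := he.sort_eq
    exact ha c' ⟨_, hM, D.axm hc''⟩
  · obtain rfl : c = s := HasCol.unique hP hwΔ hc ⟨_, hM.sub hσ, hs.sub hσ⟩
    exact ha c ⟨T, hM, hs⟩

theorem Atom.step (hP : Basic P) {Γ : List (Expr S)} (hw : WF P Γ) {M M' T : Expr S}
    (hM : D P Γ M T) (hb : Beta M M') (ha : Atom P Γ M) : Atom P Γ M' := by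
  intro c hc
  have hM' := subject_reduction hM hw hb
  rcases hM.correctness hw with ⟨t, rfl⟩ | ⟨s, hs⟩
  · obtain ⟨T', hT', hc'⟩ := hc
    obtain ⟨c', hc'', he⟩ := gen_sort (hc'.steps hw (D.unique hP hT' hM').steps_to_sort)
    obtain rfl : c' = c := he.sort_eq
    exact ha c' ⟨_, hM, D.axm hc''⟩
  · obtain rfl : c = s := HasCol.unique hP hw hc ⟨_, hM', hs⟩
    exact ha c ⟨T, hM, hs⟩

/-- Abstractions are not atoms. -/
theorem not_atom_lam (hP : Basic P) {Γ : List (Expr S)} (hw : WF P Γ) {A M T : Expr S}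
    (h : D P Γ (.lam A M) T) : ¬ Atom P Γ (.lam A M) := by
  intro ha
  obtain ⟨a, b, B, hA, hM, hB, hr, hPi, -, -⟩ := body_col hP h
  exact ha b ⟨_, D.abs hM hPi, hPi⟩ (edge_of_prod hP hw hA hB hr).tgt

/-! ### The shape relation -/

/-- `u` has the shape of an erased memory translation of `M`. -/
inductive Rel (P : Spec S) : List (Expr S) → Expr S → UTm → Prop
  | var {Γ : List (Expr S)} (i : ℕ) : Rel P Γ (.var i) (.var i)
  | sort {Γ : List (Expr S)} (s : S) {X : UTm} :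
      UTm.RelI X → UTm.Occ 0 X → Rel P Γ (.sort s) (.lam X)
  | lam {Γ : List (Expr S)} {A M : Expr S} {uA uM X : UTm} :
      Rel P Γ A uA → Rel P (A :: Γ) M uM →
      Box (.app (UTm.ren (fun i => i + 2) uA) (.cst 0)) X →
      UTm.RelI X → UTm.Occ 0 X → UTm.Occ 1 X →
      Rel P Γ (.lam A M) (.lam (.lam (.app (UTm.ren (UTm.liftF Nat.succ) uM) X)))
  | app {Γ : List (Expr S)} {M N : Expr S} {uM uN X : UTm} :
      Rel P Γ M uM → Rel P Γ N uN → UTm.RelI X → UTm.Occ 0 X →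
      Rel P Γ (.app M N) (.lam (.app (.app (UTm.ren Nat.succ uM) X) (UTm.ren Nat.succ uN)))
  | pi {Γ : List (Expr S)} {A B : Expr S} {uA uB XA XF Y X : UTm} :
      Rel P Γ A uA → Rel P (A :: Γ) B uB →
      Box (.app (UTm.ren Nat.succ uA) (.cst 0)) XA →
      Box (.app (UTm.ren (UTm.liftF Nat.succ) uB) (.cst 0)) Y →
      UTm.RelI Y → UTm.Occ 0 Y → Box (.lam Y) XF →
      Box (.app (.app (.cst 0) XA) XF) X → UTm.RelI X → UTm.Occ 0 X →
      Rel P Γ (.pi A B) (.lam X)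
  | wrap {Γ : List (Expr S)} {M : Expr S} {u X : UTm} :
      Rel P Γ M u → UTm.RelI X → UTm.Occ 0 X →
      Rel P Γ M (.lam (.app (UTm.ren Nat.succ u) X))
  | wrapC {Γ : List (Expr S)} {M : Expr S} {u X X' : UTm} :
      Rel P Γ M u → Atom P Γ M → UTm.RelI X → UTm.Occ 0 X →
      Box (.app (UTm.ren Nat.succ u) X) X' →
      Rel P Γ M (.lam X')

theorem Rel.relI {Γ : List (Expr S)} {M : Expr S} {u : UTm} (h : Rel P Γ M u) : UTm.RelI u := by
  induction h with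
  | var i => trivial
  | sort _ hI h0 => exact ⟨h0, hI⟩
  | lam _ _ _ hI h0 h1 _ ih₂ =>
    exact ⟨Or.inr h1, Or.inr h0, UTm.relI_ren ih₂ _, hI⟩
  | app _ _ hI h0 ih₁ ih₂ =>
    exact ⟨Or.inl (Or.inr h0), ⟨UTm.relI_ren ih₁ _, hI⟩, UTm.relI_ren ih₂ _⟩
  | pi _ _ _ _ _ _ _ _ hI h0 => exact ⟨h0, hI⟩
  | wrap _ hI h0 ih => exact ⟨Or.inr h0, UTm.relI_ren ih _, hI⟩
  | wrapC _ _ hI h0 hX ih =>
    exact ⟨hX.occ (Or.inr h0), hX.relI ⟨UTm.relI_ren ih _, hI⟩⟩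

theorem sub_up_ren_succ (f : ℕ → UTm) (u : UTm) :
    UTm.sub (UTm.up f) (UTm.ren Nat.succ u) = UTm.ren Nat.succ (UTm.sub f u) := by
  rw [UTm.sub_ren, UTm.ren_sub]; rfl

theorem sub_up2_ren (f : ℕ → UTm) (u : UTm) :
    UTm.sub (UTm.up (UTm.up f)) (UTm.ren (fun i => i + 2) u) =
      UTm.ren (fun i => i + 2) (UTm.sub f u) := by
  rw [UTm.sub_ren, UTm.ren_sub]
  congr 1
  funext n
  simp only [Function.comp, UTm.up, UTm.ren_ren]
  rfl

theorem sub_up2_lift (f : ℕ → UTm) (u : UTm) :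
    UTm.sub (UTm.up (UTm.up f)) (UTm.ren (UTm.liftF Nat.succ) u) =
      UTm.ren (UTm.liftF Nat.succ) (UTm.sub (UTm.up f) u) := by
  rw [UTm.sub_ren, UTm.ren_sub]
  congr 1
  funext n
  cases n with
  | zero => rfl
  | succ n => simp only [Function.comp, UTm.up, UTm.liftF, UTm.ren_ren]; rfl

theorem relI_up {f : ℕ → UTm} (hf : ∀ n, UTm.RelI (f n)) : ∀ n, UTm.RelI (UTm.up f n)
  | 0 => trivial
  | n + 1 => UTm.relI_ren (hf n) _

theorem occ_up_zero {f : ℕ → UTm} {X : UTm} (h : UTm.Occ 0 X) :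
    UTm.Occ 0 (UTm.sub (UTm.up f) X) :=
  (UTm.occ_sub _ _ _).2 ⟨0, h, rfl⟩

/-- The generic substitution step, given the images of the variables under binders. -/
theorem Rel.sub_gen (hP : Basic P) {Pr : List (Expr S) → Expr S → UTm → Prop}
    (hPr : ∀ Δ M u, Pr Δ M u → Rel P Δ M u) (h0 : ∀ Δ, Pr Δ (.var 0) (.var 0))
    (hsh : ∀ Δ A s M u T, WF P Δ → D P Δ A (.sort s) → D P Δ M T → Pr Δ M u →
      Pr (A :: Δ) M.shift (UTm.ren Nat.succ u))
    {Γ : List (Expr S)} {M : Expr S} {u : UTm} (h : Rel P Γ M u) :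
    ∀ {Δ : List (Expr S)} {σ : ℕ → Expr S} {T : Expr S} {f : ℕ → UTm}, WF P Γ → WF P Δ →
      TSub P σ Γ Δ → D P Γ M T → (∀ i A, Lookup Γ i A → Pr Δ (σ i) (f i)) →
      (∀ n, UTm.RelI (f n)) → Rel P Δ (M.sub σ) (UTm.sub f u) := by
  have hup : ∀ {Γ Δ : List (Expr S)} {σ : ℕ → Expr S} {f : ℕ → UTm} {A : Expr S} {a : S},
      WF P Δ → TSub P σ Γ Δ → D P Γ A (.sort a) →
      (∀ i B, Lookup Γ i B → Pr Δ (σ i) (f i)) →
      ∀ i B, Lookup (A :: Γ) i B → Pr (A.sub σ :: Δ) (Expr.up σ i) (UTm.up f i) := by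
    intro Γ Δ σ f A a hwΔ hσ hA hf i B hB
    cases hB with
    | zero => exact h0 _
    | @succ _ _ B₀ j hB => exact hsh _ _ a _ _ _ hwΔ (hA.sub hσ) (hσ j B₀ hB) (hf j B₀ hB)
  induction h with
  | var i =>
    intro Δ σ T f _ _ _ hM hf _
    obtain ⟨A, hA, -⟩ := gen_var hM
    exact hPr _ _ _ (hf i A hA)
  | sort s hI h0 =>
    intro Δ σ T f _ _ _ _ _ hR
    exact .sort s (UTm.relI_sub hI _ (relI_up hR)) (occ_up_zero h0)
  | @lam Γ A M uA uM X _ _ hB hI hx hJ ihA ihM =>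
    intro Δ σ T f hwΓ hwΔ hσ h hf hR
    obtain ⟨a, b, B, hA, hM, -, -, -, -, -⟩ := body_col hP h
    simp only [Expr.sub, UTm.sub]
    rw [sub_up2_lift]
    refine .lam (ihA hwΓ hwΔ hσ hA hf hR)
      (ihM (WF.cons hwΓ hA) (WF.cons hwΔ (hA.sub hσ)) (hσ.up A) hM (hup hwΔ hσ hA hf)
        (relI_up hR)) ?_ (UTm.relI_sub hI _ (relI_up (relI_up hR))) (occ_up_zero hx) ?_
    · have := hB.sub (relI_up (relI_up hR))
      simp only [UTm.sub] at this
      rwa [sub_up2_ren] at this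
    · exact (UTm.occ_sub _ _ _).2 ⟨1, hJ, rfl⟩
  | @app Γ M N uM uN X _ _ hI hJ ihM ihN =>
    intro Δ σ T f hwΓ hwΔ hσ h hf hR
    obtain ⟨A, B, a, b, hM, hN, -, -, -, -, -, -, -⟩ := app_col hP hwΓ h
    simp only [Expr.sub, UTm.sub, sub_up_ren_succ]
    exact .app (ihM hwΓ hwΔ hσ hM hf hR) (ihN hwΓ hwΔ hσ hN hf hR)
      (UTm.relI_sub hI _ (relI_up hR)) (occ_up_zero hJ)
  | @pi Γ A B uA uB XA XF Y X _ _ hA' hB' hY hY0 hF hX hI hJ ihA ihB =>
    intro Δ σ T f hwΓ hwΔ hσ h hf hR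
    obtain ⟨a, b, c, hA, hB, -, -⟩ := gen_pi h
    simp only [Expr.sub, UTm.sub]
    have h₁ := hA'.sub (relI_up hR)
    have h₂ := hB'.sub (relI_up (relI_up hR))
    have h₃ := hF.sub (relI_up hR)
    have h₄ := hX.sub (relI_up hR)
    simp only [UTm.sub, sub_up_ren_succ, sub_up2_lift] at h₁ h₂ h₃ h₄
    exact .pi (ihA hwΓ hwΔ hσ hA hf hR)
      (ihB (WF.cons hwΓ hA) (WF.cons hwΔ (hA.sub hσ)) (hσ.up A) hB (hup hwΔ hσ hA hf)
        (relI_up hR)) h₁ h₂ (UTm.relI_sub hY _ (relI_up (relI_up hR))) (occ_up_zero hY0) h₃ h₄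
      (UTm.relI_sub hI _ (relI_up hR)) (occ_up_zero hJ)
  | @wrap Γ M u X _ hI hJ ih =>
    intro Δ σ T f hwΓ hwΔ hσ h hf hR
    simp only [UTm.sub, sub_up_ren_succ]
    exact .wrap (ih hwΓ hwΔ hσ h hf hR) (UTm.relI_sub hI _ (relI_up hR)) (occ_up_zero hJ)
  | @wrapC Γ M u X X' _ ha hI hJ hX ih =>
    intro Δ σ T f hwΓ hwΔ hσ h hf hR
    have h₁ := hX.sub (relI_up hR)
    simp only [UTm.sub, sub_up_ren_succ] at h₁ ⊢
    exact .wrapC (ih hwΓ hwΔ hσ h hf hR) (ha.map hP hwΓ hwΔ hσ h)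
      (UTm.relI_sub hI _ (relI_up hR)) (occ_up_zero hJ) h₁

theorem Rel.shift (hP : Basic P) {Δ : List (Expr S)} {A M T : Expr S} {s : S} {u : UTm}
    (hw : WF P Δ) (hA : D P Δ A (.sort s)) (hM : D P Δ M T) (h : Rel P Δ M u) :
    Rel P (A :: Δ) M.shift (UTm.ren Nat.succ u) := by
  rw [Expr.shift, Expr.ren_eq_sub, UTm.ren_eq_sub]
  refine h.sub_gen hP (Pr := fun _ M u => ∃ i, M = Expr.var i ∧ u = UTm.var i) ?_
    (fun _ => ⟨0, rfl, rfl⟩) ?_ hw (WF.cons hw hA) (fun i B hB => ?_) hM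
    (fun i _ _ => ⟨i + 1, rfl, rfl⟩) (fun _ => trivial)
  · rintro Δ M u ⟨i, rfl, rfl⟩; exact .var i
  · rintro Δ A s M u T _ _ _ ⟨i, rfl, rfl⟩; exact ⟨i + 1, rfl, rfl⟩
  · rw [← Expr.ren_eq_sub]
    exact D.var (Lookup.succ hB)

theorem Rel.sub (hP : Basic P) {Γ Δ : List (Expr S)} {M T : Expr S} {u : UTm}
    (h : Rel P Γ M u) {σ : ℕ → Expr S} {f : ℕ → UTm} (hw : WF P Γ) (hwΔ : WF P Δ)
    (hσ : TSub P σ Γ Δ) (hM : D P Γ M T)
    (hf : ∀ i A, Lookup Γ i A → Rel P Δ (σ i) (f i)) (hR : ∀ n, UTm.RelI (f n)) :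
    Rel P Δ (M.sub σ) (UTm.sub f u) :=
  h.sub_gen hP (Pr := Rel P) (fun _ _ _ h => h) (fun _ => .var 0)
    (fun _ _ _ _ _ _ hw hA hM h => h.shift hP hw hA hM) hw hwΔ hσ hM hf hR

theorem Rel.changeHead (hP : Basic P) {Γ : List (Expr S)} {A A' M T : Expr S} {a : S} {u : UTm}
    (hw : WF P Γ) (hA : D P Γ A (.sort a)) (hA' : D P Γ A' (.sort a))
    (hc : Vale.Agent.P340.Conv A A') (hM : D P (A :: Γ) M T) (h : Rel P (A :: Γ) M u) :
    Rel P (A' :: Γ) M u := by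
  have := h.sub hP (σ := Expr.var) (f := UTm.var) (WF.cons hw hA) (WF.cons hw hA')
    (TSub.changeHead hA hc) hM (fun i _ _ => .var i) (fun _ => trivial)
  rwa [Expr.sub_var, UTm.sub_var] at this

/-- The shape of an abstraction is reached by reduction. -/
theorem Rel.lam_form (hP : Basic P) {Γ : List (Expr S)} {L : Expr S} {u : UTm}
    (h : Rel P Γ L u) : ∀ {A M T : Expr S}, L = .lam A M → WF P Γ → D P Γ L T →
      ∃ uA uM X, UTm.Steps u (.lam (.lam (.app (UTm.ren (UTm.liftF Nat.succ) uM) X))) ∧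
        Rel P (A :: Γ) M uM ∧ Box (.app (UTm.ren (fun i => i + 2) uA) (.cst 0)) X ∧
        UTm.RelI X ∧ UTm.Occ 0 X ∧ UTm.Occ 1 X := by
  induction h with
  | var i => intro A M T e; cases e
  | sort => intro A M T e; cases e
  | app => intro A M T e; cases e
  | pi => intro A M T e; cases e
  | @lam Γ A M uA uM X _ hM hB hI hx hJ _ _ =>
    intro A' M' T e _ _
    cases e
    exact ⟨uA, uM, X, .refl, hM, hB, hI, hx, hJ⟩
  | @wrap Γ L u X₀ _ hI₀ hJ₀ ih =>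
    intro A M T e hw hD
    obtain ⟨uA, uM, X, hs, hM, hB, hI, hx, hJ⟩ := ih e hw hD
    refine ⟨uA, uM, UTm.sub (UTm.up (UTm.scons X₀ .var))
      (UTm.ren (UTm.liftF (UTm.liftF Nat.succ)) X), ?_, hM, ?_, ?_, ?_, ?_⟩
    · refine ReflTransGen.trans (UTm.Steps.lam (UTm.Steps.app
        (hs.lift _ fun _ _ h => h.ren Nat.succ) .refl)) (.single (.lamB ?_))
      have e₁ : UTm.sub (UTm.up (UTm.scons X₀ .var)) (UTm.ren (UTm.liftF (UTm.liftF Nat.succ))
          (UTm.ren (UTm.liftF Nat.succ) uM)) = UTm.ren (UTm.liftF Nat.succ) uM := by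
        simp only [UTm.sub_ren]
        rw [UTm.ren_eq_sub]
        congr 1
        funext n; cases n <;> rfl
      simp only [UTm.ren]
      have hb := UTm.Step.beta
        (UTm.lam (.app (UTm.ren (UTm.liftF (UTm.liftF Nat.succ))
          (UTm.ren (UTm.liftF Nat.succ) uM)) (UTm.ren (UTm.liftF (UTm.liftF Nat.succ)) X))) X₀
      simp only [UTm.inst, UTm.sub, e₁] at hb
      exact hb
    · have := (hB.ren (UTm.liftF (UTm.liftF Nat.succ))).sub
        (f := UTm.up (UTm.scons X₀ .var)) (relI_up (relI_scons hI₀))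
      have e₂ : UTm.sub (UTm.up (UTm.scons X₀ .var)) (UTm.ren (UTm.liftF (UTm.liftF Nat.succ))
          (UTm.ren (fun i => i + 2) uA)) = UTm.ren (fun i => i + 2) uA := by
        simp only [UTm.sub_ren]
        rw [UTm.ren_eq_sub]
        congr 1
      simp only [UTm.ren, UTm.sub, e₂] at this
      exact this
    · exact UTm.relI_sub (UTm.relI_ren hI _) _ (relI_up (relI_scons hI₀))
    · exact occ_up_zero ((UTm.occ_ren _ _ _).2 ⟨0, hx, rfl⟩)
    · refine (UTm.occ_sub _ _ _).2 ⟨1, (UTm.occ_ren _ _ _).2 ⟨1, hJ, rfl⟩, ?_⟩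
      exact (UTm.occ_ren _ _ _).2 ⟨0, hJ₀, rfl⟩
  | wrapC _ ha => intro A M T e hw hD; subst e; exact absurd ha (not_atom_lam hP hw hD)

/-- Every β-step is simulated by at least one step. -/
theorem Rel.sim (hP : Basic P) {Γ : List (Expr S)} {M : Expr S} {u : UTm}
    (h : Rel P Γ M u) : ∀ {M' T : Expr S}, WF P Γ → D P Γ M T → Beta M M' →
      ∃ u', Plus u u' ∧ Rel P Γ M' u' := by
  induction h with
  | var i => intro M' T _ _ hb; cases hb
  | sort => intro M' T _ _ hb; cases hb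
  | @lam Γ A M uA uM X hA hM hB hI hx hJ ihA ihM =>
    intro M' T hw hD hb
    obtain ⟨a, b, B, hA₀, hM₀, -, -, -, -, -⟩ := body_col hP hD
    cases hb with
    | lamL _ hb =>
      obtain ⟨uA', hs, hA'⟩ := ihA hw hA₀ hb
      obtain ⟨X', hX, hB'⟩ := hB.step (Plus.appL (hs.ren _) _)
      obtain ⟨hI', hocc⟩ := plus_relI hX.to_reflTransGen hI
      exact ⟨_, Plus.lam (Plus.lam (Plus.appR hX _)),
        .lam hA' (hM.changeHead hP hw hA₀ (subject_reduction hA₀ hw hb)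
          (Vale.Agent.P340.Conv.step hb) hM₀) hB' hI' (hocc 0 hx) (hocc 1 hJ)⟩
    | lamR _ hb =>
      obtain ⟨uM', hs, hM'⟩ := ihM (WF.cons hw hA₀) hM₀ hb
      exact ⟨_, Plus.lam (Plus.lam (Plus.appL (hs.ren _) _)), .lam hA hM' hB hI hx hJ⟩
  | @app Γ M N uM uN X hM hN hI hJ ihM ihN =>
    intro M' T hw hD hb
    obtain ⟨A, B, a, b, hM₀, hN₀, -, -, -, -, -, -, -⟩ := app_col hP hw hD
    cases hb with
    | appL _ hb =>
      obtain ⟨uM', hs, hM'⟩ := ihM hw hM₀ hb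
      exact ⟨_, Plus.lam (Plus.appL (Plus.appL (hs.ren _) _) _), .app hM' hN hI hJ⟩
    | appR _ hb =>
      obtain ⟨uN', hs, hN'⟩ := ihN hw hN₀ hb
      exact ⟨_, Plus.lam (Plus.appR (hs.ren _) _), .app hM hN' hI hJ⟩
    | redex A₀ B₀ _ =>
      obtain ⟨a₀, b₀, C₀, hA₀, hB₀, -, -, -, -, hc⟩ := body_col hP hM₀
      have hN₁ : D P Γ N A₀ := D.conv hN₀ hA₀ hc.pi_inj.1.symm
      obtain ⟨uA, uB, X₁, hs, hB, -, hI₁, hx₁, hJ₁⟩ := hM.lam_form hP rfl hw hM₀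
      have hNI := UTm.relI_ren hN.relI Nat.succ
      let X₂ := UTm.inst (UTm.sub (UTm.up (UTm.scons X .var))
        (UTm.ren (UTm.liftF (UTm.liftF Nat.succ)) X₁)) (UTm.ren Nat.succ uN)
      have hI₂ : UTm.RelI X₂ := UTm.relI_sub
        (UTm.relI_sub (UTm.relI_ren hI₁ _) _ (relI_up (relI_scons hI))) _ (relI_scons hNI)
      have hJ₂ : UTm.Occ 0 X₂ := (UTm.occ_sub _ _ _).2 ⟨1, (UTm.occ_sub _ _ _).2
        ⟨1, (UTm.occ_ren _ _ _).2 ⟨1, hJ₁, rfl⟩, (UTm.occ_ren _ _ _).2 ⟨0, hJ, rfl⟩⟩, rfl⟩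
      refine ⟨.lam (.app (UTm.ren Nat.succ (UTm.sub (UTm.scons uN .var) uB)) X₂), ?_,
        .wrap ?_ hI₂ hJ₂⟩
      · refine TransGen.trans_right (UTm.Steps.lam (UTm.Steps.app (UTm.Steps.app
          (hs.lift _ fun _ _ h => h.ren Nat.succ) .refl) .refl)) ?_
        refine TransGen.head (.lamB (.appL _ (.beta _ _))) (.single (.lamB ?_))
        simp only [UTm.ren, UTm.inst, UTm.sub]
        convert UTm.Step.beta _ _ using 1
        simp only [X₂, UTm.inst, UTm.sub, UTm.sub_ren, UTm.sub_sub, UTm.ren_sub]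
        congr 2
        funext n; cases n <;> rfl
      · refine hB.sub hP (WF.cons hw hA₀) hw (TSub.inst hN₁) hB₀ ?_ (relI_scons hN.relI)
        intro i C hC
        cases hC with
        | zero => exact hN
        | @succ _ _ _ j _ => exact .var j
  | @pi Γ A B uA uB XA XF Y X hA hB hA' hB' hY hY0 hF hX hI hJ ihA ihB =>
    intro M' T hw hD hb
    obtain ⟨a, b, c, hA₀, hB₀, -, -⟩ := gen_pi hD
    cases hb with
    | piL _ hb =>
      obtain ⟨uA', hs, hA₁⟩ := ihA hw hA₀ hb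
      obtain ⟨XA', h₁, hA₂⟩ := hA'.step (Plus.appL (hs.ren _) _)
      obtain ⟨X', h₂, hX'⟩ := hX.step (Plus.appL (Plus.appR h₁ _) _)
      obtain ⟨hI', hocc⟩ := plus_relI h₂.to_reflTransGen hI
      exact ⟨_, Plus.lam h₂, .pi hA₁ (hB.changeHead hP hw hA₀ (subject_reduction hA₀ hw hb)
        (Vale.Agent.P340.Conv.step hb) hB₀) hA₂ hB' hY hY0 hF hX' hI' (hocc 0 hJ)⟩
    | piR _ hb =>
      obtain ⟨uB', hs, hB₁⟩ := ihB (WF.cons hw hA₀) hB₀ hb
      obtain ⟨Y', h₀, hB₂⟩ := hB'.step (Plus.appL (hs.ren _) _)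
      obtain ⟨hY', hoccY⟩ := plus_relI h₀.to_reflTransGen hY
      obtain ⟨XF', h₁, hF'⟩ := hF.step (Plus.lam h₀)
      obtain ⟨X', h₂, hX'⟩ := hX.step (Plus.appR h₁ _)
      obtain ⟨hI', hocc⟩ := plus_relI h₂.to_reflTransGen hI
      exact ⟨_, Plus.lam h₂, .pi hA hB₁ hA' hB₂ hY' (hoccY 0 hY0) hF' hX' hI' (hocc 0 hJ)⟩
  | @wrap Γ M u X hM hI hJ ih =>
    intro M' T hw hD hb
    obtain ⟨u', hs, hM'⟩ := ih hw hD hb
    exact ⟨_, Plus.lam (Plus.appL (hs.ren _) _), .wrap hM' hI hJ⟩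
  | @wrapC Γ M u X X' hM ha hI hJ hX ih =>
    intro M' T hw hD hb
    obtain ⟨u', hs, hM'⟩ := ih hw hD hb
    obtain ⟨X'', h₁, hX'⟩ := hX.step (Plus.appL (hs.ren _) _)
    exact ⟨_, Plus.lam h₁, .wrapC hM' (ha.step hP hw hD hb) hI hJ hX'⟩

/-- A term with a strongly normalizing translation is strongly normalizing. -/
theorem Rel.sn (hP : Basic P) {Γ : List (Expr S)} (hw : WF P Γ) {M T : Expr S} {u : UTm}
    (hD : D P Γ M T) (h : Rel P Γ M u) (hu : UTm.SN u) : Vale.Agent.P340.SN M := by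
  have hu' : Acc (TransGen fun y x => UTm.Step x y) u := hu.transGen
  induction hu' generalizing M with
  | intro u _ ih =>
    refine Vale.Agent.P340.SN.intro fun M' hb => ?_
    obtain ⟨u', hs, hM'⟩ := h.sim hP hw hD hb
    have hswap : TransGen (fun y x => UTm.Step x y) u' u := transGen_swap.2 hs
    exact ih u' hswap (subject_reduction hD hw hb) hM'
      (UTm.SN.steps hu hs.to_reflTransGen)

end Vale.Agent.P340.Oc
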