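import Vale.Agent.P340.Semantics

/-!
# Renaming and substitution lemmas for the semantics
-/

namespace Vale.Agent.P340

universe u
variable {S : Type u}

open Expr Relation

variable {P : Spec S} {rk : S → ℕ}

/-! ### Unfolding lemmas -/

theorem sem_var {c : S} (hc : Weak P c) (i : ℕ) (Γ : List (Expr S)) (e : Env S) :
    sem P rk (.var i) c Γ e = (e i).val (rk c) := by
  rw [sem, if_pos hc]

theorem sem_sort (s c : S) (Γ : List (Expr S)) (e : Env S) :
    sem P rk (.sort s) c Γ e = vdflt (rk c) := rfl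

theorem sem_app_same {Γ : List (Expr S)} {M N : Expr S} {c : S} (h : col P Γ N = some c)
    (e : Env S) :
    sem P rk (.app M N) c Γ e = vapp (sem P rk M c Γ e) (sem P rk N c Γ e) := by
  rw [sem, if_pos h]

theorem sem_app_high {Γ : List (Expr S)} {M N : Expr S} {a c : S} (h : col P Γ N = some a)
    (hne : a ≠ c) (hR : P.rule c c c) (e : Env S) :
    sem P rk (.app M N) c Γ e = happ (sem P rk M c Γ e)
      (nfSk ((er P a Γ N).sub (esk e)), mkTup (rk c) (single (rk a) (sem P rk N a Γ e))) := by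
  rw [sem, if_neg (by rw [h]; simpa using hne), if_pos hR, h]

theorem sem_app_skip {Γ : List (Expr S)} {M N : Expr S} {a c : S} (h : col P Γ N = some a)
    (hne : a ≠ c) (hR : ¬ P.rule c c c) (e : Env S) :
    sem P rk (.app M N) c Γ e = sem P rk M c Γ e := by
  rw [sem, if_neg (by rw [h]; simpa using hne), if_neg hR]

/-- The body of the value of an abstraction. -/
noncomputable def lamBody (P : Spec S) (rk : S → ℕ) (A M : Expr S) (c : S) (Γ : List (Expr S))
    (e : Env S) (ε : Entry S) : Val S (rk c) :=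
  sem P rk M c (A :: Γ) (econs ε e)

theorem sem_lam_same {Γ : List (Expr S)} {A M : Expr S} {c : S} (hc : Weak P c) (h : srt P Γ A = some c)
    (e : Env S) :
    sem P rk (.lam A M) c Γ e =
      vlam (shape P c Γ A e) (lamBody P rk A M c Γ e (canon P rk c Γ A e)).1
        (fun v => lamBody P rk A M c Γ e (mkE cst (rk c) ⟨shape P c Γ A e, v⟩)) := by
  simp only [sem, hc, h, lamBody, ↓reduceIte]

open Classical in
theorem sem_lam_high {Γ : List (Expr S)} {A M : Expr S} {a c : S} (hc : Weak P c) (h : srt P Γ A = some a)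
    (hne : a ≠ c) (hR : P.rule c c c) (e : Env S) :
    sem P rk (.lam A M) c Γ e =
      vhi (lamBody P rk A M c Γ e (canon P rk a Γ A e)).1
        (fun p =>
          if Good P rk a Γ A e ⟨p.1, getTup (rk c) p.2⟩ then
            lamBody P rk A M c Γ e ⟨p.1, getTup (rk c) p.2⟩
          else lamBody P rk A M c Γ e (canon P rk a Γ A e)) := by
  simp [sem, hc, h, hne, hR, lamBody, Good]
  congr 1

theorem sem_lam_skip {Γ : List (Expr S)} {A M : Expr S} {a c : S} (hc : Weak P c) (h : srt P Γ A = some a)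
    (hne : a ≠ c) (hR : ¬ P.rule c c c) (e : Env S) :
    sem P rk (.lam A M) c Γ e = lamBody P rk A M c Γ e (canon P rk a Γ A e) := by
  simp only [sem, if_pos hc, h, if_neg hne, if_neg hR, lamBody]

/-- The body of the value of a product. -/
noncomputable def piBody (P : Spec S) (rk : S → ℕ) (A B : Expr S) (c : S) (Γ : List (Expr S))
    (e : Env S) (ε : Entry S) : Cand S :=
  toC (sem P rk B c (A :: Γ) (econs ε e))

open Classical in
theorem sem_pi {Γ : List (Expr S)} {A B : Expr S} {a b c : S} (hc : Weak P c) (h : srt P Γ A = some a)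
    (h' : srt P (A :: Γ) B = some b) (hb : P.ax b c) (e : Env S) :
    sem P rk (.pi A B) c Γ e =
      mkC _
        (if a = b then arrC (toC (sem P rk A c Γ e)) (piBody P rk A B c Γ e (canon P rk a Γ A e))
        else if (a = c ∨ P.rule c c c) ∧ Above rk a c then
          piC (Good P rk a Γ A e) (.inr ⟨⟩) (piBody P rk A B c Γ e)
        else hiC (piBody P rk A B c Γ e (canon P rk a Γ A e))) := by
  simp [sem, hc, h, h', hb, piBody]
  rfl

theorem vapp_vdflt (n : ℕ) (x : Val S n) : vapp (vdflt n) x = vdflt n := rfl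

theorem happ_vdflt (n : ℕ) (p : Sk S × Tup S n) : happ (vdflt n) p = vdflt n := rfl

/-- Expressions of a colour without values get the default value. -/
theorem sem_not_weak {c : S} (hc : ¬ Weak P c) (M : Expr S) (Γ : List (Expr S)) (e : Env S) :
    sem P rk M c Γ e = vdflt (rk c) := by
  induction M generalizing Γ e with
  | var i => rw [sem, if_neg hc]
  | sort s => rfl
  | app M N ihM _ =>
    have hR : P.rule c c c := by
      by_contra h
      exact hc (Or.inl h)
    by_cases h : col P Γ N = some c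
    · rw [sem_app_same h, ihM, vapp_vdflt]
    · rw [sem, if_neg h, if_pos hR]
      split
      · rw [ihM, happ_vdflt]
      · rfl
  | lam A M => rw [sem, if_neg hc]
  | pi A B => rw [sem, if_neg hc]

theorem shape_lin {c : S} (h : ¬ P.rule c c c) (Γ : List (Expr S)) (A : Expr S) (e : Env S) :
    shape P c Γ A e = .base := by
  rw [shape, dif_neg (fun hh => h hh.1)]

theorem shape_eq (hP : Basic P) {c k : S} (hR : P.rule c c c) (hk : P.ax c k)
    (Γ : List (Expr S)) (A : Expr S) (e : Env S) :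
    shape P c Γ A e = treeNF c ((er P k Γ A).sub (esk e)) := by
  have h : P.rule c c c ∧ ∃ k, P.ax c k := ⟨hR, k, hk⟩
  rw [shape, dif_pos h, hP.functional _ _ _ h.2.choose_spec hk]

theorem redOf_lin {c : S} (h : ¬ P.rule c c c) (Γ : List (Expr S)) (A : Expr S) (e : Env S)
    (v : ∀ k, Val S (rk k)) : redOf P rk c Γ A e v = linC := by
  rw [redOf, if_neg h]

theorem redOf_weak (hP : Basic P) {c k : S} (hR : P.rule c c c) (hk : P.ax c k)
    (hw : Weak P k) (Γ : List (Expr S)) (A : Expr S) (e : Env S) (v : ∀ k, Val S (rk k)) :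
    redOf P rk c Γ A e v = toC (v k) := by
  have h : ∃ k, P.ax c k ∧ Weak P k := ⟨k, hk, hw⟩
  rw [redOf, if_pos hR, dif_pos h]
  have := hP.functional _ _ _ h.choose_spec.1 hk
  rw [this]

theorem redOf_stable (hP : Basic P) {c k : S} (hR : P.rule c c c) (hk : P.ax c k)
    (hw : ¬ Weak P k) (Γ : List (Expr S)) (A : Expr S) (e : Env S) (v : ∀ k, Val S (rk k)) :
    redOf P rk c Γ A e v = candSh (shape P c Γ A e) := by
  have h : ¬ ∃ k, P.ax c k ∧ Weak P k := by
    rintro ⟨k', hk', hw'⟩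
    exact hw (hP.functional _ _ _ hk' hk ▸ hw')
  rw [redOf, if_pos hR, dif_neg h]

theorem redOf_congr (hP : Basic P) {c : S} {Γ Δ : List (Expr S)} {A B : Expr S} {e e' : Env S}
    {v w : ∀ k, Val S (rk k)}
    (hv : P.rule c c c → ∀ k, P.ax c k → Weak P k → v k = w k)
    (hs : shape P c Γ A e = shape P c Δ B e') :
    redOf P rk c Γ A e v = redOf P rk c Δ B e' w := by
  by_cases hR : P.rule c c c
  · by_cases h : ∃ k, P.ax c k ∧ Weak P k
    · obtain ⟨k, hk, hw⟩ := h
      rw [redOf_weak hP hR hk hw, redOf_weak hP hR hk hw, hv hR k hk hw]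
    · simp only [redOf, if_pos hR, dif_neg h, hs]
  · rw [redOf_lin hR, redOf_lin hR]

theorem good_congr (hP : Basic P) {c : S} {Γ Δ : List (Expr S)} {A B : Expr S} {e e' : Env S}
    (hv : P.rule c c c → ∀ k, P.ax c k → Weak P k →
      sem P rk A k Γ e = sem P rk B k Δ e')
    (hs : shape P c Γ A e = shape P c Δ B e') (ε : Entry S) :
    Good P rk c Γ A e ε ↔ Good P rk c Δ B e' ε := by
  unfold Good GoodOf
  rw [redOf_congr hP (fun hR k hk hw => hv hR k hk hw) hs, hs]

/-! ### The substitution lemma -/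

/-- `e'` gives to the variables that matter at colour `c` the meaning of `σ` under `e`. -/
def EnvSub (P : Spec S) (rk : S → ℕ) (c : S) (σ : ℕ → Expr S) (Γ Δ : List (Expr S))
    (e e' : Env S) : Prop :=
  ∀ i a, VarCol P Γ i a →
    (Above rk a c → Weak P a → (e' i).val (rk a) = sem P rk (σ i) a Δ e) ∧
    (rk a < rk c → Conv (e' i).sk ((er P a Δ (σ i)).sub (esk e)))

theorem EnvSub.mono {a c : S} {σ : ℕ → Expr S} {Γ Δ : List (Expr S)} {e e' : Env S}
    (h : EnvSub P rk c σ Γ Δ e e') (hac : Above rk a c) : EnvSub P rk a σ Γ Δ e e' := by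
  intro i x hx
  refine ⟨fun hxa => (h i x hx).1 (hxa.trans hac), fun hxa => (h i x hx).2 ?_⟩
  rcases hac with rfl | hac
  · exact hxa
  · exact lt_trans hxa hac

theorem er_eval (hN : Nice P rk) {a c : S} {σ : ℕ → Expr S} {Γ Δ : List (Expr S)} {e e' : Env S}
    {M : Expr S} (hwΓ : WF P Γ) (hwΔ : WF P Δ) (hσ : TSub P σ Γ Δ)
    (he : EnvSub P rk c σ Γ Δ e e') (hac : rk a < rk c) (hM : HasCol P Γ M a) :
    Conv ((er P a Δ (M.sub σ)).sub (esk e)) ((er P a Γ M).sub (esk e')) := by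
  classical
  rw [er_sub hN a hwΓ hwΔ hσ (τ := fun i => er P a Δ (σ i)) (fun _ _ => rfl) hM, sub_sub]
  let π : ℕ → Sk S := fun i =>
    if VarCol P Γ i a then (er P a Δ (σ i)).sub (esk e) else esk e' i
  rw [er_sub_congr hN hwΓ hM (τ := fun i => (er P a Δ (σ i)).sub (esk e)) (τ' := π)
    (fun i hi => by simp [π, hi])]
  refine Conv.sub_congr _ fun i => ?_
  by_cases hi : VarCol P Γ i a
  · simp only [π, hi, if_true]
    exact ((he i a hi).2 hac).symm
  · simp only [π, hi, if_false]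
    exact Conv.refl _

theorem shape_sub (hN : Nice P rk) {a c : S} {σ : ℕ → Expr S} {Γ Δ : List (Expr S)}
    {e e' : Env S} {A : Expr S} (hwΓ : WF P Γ) (hwΔ : WF P Δ) (hσ : TSub P σ Γ Δ)
    (he : EnvSub P rk c σ Γ Δ e e') (hA : D P Γ A (.sort a))
    (hac : ∀ k, P.ax a k → rk k < rk c) :
    shape P a Δ (A.sub σ) e = shape P a Γ A e' := by
  by_cases h : P.rule a a a ∧ ∃ k, P.ax a k
  · obtain ⟨hR, k, hk⟩ := h
    rw [shape_eq hN.toBasic hR hk, shape_eq hN.toBasic hR hk, treeNF, treeNF,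
      nfSk_conv (er_eval hN hwΓ hwΔ hσ he (hac k hk) (HasCol.of_sort hA hk))]
  · rw [shape, dif_neg h, shape, dif_neg h]

/-- A class of substituted terms whose meaning is stable under weakening. -/
def ShiftStable (P : Spec S) (rk : S → ℕ) (Pr : Expr S → Prop) : Prop :=
  Pr (.var 0) ∧ ∀ M, Pr M → Pr M.shift ∧
    ∀ (Δ : List (Expr S)) (A : Expr S) (a c : S) (ε : Entry S) (e : Env S),
      WF P Δ → D P Δ A (.sort a) → HasCol P Δ M c →
      sem P rk M.shift c (A :: Δ) (econs ε e) = sem P rk M c Δ e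

theorem esk_shift (t : Sk S) (ε : Entry S) (e : Env S) :
    (t.ren Nat.succ).sub (esk (econs ε e)) = t.sub (esk e) := by
  rw [sub_ren_comp]; rfl

open Classical in
theorem sem_sub_aux (hN : Nice P rk) {Pr : Expr S → Prop} (hPr : ShiftStable P rk Pr)
    {M : Expr S} {Γ Δ : List (Expr S)} {σ : ℕ → Expr S} {e e' : Env S} {c : S}
    (hwΓ : WF P Γ) (hwΔ : WF P Δ) (hσ : TSub P σ Γ Δ) (hσP : ∀ i, Pr (σ i))
    (he : EnvSub P rk c σ Γ Δ e e') (hM : HasCol P Γ M c) :
    sem P rk (M.sub σ) c Δ e = sem P rk M c Γ e' := by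
  have hP := hN.toBasic
  have hup : ∀ {Γ Δ : List (Expr S)} {σ : ℕ → Expr S} {e e' : Env S} {c : S} {A : Expr S} {a : S}
      {ε ε' : Entry S}, WF P Γ → WF P Δ → TSub P σ Γ Δ → (∀ i, Pr (σ i)) →
      EnvSub P rk c σ Γ Δ e e' → D P Γ A (.sort a) → (Above rk a c → ε' = ε) →
      EnvSub P rk c (Expr.up σ) (A :: Γ) (A.sub σ :: Δ) (econs ε e) (econs ε' e') := by
    intro Γ Δ σ e e' c A a ε ε' hwΓ hwΔ hσ hσP he hA hε i x hx
    cases i with
    | zero =>
      obtain rfl : x = a := hx.zero_inv hP hA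
      refine ⟨fun hxc hW => ?_, fun hxc => ?_⟩
      · show ε'.val _ = sem P rk (Expr.var 0) x (A.sub σ :: Δ) (econs ε e)
        rw [sem_var hW, hε hxc]
        rfl
      · show Conv ε'.sk ε.sk
        rw [hε (Above.of_lt hxc)]
        exact Conv.refl _
    | succ n =>
      have hn := hx.succ_inv hP hwΓ
      refine ⟨fun hxc hW => ?_, fun hxc => ?_⟩
      · show (e' n).val _ = sem P rk (σ n).shift x (A.sub σ :: Δ) (econs ε e)
        rw [((hPr.2 _ (hσP n)).2 Δ (A.sub σ) a x ε e hwΔ (hA.sub hσ) (hn.hasCol.sub hσ))]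
        exact (he n x hn).1 hxc hW
      · show Conv (e' n).sk ((er P x (A.sub σ :: Δ) (σ n).shift).sub (esk (econs ε e)))
        have hc : HasCol P Δ (σ n) x := hn.hasCol.sub hσ
        rw [Expr.shift, er_ren hN x (ρ := Nat.succ) hwΔ (WF.cons hwΔ (hA.sub hσ))
          (TRen.shift Δ _) hc, esk_shift]
        exact (he n x hn).2 hxc
  have hupP : ∀ {σ : ℕ → Expr S}, (∀ i, Pr (σ i)) → ∀ i, Pr (Expr.up σ i) := by
    intro σ h i
    cases i with
    | zero => exact hPr.1
    | succ n => exact (hPr.2 _ (h n)).1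
  induction M generalizing Γ Δ σ e e' c with
  | var i =>
    by_cases hWc : Weak P c
    swap
    · rw [sem_not_weak hWc, sem_not_weak hWc]
    rw [sem_var hWc]
    show sem P rk (σ i) c Δ e = (e' i).val (rk c)
    exact ((he i c (hM.var_inv hP hwΓ)).1 (Above.refl rk c) hWc).symm
  | sort s => rfl
  | app M N ihM ihN =>
    by_cases hWc : Weak P c
    swap
    · rw [sem_not_weak hWc, sem_not_weak hWc]
    obtain ⟨A, B, a, -, -, -, -, -, hr, hcM, hcN⟩ := hM.app_inv hP hwΓ
    have e₁ := col_eq hP hwΓ hcN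
    have e₂ := col_eq hP hwΔ (hcN.sub hσ)
    show sem P rk (.app (M.sub σ) (N.sub σ)) c Δ e = _
    by_cases hac : a = c
    · subst hac
      rw [sem_app_same e₂, sem_app_same e₁, ihM hwΓ hwΔ hσ hσP he hcM,
        ihN hwΓ hwΔ hσ hσP he hcN]
    · have hlt : rk a < rk c := (hN.rule_le a c hr).resolve_left hac
      by_cases hR : P.rule c c c
      · rw [sem_app_high e₂ hac hR, sem_app_high e₁ hac hR, ihM hwΓ hwΔ hσ hσP he hcM,
          ihN hwΓ hwΔ hσ hσP (he.mono (Above.of_lt hlt)) hcN,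
          nfSk_conv (er_eval hN hwΓ hwΔ hσ he hlt hcN)]
      · rw [sem_app_skip e₂ hac hR, sem_app_skip e₁ hac hR, ihM hwΓ hwΔ hσ hσP he hcM]
  | lam A M ihA ihM =>
    by_cases hWc : Weak P c
    swap
    · rw [sem_not_weak hWc, sem_not_weak hWc]
    obtain ⟨B, a, hA, -, -, -, hr, hcM⟩ := hM.lam_inv hP hwΓ
    have e₁ := srt_eq hP hA
    have e₂ := srt_eq hP (hA.sub hσ)
    have hk : ∀ k, P.ax a k → rk k < rk c := by
      intro k hk
      rcases hN.rule_le a c hr with rfl | h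
      · exact hN.ax_lt _ _ hk
      · exact lt_trans (hN.ax_lt _ _ hk) h
    have hs : shape P a Δ (A.sub σ) e = shape P a Γ A e' :=
      shape_sub hN hwΓ hwΔ hσ he hA hk
    have hcanon : canon P rk a Δ (A.sub σ) e = canon P rk a Γ A e' := by
      unfold canon; rw [hs]
    have hbody : ∀ ε, lamBody P rk (A.sub σ) (M.sub (Expr.up σ)) c Δ e ε =
        lamBody P rk A M c Γ e' ε := fun ε =>
      ihM (WF.cons hwΓ hA) (WF.cons hwΔ (hA.sub hσ)) (hσ.up A) (hupP hσP)
        (hup hwΓ hwΔ hσ hσP he hA (fun _ => rfl)) hcM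
    show sem P rk (.lam (A.sub σ) (M.sub (Expr.up σ))) c Δ e = _
    by_cases hac : a = c
    · subst hac
      rw [sem_lam_same hWc e₂, sem_lam_same hWc e₁, hs, hcanon, hbody]
      simp only [hbody]
    · by_cases hR : P.rule c c c
      · rw [sem_lam_high hWc e₂ hac hR, sem_lam_high hWc e₁ hac hR, hcanon, hbody]
        congr 1
        funext p
        have hg := good_congr (rk := rk) hP (c := a) (Γ := Δ) (Δ := Γ) (A := A.sub σ) (B := A)
          (e := e) (e' := e') (fun _ k hk' _ => ihA hwΓ hwΔ hσ hσP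
            (he.mono (Above.of_lt (hk k hk'))) (HasCol.of_sort hA hk')) hs
            ⟨p.1, getTup (rk c) p.2⟩
        simp only [hg, hbody]
      · rw [sem_lam_skip hWc e₂ hac hR, sem_lam_skip hWc e₁ hac hR, hcanon, hbody]
  | pi A B ihA ihB =>
    by_cases hWc : Weak P c
    swap
    · rw [sem_not_weak hWc, sem_not_weak hWc]
    obtain ⟨a, b, a', hA, hB, hr, hb, ha, habove, hcA, hcB⟩ := hM.pi_inv hN hwΓ
    have hA' : D P Δ (A.sub σ) (.sort a) := hA.sub hσ
    have hB' : D P (A.sub σ :: Δ) (B.sub (Expr.up σ)) (.sort b) := hB.sub (hσ.up A)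
    show sem P rk (.pi (A.sub σ) (B.sub (Expr.up σ))) c Δ e = _
    rw [sem_pi hWc (srt_eq hP hA') (srt_eq hP hB') hb, sem_pi hWc (srt_eq hP hA) (srt_eq hP hB) hb]
    have hbody : ∀ ε ε', (Above rk a c → ε' = ε) →
        piBody P rk (A.sub σ) (B.sub (Expr.up σ)) c Δ e ε =
          piBody P rk A B c Γ e' ε' := fun ε ε' hε => congrArg toC
      (ihB (WF.cons hwΓ hA) (WF.cons hwΔ hA') (hσ.up A) (hupP hσP)
        (hup hwΓ hwΔ hσ hσP he hA hε) hcB)
    have hk : Above rk a c → ∀ k, P.ax a k → rk k < rk c := by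
      intro h k hk
      rcases h with rfl | h
      · exact hN.ax_lt _ _ hk
      · exact lt_trans (hN.ax_lt _ _ hk) h
    have hs : Above rk a c → shape P a Δ (A.sub σ) e = shape P a Γ A e' := fun h =>
      shape_sub hN hwΓ hwΔ hσ he hA (hk h)
    have hcanon : Above rk a c →
        canon P rk a Γ A e' = canon P rk a Δ (A.sub σ) e := fun h => by
      unfold canon; rw [hs h]
    refine congrArg (mkC _) ?_
    by_cases hab : a = b
    · subst hab
      have haa : a' = c := hN.functional _ _ _ ha hb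
      subst haa
      rw [if_pos rfl, if_pos rfl, ihA hwΓ hwΔ hσ hσP he hcA, hbody _ _ hcanon]
    · rw [if_neg hab, if_neg hab]
      by_cases hq : (a = c ∨ P.rule c c c) ∧ Above rk a c
      · rw [if_pos hq, if_pos hq]
        refine piC_congr (fun ε => ?_) rfl (fun ε _ => hbody ε ε (fun _ => rfl))
        exact good_congr hP (fun _ k hk' _ => ihA hwΓ hwΔ hσ hσP
          (he.mono (Above.of_lt (hk hq.2 k hk'))) (HasCol.of_sort hA hk')) (hs hq.2) ε
      · rw [if_neg hq, if_neg hq, hbody _ _ hcanon]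

theorem shiftStable_var (P : Spec S) (rk : S → ℕ) :
    ShiftStable P rk (fun M => ∃ i, M = Expr.var i) := by
  refine ⟨⟨0, rfl⟩, ?_⟩
  rintro M ⟨i, rfl⟩
  exact ⟨⟨i + 1, rfl⟩, fun _ _ _ _ _ _ _ _ _ => rfl⟩

theorem sem_shift (hN : Nice P rk) {Γ : List (Expr S)} {M A : Expr S} {a c : S} (hw : WF P Γ)
    (hA : D P Γ A (.sort a)) (hM : HasCol P Γ M c) (ε : Entry S) (e : Env S) :
    sem P rk M.shift c (A :: Γ) (econs ε e) = sem P rk M c Γ e := by
  rw [Expr.shift, ren_eq_sub]
  refine sem_sub_aux hN (shiftStable_var P rk) hw (WF.cons hw hA) ?_ (fun i => ⟨_, rfl⟩) ?_ hM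
  · intro i B hB
    rw [← ren_eq_sub]
    exact D.var (Lookup.succ hB)
  · intro i x _
    exact ⟨fun _ hW => by rw [sem_var hW]; rfl, fun _ => Conv.refl _⟩

theorem sem_sub (hN : Nice P rk) {M : Expr S} {Γ Δ : List (Expr S)} {σ : ℕ → Expr S}
    {e e' : Env S} {c : S} (hwΓ : WF P Γ) (hwΔ : WF P Δ) (hσ : TSub P σ Γ Δ)
    (he : EnvSub P rk c σ Γ Δ e e') (hM : HasCol P Γ M c) :
    sem P rk (M.sub σ) c Δ e = sem P rk M c Γ e' :=
  sem_sub_aux hN (Pr := fun _ => True)
    ⟨trivial, fun _ _ => ⟨trivial, fun _ _ _ _ ε e hw hA hM => sem_shift hN hw hA hM ε e⟩⟩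
    hwΓ hwΔ hσ (fun _ => trivial) he hM

theorem red_sub (hN : Nice P rk) {T : Expr S} {Γ Δ : List (Expr S)} {σ : ℕ → Expr S}
    {e e' : Env S} {c : S} (hwΓ : WF P Γ) (hwΔ : WF P Δ) (hσ : TSub P σ Γ Δ)
    (he : EnvSub P rk c σ Γ Δ e e') (hT : D P Γ T (.sort c)) :
    Red P rk c Δ (T.sub σ) e = Red P rk c Γ T e' :=
  redOf_congr hN.toBasic
    (fun _ k hk _ => sem_sub hN hwΓ hwΔ hσ (he.mono (Above.of_lt (hN.ax_lt _ _ hk)))
      (HasCol.of_sort hT hk))
    (shape_sub hN hwΓ hwΔ hσ he hT (fun _ hk => hN.ax_lt _ _ hk))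

theorem TSub.shift (P : Spec S) (Γ : List (Expr S)) (A : Expr S) :
    TSub P (fun i => Expr.var (i + 1)) Γ (A :: Γ) := fun i B hB => by
  have := (D.var (P := P) hB).weaken A
  rwa [Expr.shift, Expr.shift, ren_eq_sub B] at this

theorem red_shift (hN : Nice P rk) {T A : Expr S} {Γ : List (Expr S)} {a c : S} (hw : WF P Γ)
    (hA : D P Γ A (.sort a)) (hT : D P Γ T (.sort c)) (ε : Entry S) (e : Env S) :
    Red P rk c (A :: Γ) T.shift (econs ε e) = Red P rk c Γ T e := by
  rw [Expr.shift, ren_eq_sub]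
  exact red_sub hN hw (WF.cons hw hA) (TSub.shift P Γ A)
    (fun _ _ _ => ⟨fun _ hW => by rw [sem_var hW]; rfl, fun _ => Conv.refl _⟩) hT

theorem shape_shift (hN : Nice P rk) {T A : Expr S} {Γ : List (Expr S)} {a c : S} (hw : WF P Γ)
    (hA : D P Γ A (.sort a)) (hT : D P Γ T (.sort c)) (ε : Entry S) (e : Env S) :
    shape P c (A :: Γ) T.shift (econs ε e) = shape P c Γ T e := by
  rw [Expr.shift, ren_eq_sub]
  exact shape_sub hN hw (WF.cons hw hA) (TSub.shift P Γ A) (c := c)
    (fun _ _ _ => ⟨fun _ hW => by rw [sem_var hW]; rfl, fun _ => Conv.refl _⟩) hT (fun _ hk => hN.ax_lt _ _ hk)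

theorem GoodEnv.var_spec (hN : Nice P rk) {Γ : List (Expr S)} (hw : WF P Γ) {e : Env S}
    (he : GoodEnv P rk Γ e) {i : ℕ} {A : Expr S} {a : S} (hl : Lookup Γ i A)
    (hA : D P Γ A (.sort a)) :
    (e i).sk ∈ (Red P rk a Γ A e).1 ∧
      (Weak P a → ((e i).val (rk a)).1 = shape P a Γ A e) := by
  have hP := hN.toBasic
  have heta : ∀ e : Env S, e = econs (e 0) (fun i => e (i + 1)) := fun e => by
    funext i; cases i <;> rfl
  induction hl generalizing a e with
  | @zero Γ A₀ =>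
    cases hw with
    | @cons _ _ s hw₀ hA₀ =>
      obtain rfl : a = s := D.sort_unique hP hA (hA₀.weaken A₀)
      obtain ⟨hsk, hval⟩ := he.2 a hA₀
      conv in (occs := *) Red P rk a (A₀ :: Γ) A₀.shift e => all_goals rw [heta e]
      rw [red_shift hN hw₀ hA₀ hA₀]
      refine ⟨hsk, fun hW => ?_⟩
      rw [hval hW]
      conv_rhs => rw [heta e]
      rw [shape_shift hN hw₀ hA₀ hA₀]
  | @succ Γ B₀ A₀ j hl ih =>
    cases hw with
    | @cons _ _ s hw₀ hB₀ =>
      obtain ⟨t, ht⟩ := hw₀.lookup hl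
      obtain rfl : a = t := D.sort_unique hP hA (ht.weaken B₀)
      obtain ⟨hsk, hval⟩ := ih hw₀ he.1 ht
      conv in (occs := *) Red P rk a (B₀ :: Γ) A₀.shift e => all_goals rw [heta e]
      rw [red_shift hN hw₀ hB₀ ht]
      refine ⟨hsk, fun hW => ?_⟩
      rw [hval hW]
      conv_rhs => rw [heta e]
      rw [shape_shift hN hw₀ hB₀ ht]

end Vale.Agent.P340
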