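import Vale.Agent.P340.Values

/-!
# Semantics of type expressions

For a sort `c` the set of reducible skeletons of a type of sort `c` is computed from the
shape of the type when the constructors of that type may be arbitrary, and from their values
otherwise.
-/

namespace Vale.Agent.P340

universe u
variable {S : Type u}

open Expr Relation

variable (P : Spec S) (rk : S → ℕ)

/-- Values can be given to expressions of colour `k`. -/
def Weak (k : S) : Prop := ¬ P.rule k k k ∨ ∀ K, P.ax k K → ¬ P.rule K k k

open Classical in
/-- Read the shape off a normal skeleton, at colour `c`. -/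
noncomputable def tree (c : S) : Sk S → Shape
  | .pi (.app (.sort (some (a, b))) A) B =>
    if b = some c then
      (if a = some c then Shape.arr (tree c A) (tree c B) else Shape.hi (tree c B))
    else Shape.base
  | _ => Shape.base

open Classical in
/-- The normal form of a skeleton, or the constant when there is none. -/
noncomputable def nfSk (t : Sk S) : Sk S :=
  if h : ∃ u, Steps t u ∧ ∀ v, ¬ Beta u v then h.choose else cst

/-- The shape of a skeleton, through its normal form. -/
noncomputable def treeNF (c : S) (t : Sk S) : Shape := tree c (nfSk t)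

theorem nfSk_eq {t u : Sk S} (h : Steps t u) (hn : ∀ v, ¬ Beta u v) : nfSk t = u := by
  have hex : ∃ u, Steps t u ∧ ∀ v, ¬ Beta u v := ⟨u, h, hn⟩
  rw [nfSk, dif_pos hex]
  exact normal_unique hex.choose_spec.1 hex.choose_spec.2 h hn

theorem normal_steps_eq {u v : Sk S} (hn : ∀ w, ¬ Beta u w) (h : Steps u v) : v = u := by
  rcases ReflTransGen.cases_head h with h | ⟨w, hw, -⟩
  · exact h.symm
  · exact absurd hw (hn w)

theorem nfSk_conv {t t' : Sk S} (h : Conv t t') : nfSk t = nfSk t' := by
  by_cases hex : ∃ u, Steps t u ∧ ∀ v, ¬ Beta u v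
  · obtain ⟨u, hu, hn⟩ := hex
    obtain ⟨L, h₁, h₂⟩ := (h.symm.trans hu.conv).join
    rw [nfSk_eq hu hn, nfSk_eq (normal_steps_eq hn h₂ ▸ h₁) hn]
  · have hex' : ¬ ∃ u, Steps t' u ∧ ∀ v, ¬ Beta u v := by
      rintro ⟨u, hu, hn⟩
      obtain ⟨L, h₁, h₂⟩ := (h.trans hu.conv).join
      exact hex ⟨u, normal_steps_eq hn h₂ ▸ h₁, hn⟩
    rw [nfSk, dif_neg hex, nfSk, dif_neg hex']

theorem nfSk_spec {t : Sk S} (h : SN t) : Steps t (nfSk t) ∧ ∀ v, ¬ Beta (nfSk t) v := by
  obtain ⟨u, hu, hn⟩ := h.normal_form
  rw [nfSk_eq hu hn]
  exact ⟨hu, hn⟩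

open Classical in
/-- The shape of a type of sort `c`. -/
noncomputable def shape (c : S) (Γ : List (Expr S)) (A : Expr S) (e : Env S) : Shape :=
  if h : P.rule c c c ∧ ∃ k, P.ax c k then
    treeNF c ((er P h.2.choose Γ A).sub (esk e))
  else .base

open Classical in
/-- Reducible skeletons of a type of sort `c`, given the values of the type. -/
noncomputable def redOf (c : S) (Γ : List (Expr S)) (A : Expr S) (e : Env S)
    (semA : ∀ k, Val S (rk k)) : Cand S :=
  if P.rule c c c then
    (if h : ∃ k, P.ax c k ∧ Weak P k then toC (semA h.choose)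
     else candSh (shape P c Γ A e))
  else linC

/-- Admissible entries for a variable of the given type. -/
def GoodOf (a : S) (Γ : List (Expr S)) (A : Expr S) (e : Env S) (semA : ∀ k, Val S (rk k))
    (ε : Entry S) : Prop :=
  ε.sk ∈ (redOf P rk a Γ A e semA).1 ∧ (Weak P a → (ε.val (rk a)).1 = shape P a Γ A e)

/-- An entry with a given skeleton and a given value at one rank. -/
def mkE (sk : Sk S) (m : ℕ) (v : Val S m) : Entry S := ⟨sk, single m v⟩

/-- The canonical entry for a variable of the given type. -/
noncomputable def canon (a : S) (Γ : List (Expr S)) (A : Expr S) (e : Env S) : Entry S :=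
  mkE cst (rk a) ⟨shape P a Γ A e, dflt _⟩

open Classical in
/-- The value, at colour `c`, of an expression. -/
noncomputable def sem : Expr S → (c : S) → List (Expr S) → Env S → Val S (rk c)
  | .var i, c, _, e => if Weak P c then (e i).val (rk c) else vdflt _
  | .sort _, c, _, _ => vdflt (rk c)
  | .app M N, c, Γ, e =>
    if col P Γ N = some c then vapp (sem M c Γ e) (sem N c Γ e)
    else if P.rule c c c then
      (match col P Γ N with
       | some a => happ (sem M c Γ e)
           (nfSk ((er P a Γ N).sub (esk e)), mkTup (rk c) (single (rk a) (sem N a Γ e)))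
       | none => vdflt _)
    else sem M c Γ e
  | .lam A M, c, Γ, e =>
    if Weak P c then
    match srt P Γ A with
    | none => vdflt _
    | some a =>
      let body : Entry S → Val S (rk c) := fun ε => sem M c (A :: Γ) (econs ε e)
      let cod : Shape := (body (canon P rk a Γ A e)).1
      if a = c then
        vlam (shape P c Γ A e) cod (fun v => body (mkE cst (rk c) ⟨shape P c Γ A e, v⟩))
      else if P.rule c c c then
        vhi cod (fun p =>
          if GoodOf P rk a Γ A e (fun k => sem A k Γ e) ⟨p.1, getTup (rk c) p.2⟩ then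
            body ⟨p.1, getTup (rk c) p.2⟩
          else body (canon P rk a Γ A e))
      else body (canon P rk a Γ A e)
    else vdflt _
  | .pi A B, c, Γ, e =>
    if Weak P c then
    match srt P Γ A, srt P (A :: Γ) B with
    | some a, some b =>
      let body : Entry S → Cand S := fun ε => toC (sem B c (A :: Γ) (econs ε e))
      if P.ax b c then
        mkC _
          (if a = b then arrC (toC (sem A c Γ e)) (body (canon P rk a Γ A e))
          else if (a = c ∨ P.rule c c c) ∧ Above rk a c then
            piC (GoodOf P rk a Γ A e (fun k => sem A k Γ e)) (.inr ⟨⟩) body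
          else hiC (body (canon P rk a Γ A e)))
      else vdflt _
    | _, _ => vdflt _
    else vdflt _

/-- Reducible skeletons of type `T` of sort `c`. -/
noncomputable def Red (c : S) (Γ : List (Expr S)) (T : Expr S) (e : Env S) : Cand S :=
  redOf P rk c Γ T e (fun k => sem P rk T k Γ e)

/-- Admissible entries. -/
def Good (a : S) (Γ : List (Expr S)) (A : Expr S) (e : Env S) (ε : Entry S) : Prop :=
  GoodOf P rk a Γ A e (fun k => sem P rk A k Γ e) ε

/-- Admissible environments. -/
def GoodEnv : List (Expr S) → Env S → Prop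
  | [], _ => True
  | A :: Γ, e => GoodEnv Γ (fun i => e (i + 1)) ∧
      ∀ a, D P Γ A (.sort a) → Good P rk a Γ A (fun i => e (i + 1)) (e 0)

theorem canon_good (a : S) (Γ : List (Expr S)) (A : Expr S) (e : Env S) :
    Good P rk a Γ A e (canon P rk a Γ A e) := by
  refine ⟨cst_mem _, fun _ => ?_⟩
  exact congrArg Sigma.fst (single_self (S := S) _ _)

variable {P rk}

theorem GoodEnv.cons (hP : Basic P) {Γ : List (Expr S)} {A : Expr S} {e : Env S} {a : S}
    (he : GoodEnv P rk Γ e) (hA : D P Γ A (.sort a)) {ε : Entry S}
    (hε : Good P rk a Γ A e ε) : GoodEnv P rk (A :: Γ) (econs ε e) := by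
  refine ⟨he, fun b hb => ?_⟩
  rw [D.sort_unique hP hb hA]
  exact hε

theorem exists_goodEnv (hP : Basic P) {Γ : List (Expr S)} (hw : WF P Γ) :
    ∃ e, GoodEnv P rk Γ e := by
  induction hw with
  | nil => exact ⟨fun _ => ⟨cst, fun m => vdflt m⟩, trivial⟩
  | @cons Γ A s _ hA ih =>
    obtain ⟨e, he⟩ := ih
    exact ⟨econs (canon P rk s Γ A e) e, he.cons hP hA (canon_good P rk s Γ A e)⟩

end Vale.Agent.P340
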