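import Vale.Agent.P340.StMem
import Vale.Agent.P340.StPure

/-!
The colon-style continuation translation with memory, from memory terms to pure lambda terms.
`act` selects the nodes whose reduction is simulated, `pur` the nodes replaced by a dummy.
-/

namespace Vale.Agent.P340.St

open Relation

universe u
variable {S : Type u}

namespace Tag
def srtT : ℕ := 0
def memT : ℕ := 1
def joinT : ℕ := 2
def lamT : ℕ := 3
def piT : ℕ := 4
def atomT : ℕ := 5
def unitT : ℕ := 6
end Tag

/-- Variable map under an abstraction, which binds the variable and then a continuation. -/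
def bind2 (r : ℕ → ℕ) : ℕ → ℕ
  | 0 => 1
  | n + 1 => r n + 2

theorem bind2_comp (r : ℕ → ℕ) (f : ℕ → ℕ) : bind2 r ∘ upR f = bind2 (r ∘ f) := by
  funext n; cases n <;> rfl

variable [Inhabited S]

/-- `tk cs N r K` is the translation of `N` with continuation `K`. -/
noncomputable def tk (P : Sys S) (act pur : Cl S → Prop) [DecidablePred act] [DecidablePred pur] :
    (ℕ → S) → MTm S → (ℕ → ℕ) → UTm → UTm
  | cs, .var i, r, K =>
    if pur (.inl (cs i)) then .app (.cst Tag.unitT) K else .app (.var (r i)) K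
  | _, .srt s, _, K =>
    if pur (srtC P s) then .app (.cst Tag.unitT) K else .app (.cst Tag.srtT) K
  | cs, .app f a, r, K =>
    if pur (cl P cs (MTm.strip f)) then .app (.cst Tag.unitT) K
    else if act (cl P cs (MTm.strip f)) then
      tk P act pur cs f r (.lam (.app (.app (.var 0)
        (.lam (tk P act pur cs a (fun i => r i + 2) (.var 0)))) (UTm.ren Nat.succ K)))
    else
      .app (.app (.app (.cst Tag.joinT) (.lam (tk P act pur cs f (Nat.succ ∘ r) (.var 0))))
        (.lam (tk P act pur cs a (Nat.succ ∘ r) (.var 0)))) K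
  | cs, .lam A b, r, K =>
    if pur (cl P cs (MTm.strip (.lam A b))) then .app (.cst Tag.unitT) K
    else if act (cl P cs (MTm.strip (.lam A b))) then
      .app K (.lam (.lam (.app (.app (.cst Tag.memT)
        (.lam (tk P act pur cs A (fun i => r i + 3) (.var 0))))
        (.app (.app (.cst Tag.memT) (.var 1))
          (tk P act pur (cons (bindC P (cl P cs (MTm.strip A))) cs) b (bind2 r) (.var 0))))))
    else
      .app (.app (.app (.cst Tag.lamT) (.lam (tk P act pur cs A (Nat.succ ∘ r) (.var 0))))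
        (.lam (.lam (.app (.app (.cst Tag.memT) (.var 1))
          (tk P act pur (cons (bindC P (cl P cs (MTm.strip A))) cs) b (bind2 r) (.var 0)))))) K
  | cs, .pi A b, r, K =>
    if pur (cl P cs (MTm.strip (.pi A b))) then .app (.cst Tag.unitT) K
    else
      .app (.app (.app (.cst Tag.piT) (.lam (tk P act pur cs A (Nat.succ ∘ r) (.var 0))))
        (.app (.cst Tag.atomT) (.lam (.lam (.app (.app (.cst Tag.memT) (.var 1))
          (tk P act pur (cons (bindC P (cl P cs (MTm.strip A))) cs) b (bind2 r) (.var 0))))))) K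
  | cs, .mem p q, r, K =>
    if pur (cl P cs (MTm.strip p)) then .app (.cst Tag.unitT) K
    else .app (.app (.cst Tag.memT) (.lam (tk P act pur cs q (Nat.succ ∘ r) (.var 0))))
      (tk P act pur cs p r K)

variable {P : Sys S} {act pur : Cl S → Prop} [DecidablePred act] [DecidablePred pur]

theorem bind2_sub (g : ℕ → UTm) (r r' : ℕ → ℕ) (h : ∀ i, g (r i) = .var (r' i)) :
    ∀ i, UTm.up (UTm.up g) (bind2 r i) = .var (bind2 r' i)
  | 0 => rfl
  | n + 1 => by simp [bind2, UTm.up, h n, UTm.ren]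

theorem tk_sub (N : MTm S) : ∀ (cs : ℕ → S) (r r' : ℕ → ℕ) (g : ℕ → UTm) (K : UTm),
    (∀ i, g (r i) = .var (r' i)) →
    UTm.sub g (tk P act pur cs N r K) = tk P act pur cs N r' (UTm.sub g K) := by
  induction N with
  | var i => intro cs r r' g K h; simp only [tk]; split_ifs <;> simp [UTm.sub, h]
  | srt s => intro cs r r' g K h; simp only [tk]; split_ifs <;> simp [UTm.sub]
  | app f a ihf iha =>
    intro cs r r' g K h
    simp only [tk]
    split_ifs
    · simp [UTm.sub]
    · rw [ihf cs r r' g _ h]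
      simp only [UTm.sub]
      rw [iha cs _ (fun i => r' i + 2) _ _ (fun i => by simp [UTm.up, h, UTm.ren]),
        UTm.sub_ren, UTm.ren_sub]
      rfl
    · simp only [UTm.sub]
      rw [ihf cs _ (Nat.succ ∘ r') _ _ (fun i => by simp [UTm.up, h, UTm.ren]),
        iha cs _ (Nat.succ ∘ r') _ _ (fun i => by simp [UTm.up, h, UTm.ren])]
      rfl
  | lam A b ihA ihb =>
    intro cs r r' g K h
    simp only [tk]
    split_ifs
    · simp [UTm.sub]
    · simp only [UTm.sub]
      rw [ihA cs _ (fun i => r' i + 3) _ _ (fun i => by simp [UTm.up, h, UTm.ren]),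
        ihb _ _ (bind2 r') _ _ (bind2_sub g r r' h)]
      rfl
    · simp only [UTm.sub]
      rw [ihA cs _ (Nat.succ ∘ r') _ _ (fun i => by simp [UTm.up, h, UTm.ren]),
        ihb _ _ (bind2 r') _ _ (bind2_sub g r r' h)]
      rfl
  | pi A b ihA ihb =>
    intro cs r r' g K h
    simp only [tk]
    split_ifs
    · simp [UTm.sub]
    · simp only [UTm.sub]
      rw [ihA cs _ (Nat.succ ∘ r') _ _ (fun i => by simp [UTm.up, h, UTm.ren]),
        ihb _ _ (bind2 r') _ _ (bind2_sub g r r' h)]
      rfl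
  | mem p q ihp ihq =>
    intro cs r r' g K h
    simp only [tk]
    split_ifs
    · simp [UTm.sub]
    · simp only [UTm.sub]
      rw [ihq cs _ (Nat.succ ∘ r') _ _ (fun i => by simp [UTm.up, h, UTm.ren]),
        ihp cs r r' g K h]
      rfl

theorem tk_ren (N : MTm S) (cs : ℕ → S) (r : ℕ → ℕ) (h : ℕ → ℕ) (K : UTm) :
    UTm.ren h (tk P act pur cs N r K) = tk P act pur cs N (h ∘ r) (UTm.ren h K) := by
  rw [UTm.ren_eq_sub, UTm.ren_eq_sub]
  exact tk_sub N cs r (h ∘ r) _ K fun i => rfl

theorem cons_upR (a : S) (cs : ℕ → S) (f : ℕ → ℕ) : cons a cs ∘ upR f = cons a (cs ∘ f) := by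
  funext n; cases n <;> rfl

theorem tk_msren (N : MTm S) : ∀ (cs : ℕ → S) (f : ℕ → ℕ) (r : ℕ → ℕ) (K : UTm),
    tk P act pur cs (MTm.ren f N) r K = tk P act pur (cs ∘ f) N (r ∘ f) K := by
  induction N with
  | var i => intros; rfl
  | srt s => intros; rfl
  | app f a ihf iha =>
    intro cs g r K
    simp only [MTm.ren, tk, ihf, iha, MTm.strip_ren, cl_ren]
    rfl
  | lam A b ihA ihb =>
    intro cs g r K
    have e : cl P cs (MTm.strip (.lam (MTm.ren g A) (MTm.ren (upR g) b)))
        = cl P (cs ∘ g) (MTm.strip (.lam A b)) := by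
      rw [show MTm.strip (MTm.lam (MTm.ren g A) (MTm.ren (upR g) b))
        = Tm.ren g (MTm.strip (.lam A b)) from MTm.strip_ren (MTm.lam A b) g, cl_ren]
    simp only [MTm.ren, tk, ihA, ihb, e, bind2_comp, cons_upR, MTm.strip_ren, cl_ren]
    rfl
  | pi A b ihA ihb =>
    intro cs g r K
    have e : cl P cs (MTm.strip (.pi (MTm.ren g A) (MTm.ren (upR g) b)))
        = cl P (cs ∘ g) (MTm.strip (.pi A b)) := by
      rw [show MTm.strip (MTm.pi (MTm.ren g A) (MTm.ren (upR g) b))
        = Tm.ren g (MTm.strip (.pi A b)) from MTm.strip_ren (MTm.pi A b) g, cl_ren]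
    simp only [MTm.ren, tk, ihA, ihb, e, bind2_comp, cons_upR, MTm.strip_ren, cl_ren]
    rfl
  | mem p q ihp ihq =>
    intro cs g r K
    simp only [MTm.ren, tk, ihp, ihq, MTm.strip_ren, cl_ren]
    rfl

theorem tk_step_K (N : MTm S) : ∀ (cs : ℕ → S) (r : ℕ → ℕ) (K K' : UTm),
    UTm.Step K K' → UTm.Step (tk P act pur cs N r K) (tk P act pur cs N r K') := by
  induction N with
  | var i => intro cs r K K' h; simp only [tk]; split_ifs <;> exact .appR _ h
  | srt s => intro cs r K K' h; simp only [tk]; split_ifs <;> exact .appR _ h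
  | app f a ihf _ =>
    intro cs r K K' h
    simp only [tk]
    split_ifs
    · exact .appR _ h
    · exact ihf _ _ _ _ (.lamB (.appR _ (h.ren _)))
    · exact .appR _ h
  | lam A b _ _ =>
    intro cs r K K' h
    simp only [tk]
    split_ifs
    · exact .appR _ h
    · exact .appL _ h
    · exact .appR _ h
  | pi A b _ _ => intro cs r K K' h; simp only [tk]; split_ifs <;> exact .appR _ h
  | mem p q ihp _ =>
    intro cs r K K' h
    simp only [tk]
    split_ifs
    · exact .appR _ h
    · exact .appR _ (ihp _ _ _ _ h)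

theorem tk_steps_K (N : MTm S) (cs : ℕ → S) (r : ℕ → ℕ) {K K' : UTm} (h : UTm.Steps K K') :
    UTm.Steps (tk P act pur cs N r K) (tk P act pur cs N r K') :=
  h.lift _ fun _ _ hs => tk_step_K N cs r _ _ hs

/-- `u` represents the translation of `N`. -/
def Rep (P : Sys S) (act pur : Cl S → Prop) [DecidablePred act] [DecidablePred pur]
    (u : UTm) (cs : ℕ → S) (N : MTm S) (r : ℕ → ℕ) : Prop :=
  ∀ (h : ℕ → ℕ) (K : UTm),
    UTm.Steps (.app (UTm.ren h u) K) (tk P act pur cs N (h ∘ r) K)

theorem rep_var {cs : ℕ → S} {i : ℕ} {r : ℕ → ℕ} (hp : ¬ pur (.inl (cs i))) :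
    Rep P act pur (.var (r i)) cs (.var i) r := by
  intro h K
  simp only [tk, if_neg hp, UTm.ren, Function.comp]
  exact .refl

theorem inst_tk (N : MTm S) (cs : ℕ → S) (r : ℕ → ℕ) (K : UTm) :
    UTm.inst (tk P act pur cs N (Nat.succ ∘ r) (.var 0)) K = tk P act pur cs N r K := by
  rw [UTm.inst, tk_sub N cs _ r (UTm.scons K UTm.var) _ (fun i => rfl)]
  rfl

theorem rep_lam (cs : ℕ → S) (N : MTm S) (r : ℕ → ℕ) :
    Rep P act pur (.lam (tk P act pur cs N (Nat.succ ∘ r) (.var 0))) cs N r := by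
  intro h K
  simp only [UTm.ren]
  refine .single ?_
  have e : UTm.ren (UTm.liftF h) (tk P act pur cs N (Nat.succ ∘ r) (.var 0))
      = tk P act pur cs N (Nat.succ ∘ (h ∘ r)) (.var 0) := by
    rw [tk_ren]; rfl
  rw [e]
  have := UTm.Step.beta (tk P act pur cs N (Nat.succ ∘ (h ∘ r)) (.var 0)) K
  rwa [inst_tk] at this

theorem tk_subst (N : MTm S) : ∀ (cs cs' : ℕ → S) (f : ℕ → MTm S) (r r' : ℕ → ℕ)
    (g : ℕ → UTm) (K : UTm),
    (∀ i, cl P cs' (MTm.strip (f i)) = .inl (cs i)) →
    (∀ i, ¬ pur (.inl (cs i)) → Rep P act pur (g (r i)) cs' (f i) r') →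
    UTm.Steps (UTm.sub g (tk P act pur cs N r K))
      (tk P act pur cs' (MTm.sub f N) r' (UTm.sub g K)) := by
  have clsub : ∀ (X : MTm S) (cs cs' : ℕ → S) (f : ℕ → MTm S),
      (∀ i, cl P cs' (MTm.strip (f i)) = .inl (cs i)) →
      cl P cs' (MTm.strip (MTm.sub f X)) = cl P cs (MTm.strip X) := by
    intro X cs cs' f hc
    rw [MTm.strip_sub]
    exact cl_sub _ _ _ _ hc
  have rshift : ∀ (u : UTm) (cs : ℕ → S) (X : MTm S) (r : ℕ → ℕ) (h : ℕ → ℕ),
      Rep P act pur u cs X r → Rep P act pur (UTm.ren h u) cs X (h ∘ r) := by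
    intro u cs X r h hu h' K
    rw [UTm.ren_ren]
    exact hu (h' ∘ h) K
  have upc : ∀ (a : S) (cs cs' : ℕ → S) (f : ℕ → MTm S),
      (∀ i, cl P cs' (MTm.strip (f i)) = .inl (cs i)) →
      ∀ i, cl P (cons a cs') (MTm.strip (MTm.up f i)) = .inl (cons a cs i) := by
    intro a cs cs' f hc i
    cases i with
    | zero => rfl
    | succ i => simp only [MTm.up, MTm.strip_ren, cl_ren]; exact hc i
  have upr : ∀ (a : S) (cs cs' : ℕ → S) (f : ℕ → MTm S) (r r' : ℕ → ℕ) (g : ℕ → UTm),
      (∀ i, ¬ pur (.inl (cs i)) → Rep P act pur (g (r i)) cs' (f i) r') →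
      ∀ i, ¬ pur (.inl (cons a cs i)) →
        Rep P act pur (UTm.up (UTm.up g) (bind2 r i)) (cons a cs') (MTm.up f i) (bind2 r') := by
    intro a cs cs' f r r' g hg i hi
    cases i with
    | zero => exact rep_var (r := bind2 r') (i := 0) hi
    | succ i =>
      intro h K
      simp only [MTm.up, bind2, UTm.up, UTm.ren_ren, tk_msren]
      exact hg i hi (h ∘ Nat.succ ∘ Nat.succ) K
  induction N with
  | var i =>
    intro cs cs' f r r' g K hc hg
    simp only [tk]
    split_ifs with hp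
    · simp only [UTm.sub, MTm.sub]
      have hp' : pur (cl P cs' (MTm.strip (f i))) := by rw [hc i]; exact hp
      generalize f i = X at hp'
      cases X with
      | var j => simp only [tk]; rw [if_pos (by simpa [MTm.strip, cl] using hp')]
      | srt s => simp only [tk]; rw [if_pos (by simpa [MTm.strip, cl] using hp')]
      | app a b => simp only [tk]; rw [if_pos (by simpa [MTm.strip, cl] using hp')]
      | lam a b => simp only [tk]; rw [if_pos hp']
      | pi a b => simp only [tk]; rw [if_pos hp']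
      | mem a b => simp only [tk]; rw [if_pos (by simpa [MTm.strip] using hp')]
    · have := hg i hp id (UTm.sub g K)
      rw [UTm.ren_id] at this
      exact this
  | srt s =>
    intro cs cs' f r r' g K hc hg
    simp only [MTm.sub, tk]
    split_ifs <;> exact .refl
  | app p q ihp ihq =>
    intro cs cs' f r r' g K hc hg
    simp only [MTm.sub, tk, clsub p cs cs' f hc]
    split_ifs
    · exact .refl
    · refine (ihp cs cs' f r r' g _ hc hg).trans (tk_steps_K _ _ _ ?_)
      simp only [UTm.sub]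
      refine UTm.Steps.lam (UTm.Steps.app (UTm.Steps.app .refl (UTm.Steps.lam ?_)) ?_)
      · exact ihq cs cs' f (fun i => r i + 2) (fun i => r' i + 2) (UTm.up (UTm.up g)) _ hc
          fun i hi => by
            have := rshift _ _ _ _ (Nat.succ ∘ Nat.succ) (hg i hi)
            rw [← UTm.ren_ren] at this
            exact this
      · rw [UTm.sub_ren, UTm.ren_sub]; exact .refl
    · simp only [UTm.sub]
      refine UTm.Steps.app (UTm.Steps.app (UTm.Steps.app .refl (UTm.Steps.lam ?_))
        (UTm.Steps.lam ?_)) .refl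
      · exact ihp cs cs' f (Nat.succ ∘ r) (Nat.succ ∘ r') (UTm.up g) _ hc
          fun i hi => rshift _ _ _ _ Nat.succ (hg i hi)
      · exact ihq cs cs' f (Nat.succ ∘ r) (Nat.succ ∘ r') (UTm.up g) _ hc
          fun i hi => rshift _ _ _ _ Nat.succ (hg i hi)
  | lam A b ihA ihb =>
    intro cs cs' f r r' g K hc hg
    have e : cl P cs' (MTm.strip (.lam (MTm.sub f A) (MTm.sub (MTm.up f) b)))
        = cl P cs (MTm.strip (.lam A b)) := clsub (MTm.lam A b) cs cs' f hc
    simp only [MTm.sub, tk, e, clsub A cs cs' f hc]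
    have hB := ihb _ _ _ _ _ _ (.var 0) (upc (bindC P (cl P cs (MTm.strip A))) cs cs' f hc)
      (upr (bindC P (cl P cs (MTm.strip A))) cs cs' f r r' g hg)
    split_ifs
    · exact .refl
    · simp only [UTm.sub]
      refine UTm.Steps.app .refl (UTm.Steps.lam (UTm.Steps.lam (UTm.Steps.app
        (UTm.Steps.app .refl (UTm.Steps.lam ?_)) (UTm.Steps.app .refl hB))))
      exact ihA cs cs' f (fun i => r i + 3) (fun i => r' i + 3)
        (UTm.up (UTm.up (UTm.up g))) _ hc fun i hi => by
          have := rshift _ _ _ _ (Nat.succ ∘ Nat.succ ∘ Nat.succ) (hg i hi)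
          simp only [← UTm.ren_ren] at this
          exact this
    · simp only [UTm.sub]
      refine UTm.Steps.app (UTm.Steps.app (UTm.Steps.app .refl (UTm.Steps.lam ?_))
        (UTm.Steps.lam (UTm.Steps.lam (UTm.Steps.app .refl hB)))) .refl
      exact ihA cs cs' f (Nat.succ ∘ r) (Nat.succ ∘ r') (UTm.up g) _ hc
        fun i hi => rshift _ _ _ _ Nat.succ (hg i hi)
  | pi A b ihA ihb =>
    intro cs cs' f r r' g K hc hg
    have e : cl P cs' (MTm.strip (.pi (MTm.sub f A) (MTm.sub (MTm.up f) b)))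
        = cl P cs (MTm.strip (.pi A b)) := clsub (MTm.pi A b) cs cs' f hc
    simp only [MTm.sub, tk, e, clsub A cs cs' f hc]
    have hB := ihb _ _ _ _ _ _ (.var 0) (upc (bindC P (cl P cs (MTm.strip A))) cs cs' f hc)
      (upr (bindC P (cl P cs (MTm.strip A))) cs cs' f r r' g hg)
    split_ifs
    · exact .refl
    · simp only [UTm.sub]
      refine UTm.Steps.app (UTm.Steps.app (UTm.Steps.app .refl (UTm.Steps.lam ?_))
        (UTm.Steps.app .refl (UTm.Steps.lam (UTm.Steps.lam (UTm.Steps.app .refl hB))))) .refl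
      exact ihA cs cs' f (Nat.succ ∘ r) (Nat.succ ∘ r') (UTm.up g) _ hc
        fun i hi => rshift _ _ _ _ Nat.succ (hg i hi)
  | mem p q ihp ihq =>
    intro cs cs' f r r' g K hc hg
    simp only [MTm.sub, tk, clsub p cs cs' f hc]
    split_ifs
    · exact .refl
    · simp only [UTm.sub]
      refine UTm.Steps.app (UTm.Steps.app .refl (UTm.Steps.lam ?_))
        (ihp cs cs' f r r' g K hc hg)
      exact ihq cs cs' f (Nat.succ ∘ r) (Nat.succ ∘ r') (UTm.up g) _ hc
        fun i hi => rshift _ _ _ _ Nat.succ (hg i hi)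

/-- Every abstraction in a translation uses its variable, and the continuation occurs. -/
theorem tk_relI (N : MTm S) : ∀ (cs : ℕ → S) (r : ℕ → ℕ) (K : UTm), UTm.RelI K →
    UTm.RelI (tk P act pur cs N r K) ∧
      ∀ i, UTm.Occ i K → UTm.Occ i (tk P act pur cs N r K) := by
  induction N with
  | var i =>
    intro cs r K hK; simp only [tk]
    split_ifs <;> exact ⟨⟨trivial, hK⟩, fun i h => .inr h⟩
  | srt s =>
    intro cs r K hK; simp only [tk]
    split_ifs <;> exact ⟨⟨trivial, hK⟩, fun i h => .inr h⟩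
  | app f a ihf iha =>
    intro cs r K hK
    simp only [tk]
    split_ifs
    · exact ⟨⟨trivial, hK⟩, fun i h => .inr h⟩
    · have hA := iha cs (fun i => r i + 2) (.var 0) trivial
      have hK' : UTm.RelI (.lam (.app (.app (.var 0)
          (.lam (tk P act pur cs a (fun i => r i + 2) (.var 0)))) (UTm.ren Nat.succ K))) :=
        ⟨.inl (.inl rfl), ⟨trivial, hA.2 0 rfl, hA.1⟩, UTm.relI_ren hK _⟩
      refine ⟨(ihf cs r _ hK').1, fun i hi => (ihf cs r _ hK').2 i ?_⟩
      exact .inr ((UTm.occ_ren _ _ _).2 ⟨i, hi, rfl⟩)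
    · have hF := ihf cs (Nat.succ ∘ r) (.var 0) trivial
      have hA := iha cs (Nat.succ ∘ r) (.var 0) trivial
      exact ⟨⟨⟨⟨trivial, hF.2 0 rfl, hF.1⟩, hA.2 0 rfl, hA.1⟩, hK⟩, fun i h => .inr h⟩
  | lam A b ihA ihb =>
    intro cs r K hK
    simp only [tk]
    have hB := fun c => ihb c (bind2 r) (.var 0) trivial
    split_ifs
    · exact ⟨⟨trivial, hK⟩, fun i h => .inr h⟩
    · have hA := ihA cs (fun i => r i + 3) (.var 0) trivial
      refine ⟨⟨hK, ?_, ?_, ⟨trivial, hA.2 0 rfl, hA.1⟩, ⟨trivial, trivial⟩, (hB _).1⟩,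
        fun i h => .inl h⟩
      · exact .inr (.inl (.inr rfl))
      · exact .inr (.inr ((hB _).2 0 rfl))
    · have hA := ihA cs (Nat.succ ∘ r) (.var 0) trivial
      refine ⟨⟨⟨⟨trivial, hA.2 0 rfl, hA.1⟩, ?_, ?_, ⟨trivial, trivial⟩, (hB _).1⟩, hK⟩,
        fun i h => .inr h⟩
      · exact .inl (.inr rfl)
      · exact .inr ((hB _).2 0 rfl)
  | pi A b ihA ihb =>
    intro cs r K hK
    simp only [tk]
    have hB := fun c => ihb c (bind2 r) (.var 0) trivial
    split_ifs
    · exact ⟨⟨trivial, hK⟩, fun i h => .inr h⟩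
    · have hA := ihA cs (Nat.succ ∘ r) (.var 0) trivial
      refine ⟨⟨⟨⟨trivial, hA.2 0 rfl, hA.1⟩, trivial, ?_, ?_, ⟨trivial, trivial⟩, (hB _).1⟩, hK⟩,
        fun i h => .inr h⟩
      · exact .inl (.inr rfl)
      · exact .inr ((hB _).2 0 rfl)
  | mem p q ihp ihq =>
    intro cs r K hK
    simp only [tk]
    split_ifs
    · exact ⟨⟨trivial, hK⟩, fun i h => .inr h⟩
    · have hQ := ihq cs (Nat.succ ∘ r) (.var 0) trivial
      exact ⟨⟨⟨trivial, hQ.2 0 rfl, hQ.1⟩, (ihp cs r K hK).1⟩,
        fun i h => .inr ((ihp cs r K hK).2 i h)⟩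

/-- The translation of a term as a computation. -/
noncomputable def trU (P : Sys S) (act pur : Cl S → Prop) [DecidablePred act] [DecidablePred pur]
    (cs : ℕ → S) (N : MTm S) (r : ℕ → ℕ) : UTm :=
  .lam (tk P act pur cs N (Nat.succ ∘ r) (.var 0))

theorem trU_relI (N : MTm S) (cs : ℕ → S) (r : ℕ → ℕ) :
    UTm.RelI (trU P act pur cs N r) :=
  ⟨(tk_relI N cs _ (.var 0) trivial).2 0 rfl, (tk_relI N cs _ (.var 0) trivial).1⟩

end Vale.Agent.P340.St
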