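import Vale.Agent.P340.StSyntax

/-! Beta reduction on internal terms and its confluence. -/

namespace Vale.Agent.P340.St

open Relation

universe u
variable {S : Type u}

open Tm

inductive Step : Tm S → Tm S → Prop where
  | beta (A M N : Tm S) : Step (app (lam A M) N) (inst M N)
  | appL {M M' : Tm S} (N : Tm S) : Step M M' → Step (app M N) (app M' N)
  | appR (M : Tm S) {N N' : Tm S} : Step N N' → Step (app M N) (app M N')
  | lamL {A A' : Tm S} (M : Tm S) : Step A A' → Step (lam A M) (lam A' M)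
  | lamR (A : Tm S) {M M' : Tm S} : Step M M' → Step (lam A M) (lam A M')
  | piL {A A' : Tm S} (B : Tm S) : Step A A' → Step (pi A B) (pi A' B)
  | piR (A : Tm S) {B B' : Tm S} : Step B B' → Step (pi A B) (pi A B')

abbrev Steps : Tm S → Tm S → Prop := ReflTransGen Step

def Conv : Tm S → Tm S → Prop := EqvGen Step

namespace Steps

theorem app {M M' N N' : Tm S} (h₁ : Steps M M') (h₂ : Steps N N') :
    Steps (.app M N) (.app M' N') :=
  (h₁.lift (fun x => Tm.app x N) fun _ _ h => Step.appL N h).trans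
    (h₂.lift (fun x => Tm.app M' x) fun _ _ h => Step.appR M' h)

theorem lam {A A' M M' : Tm S} (h₁ : Steps A A') (h₂ : Steps M M') :
    Steps (.lam A M) (.lam A' M') :=
  (h₁.lift (fun x => Tm.lam x M) fun _ _ h => Step.lamL M h).trans
    (h₂.lift (fun x => Tm.lam A' x) fun _ _ h => Step.lamR A' h)

theorem pi {A A' B B' : Tm S} (h₁ : Steps A A') (h₂ : Steps B B') :
    Steps (.pi A B) (.pi A' B') :=
  (h₁.lift (fun x => Tm.pi x B) fun _ _ h => Step.piL B h).trans
    (h₂.lift (fun x => Tm.pi A' x) fun _ _ h => Step.piR A' h)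

end Steps

theorem Step.ren {M N : Tm S} (h : Step M N) : ∀ f, Step (ren f M) (ren f N) := by
  induction h with
  | beta A M N => intro f; rw [ren_inst]; exact Step.beta _ _ _
  | appL N _ ih => intro f; exact Step.appL _ (ih f)
  | appR M _ ih => intro f; exact Step.appR _ (ih f)
  | lamL M _ ih => intro f; exact Step.lamL _ (ih f)
  | lamR A _ ih => intro f; exact Step.lamR _ (ih _)
  | piL B _ ih => intro f; exact Step.piL _ (ih f)
  | piR A _ ih => intro f; exact Step.piR _ (ih _)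

theorem Step.sub {M N : Tm S} (h : Step M N) : ∀ f, Step (sub f M) (sub f N) := by
  induction h with
  | beta A M N => intro f; rw [sub_inst]; exact Step.beta _ _ _
  | appL N _ ih => intro f; exact Step.appL _ (ih f)
  | appR M _ ih => intro f; exact Step.appR _ (ih f)
  | lamL M _ ih => intro f; exact Step.lamL _ (ih f)
  | lamR A _ ih => intro f; exact Step.lamR _ (ih _)
  | piL B _ ih => intro f; exact Step.piL _ (ih f)
  | piR A _ ih => intro f; exact Step.piR _ (ih _)

inductive Par : Tm S → Tm S → Prop where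
  | var (n : ℕ) : Par (var n) (var n)
  | srt (s : S) : Par (srt s) (srt s)
  | cst (n : ℕ) (A : Tm S) : Par (cst n A) (cst n A)
  | app {M M' N N' : Tm S} : Par M M' → Par N N' → Par (app M N) (app M' N')
  | lam {A A' M M' : Tm S} : Par A A' → Par M M' → Par (lam A M) (lam A' M')
  | pi {A A' B B' : Tm S} : Par A A' → Par B B' → Par (pi A B) (pi A' B')
  | beta (A : Tm S) {M M' N N' : Tm S} : Par M M' → Par N N' →
      Par (app (lam A M) N) (inst M' N')

theorem Par.refl : ∀ M : Tm S, Par M M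
  | .var n => .var n
  | .srt s => .srt s
  | .cst n A => .cst n A
  | .app a b => .app (Par.refl a) (Par.refl b)
  | .lam a b => .lam (Par.refl a) (Par.refl b)
  | .pi a b => .pi (Par.refl a) (Par.refl b)

theorem Par.of_step {M N : Tm S} (h : Step M N) : Par M N := by
  induction h with
  | beta A M N => exact .beta A (.refl M) (.refl N)
  | appL N _ ih => exact .app ih (.refl N)
  | appR M _ ih => exact .app (.refl M) ih
  | lamL M _ ih => exact .lam ih (.refl M)
  | lamR A _ ih => exact .lam (.refl A) ih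
  | piL B _ ih => exact .pi ih (.refl B)
  | piR A _ ih => exact .pi (.refl A) ih

theorem Par.steps {M N : Tm S} (h : Par M N) : Steps M N := by
  induction h with
  | var n => exact .refl
  | srt s => exact .refl
  | cst n A => exact .refl
  | app _ _ h₁ h₂ => exact Steps.app h₁ h₂
  | lam _ _ h₁ h₂ => exact Steps.lam h₁ h₂
  | pi _ _ h₁ h₂ => exact Steps.pi h₁ h₂
  | beta A _ _ h₁ h₂ => exact (Steps.app (Steps.lam .refl h₁) h₂).tail (.beta _ _ _)

theorem Par.ren {M N : Tm S} (h : Par M N) : ∀ f, Par (ren f M) (ren f N) := by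
  induction h with
  | var n => intro f; exact .refl _
  | srt s => intro f; exact .refl _
  | cst n A => intro f; exact .refl _
  | app _ _ h₁ h₂ => intro f; exact .app (h₁ f) (h₂ f)
  | lam _ _ h₁ h₂ => intro f; exact .lam (h₁ f) (h₂ _)
  | pi _ _ h₁ h₂ => intro f; exact .pi (h₁ f) (h₂ _)
  | beta A _ _ h₁ h₂ => intro f; rw [ren_inst]; exact .beta _ (h₁ _) (h₂ f)

theorem Par.up {f g : ℕ → Tm S} (h : ∀ n, Par (f n) (g n)) :
    ∀ n, Par (Tm.up f n) (Tm.up g n)
  | 0 => .refl _
  | n + 1 => (h n).ren _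

theorem Par.sub {M N : Tm S} (h : Par M N) :
    ∀ f g : ℕ → Tm S, (∀ n, Par (f n) (g n)) → Par (sub f M) (sub g N) := by
  induction h with
  | var n => intro f g hfg; exact hfg n
  | srt s => intro f g hfg; exact .refl _
  | cst n A => intro f g hfg; exact .refl _
  | app _ _ h₁ h₂ => intro f g hfg; exact .app (h₁ f g hfg) (h₂ f g hfg)
  | lam _ _ h₁ h₂ => intro f g hfg; exact .lam (h₁ f g hfg) (h₂ _ _ (Par.up hfg))
  | pi _ _ h₁ h₂ => intro f g hfg; exact .pi (h₁ f g hfg) (h₂ _ _ (Par.up hfg))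
  | beta A _ _ h₁ h₂ =>
    intro f g hfg; rw [sub_inst]; exact .beta _ (h₁ _ _ (Par.up hfg)) (h₂ f g hfg)

theorem Par.inst {M M' N N' : Tm S} (h₁ : Par M M') (h₂ : Par N N') :
    Par (Tm.inst M N) (Tm.inst M' N') :=
  h₁.sub _ _ fun n => match n with
    | 0 => h₂
    | k + 1 => .var k

/-- Complete development. -/
def dev : Tm S → Tm S
  | .var n => .var n
  | .srt s => .srt s
  | .cst n A => .cst n A
  | .lam a b => .lam (dev a) (dev b)
  | .pi a b => .pi (dev a) (dev b)
  | .app a b =>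
    match a with
    | .lam _ m => Tm.inst (dev m) (dev b)
    | .var n => .app (dev (.var n)) (dev b)
    | .srt s => .app (dev (.srt s)) (dev b)
    | .cst n A => .app (dev (.cst n A)) (dev b)
    | .app x y => .app (dev (.app x y)) (dev b)
    | .pi x y => .app (dev (.pi x y)) (dev b)

theorem Par.triangle {M N : Tm S} (h : Par M N) : Par N (dev M) := by
  induction h with
  | var n => exact .refl _
  | srt s => exact .refl _
  | cst n A => exact .refl _
  | lam _ _ h₁ h₂ => exact .lam h₁ h₂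
  | pi _ _ h₁ h₂ => exact .pi h₁ h₂
  | beta A _ _ h₁ h₂ =>
    simp only [dev]
    exact h₁.inst h₂
  | @app M M' N N' hM hN h₁ h₂ =>
    cases M with
    | lam A m =>
      cases hM with
      | lam hA hm =>
        simp only [dev] at h₁ ⊢
        cases h₁ with
        | lam h₃ h₄ => exact .beta _ h₄ h₂
    | var n => simp only [dev] at h₁ ⊢; exact .app h₁ h₂
    | srt s => simp only [dev] at h₁ ⊢; exact .app h₁ h₂
    | cst n A => simp only [dev] at h₁ ⊢; exact .app h₁ h₂
    | app x y => rw [show dev (.app (.app x y) N) = .app (dev (.app x y)) (dev N) from by simp [dev]]; exact .app h₁ h₂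
    | pi x y => simp only [dev] at h₁ ⊢; exact .app h₁ h₂

theorem church_rosser {M A B : Tm S} (h₁ : Steps M A) (h₂ : Steps M B) :
    ∃ C, Steps A C ∧ Steps B C := by
  have e : ∀ X Y : Tm S, ReflTransGen Par X Y ↔ Steps X Y := by
    intro X Y
    constructor
    · intro h
      induction h with
      | refl => exact .refl
      | tail _ hs ih => exact ih.trans hs.steps
    · intro h
      induction h with
      | refl => exact .refl
      | tail _ hs ih => exact ih.tail (.of_step hs)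
  obtain ⟨C, hA, hB⟩ := Relation.church_rosser (r := Par)
    (fun a b c hab hac => ⟨dev a, .single hab.triangle, .single hac.triangle⟩)
    ((e _ _).2 h₁) ((e _ _).2 h₂)
  exact ⟨C, (e _ _).1 hA, (e _ _).1 hB⟩

theorem Conv.refl (M : Tm S) : Conv M M := EqvGen.refl M

theorem Conv.symm {M N : Tm S} (h : Conv M N) : Conv N M := EqvGen.symm _ _ h

theorem Conv.trans {M N K : Tm S} (h : Conv M N) (h' : Conv N K) : Conv M K :=
  EqvGen.trans _ _ _ h h'

theorem Conv.of_steps {M N : Tm S} (h : Steps M N) : Conv M N := by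
  induction h with
  | refl => exact Conv.refl _
  | tail _ hs ih => exact ih.trans (EqvGen.rel _ _ hs)

theorem conv_iff {M N : Tm S} : Conv M N ↔ ∃ C, Steps M C ∧ Steps N C := by
  constructor
  · intro h
    induction h with
    | rel a b h => exact ⟨b, .single h, .refl⟩
    | refl a => exact ⟨a, .refl, .refl⟩
    | symm a b _ ih => obtain ⟨C, h₁, h₂⟩ := ih; exact ⟨C, h₂, h₁⟩
    | trans a b c _ _ ih₁ ih₂ =>
      obtain ⟨C, h₁, h₂⟩ := ih₁
      obtain ⟨D, h₃, h₄⟩ := ih₂
      obtain ⟨E, h₅, h₆⟩ := church_rosser h₂ h₃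
      exact ⟨E, h₁.trans h₅, h₄.trans h₆⟩
  · rintro ⟨C, h₁, h₂⟩
    exact (Conv.of_steps h₁).trans (Conv.of_steps h₂).symm

theorem Steps.ren {M N : Tm S} (h : Steps M N) (f : ℕ → ℕ) : Steps (Tm.ren f M) (Tm.ren f N) :=
  h.lift _ fun _ _ hs => hs.ren f

theorem Steps.sub {M N : Tm S} (h : Steps M N) (f : ℕ → Tm S) :
    Steps (Tm.sub f M) (Tm.sub f N) :=
  h.lift _ fun _ _ hs => hs.sub f

theorem Steps.up {f g : ℕ → Tm S} (h : ∀ n, Steps (f n) (g n)) :
    ∀ n, Steps (Tm.up f n) (Tm.up g n)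
  | 0 => .refl
  | n + 1 => (h n).ren _

theorem Steps.sub_arg (M : Tm S) :
    ∀ f g : ℕ → Tm S, (∀ n, Steps (f n) (g n)) → Steps (Tm.sub f M) (Tm.sub g M) := by
  induction M with
  | var n => intro f g h; exact h n
  | srt s => intro f g h; exact .refl
  | cst n A => intro f g h; exact .refl
  | app a b ha hb => intro f g h; exact Steps.app (ha f g h) (hb f g h)
  | lam a b ha hb => intro f g h; exact Steps.lam (ha f g h) (hb _ _ (Steps.up h))
  | pi a b ha hb => intro f g h; exact Steps.pi (ha f g h) (hb _ _ (Steps.up h))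

theorem Conv.ren {M N : Tm S} (h : Conv M N) (f : ℕ → ℕ) : Conv (Tm.ren f M) (Tm.ren f N) := by
  obtain ⟨C, h₁, h₂⟩ := conv_iff.1 h
  exact conv_iff.2 ⟨_, h₁.ren f, h₂.ren f⟩

theorem Conv.sub {M N : Tm S} (h : Conv M N) (f : ℕ → Tm S) :
    Conv (Tm.sub f M) (Tm.sub f N) := by
  obtain ⟨C, h₁, h₂⟩ := conv_iff.1 h
  exact conv_iff.2 ⟨_, h₁.sub f, h₂.sub f⟩

theorem Steps.pi_inv {A B C : Tm S} (h : Steps (Tm.pi A B) C) :
    ∃ A' B', C = Tm.pi A' B' ∧ Steps A A' ∧ Steps B B' := by
  induction h with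
  | refl => exact ⟨A, B, rfl, .refl, .refl⟩
  | tail _ hs ih =>
    obtain ⟨A', B', rfl, hA, hB⟩ := ih
    cases hs with
    | piL _ h => exact ⟨_, _, rfl, hA.tail h, hB⟩
    | piR _ h => exact ⟨_, _, rfl, hA, hB.tail h⟩

theorem Conv.pi_inj {A B A' B' : Tm S} (h : Conv (Tm.pi A B) (Tm.pi A' B')) :
    Conv A A' ∧ Conv B B' := by
  obtain ⟨C, h₁, h₂⟩ := conv_iff.1 h
  obtain ⟨X, Y, rfl, hX, hY⟩ := h₁.pi_inv
  obtain ⟨X', Y', he, hX', hY'⟩ := h₂.pi_inv
  cases he
  exact ⟨conv_iff.2 ⟨_, hX, hX'⟩, conv_iff.2 ⟨_, hY, hY'⟩⟩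

theorem Steps.srt_inv {s : S} {C : Tm S} (h : Steps (Tm.srt s) C) : C = Tm.srt s := by
  induction h with
  | refl => rfl
  | tail _ hs ih => subst ih; cases hs

theorem Conv.srt_inj {s t : S} (h : Conv (Tm.srt s) (Tm.srt t)) : s = t := by
  obtain ⟨C, h₁, h₂⟩ := conv_iff.1 h
  have := h₁.srt_inv.symm.trans h₂.srt_inv
  exact Tm.srt.inj this

theorem Conv.srt_pi {s : S} {A B : Tm S} (h : Conv (Tm.srt s) (Tm.pi A B)) : False := by
  obtain ⟨C, h₁, h₂⟩ := conv_iff.1 h
  obtain ⟨X, Y, he, -, -⟩ := h₂.pi_inv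
  rw [h₁.srt_inv] at he
  cases he

end Vale.Agent.P340.St
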