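import Vale.Agent.P340.StMeta

/-!
Classes of terms in a stratified specification: uniqueness of types and classification.
-/

namespace Vale.Agent.P340.St

open Tm Classical

universe u
variable {S : Type u}

/-- Stratified: functional injective axioms, products have the sort of their codomain. -/
structure Strat (P : Sys S) : Prop where
  func : ∀ s t t', P.Ax s t → P.Ax s t' → t = t'
  inj : ∀ s s' t, P.Ax s t → P.Ax s' t → s = s'
  cod : ∀ s t u, P.Rule s t u → u = t

/-- `inl s`: the class of terms whose type has sort `s`;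
`inr t`: the class of terms whose type is the top sort `t`. -/
abbrev Cl (S : Type u) := S ⊕ S

/-- The class of the types of sort `s`. -/
noncomputable def memC (P : Sys S) (s : S) : Cl S :=
  if h : ∃ t, P.Ax s t then .inl h.choose else .inr s

/-- The binder class determined by the class of the annotation. -/
noncomputable def bindC (P : Sys S) : Cl S → S
  | .inl t => if h : ∃ s, P.Ax s t then h.choose else t
  | .inr s => s

noncomputable def srtC (P : Sys S) (s : S) : Cl S :=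
  if h : ∃ t, P.Ax s t then memC P h.choose else .inr s

def cons (a : S) (c : ℕ → S) : ℕ → S
  | 0 => a
  | n + 1 => c n

@[simp] theorem cons_zero (a : S) (c : ℕ → S) : cons a c 0 = a := rfl
@[simp] theorem cons_succ (a : S) (c : ℕ → S) (n : ℕ) : cons a c (n + 1) = c n := rfl

variable [Inhabited S]

noncomputable def cl (P : Sys S) : (ℕ → S) → Tm S → Cl S
  | c, .var i => .inl (c i)
  | _, .srt s => srtC P s
  | _, .cst _ A => .inl (bindC P (cl P (fun _ => default) A))
  | c, .app f _ => cl P c f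
  | c, .lam A b => cl P (cons (bindC P (cl P c A)) c) b
  | c, .pi A B => cl P (cons (bindC P (cl P c A)) c) B

/-- The classes of the variables of a context. -/
noncomputable def ctxC (P : Sys S) : List (Tm S) → ℕ → S
  | [] => fun _ => default
  | A :: Γ => cons (bindC P (cl P (ctxC P Γ) A)) (ctxC P Γ)

variable {P : Sys S}

theorem cl_ren (M : Tm S) : ∀ (c : ℕ → S) (f : ℕ → ℕ),
    cl P c (Tm.ren f M) = cl P (c ∘ f) M := by
  induction M with
  | var i => intros; rfl
  | srt s => intros; rfl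
  | cst n A _ => intros; rfl
  | app a b ha _ => intro c f; exact ha c f
  | lam a b ha hb =>
    intro c f; simp only [Tm.ren, cl, hb, ha]; congr 1; funext n; cases n <;> rfl
  | pi a b ha hb =>
    intro c f; simp only [Tm.ren, cl, hb, ha]; congr 1; funext n; cases n <;> rfl

theorem cl_sh (M : Tm S) (c : ℕ → S) (a : S) : cl P (cons a c) (Tm.sh M) = cl P c M := by
  rw [Tm.sh, cl_ren]; rfl

theorem cl_sub (M : Tm S) : ∀ (c c' : ℕ → S) (f : ℕ → Tm S),
    (∀ i, cl P c' (f i) = .inl (c i)) → cl P c' (Tm.sub f M) = cl P c M := by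
  induction M with
  | var i => intro c c' f h; exact h i
  | srt s => intros; rfl
  | cst n A _ => intros; rfl
  | app a b ha _ => intro c c' f h; exact ha c c' f h
  | lam a b ha hb =>
    intro c c' f h
    simp only [Tm.sub, cl, ha c c' f h]
    apply hb
    rintro (_ | i)
    · rfl
    · simp only [Tm.up_succ, cons_succ]; rw [← Tm.sh, cl_sh]; exact h i
  | pi a b ha hb =>
    intro c c' f h
    simp only [Tm.sub, cl, ha c c' f h]
    apply hb
    rintro (_ | i)
    · rfl
    · simp only [Tm.up_succ, cons_succ]; rw [← Tm.sh, cl_sh]; exact h i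

theorem cl_inst {M N : Tm S} {c : ℕ → S} {a : S} (h : cl P c N = .inl a) :
    cl P c (Tm.inst M N) = cl P (cons a c) M := by
  refine cl_sub M _ _ _ ?_
  rintro (_ | i)
  · exact h
  · rfl

theorem Has.srt_of_ax {Γ : List (Tm S)} (h : Wf P Γ) {s t : S} (ha : P.Ax s t) :
    Has P Γ (srt s) (srt t) :=
  h.weakenClosed (.ax ha)

variable (hP : Strat P)
include hP

theorem uniq_type {M : Tm S} : ∀ {Γ : List (Tm S)} {A B : Tm S},
    Has P Γ M A → Has P Γ M B → Conv A B := by
  induction M with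
  | var i =>
    intro Γ A B h h'
    obtain ⟨X, hX, hc⟩ := h.gen_var
    obtain ⟨Y, hY, hc'⟩ := h'.gen_var
    rw [hX.det hY] at hc
    exact hc.trans hc'.symm
  | srt s =>
    intro Γ A B h h'
    obtain ⟨t, ht, hc⟩ := h.gen_srt
    obtain ⟨t', ht', hc'⟩ := h'.gen_srt
    rw [hP.func s t t' ht ht'] at hc
    exact hc.trans hc'.symm
  | cst n X _ => intro Γ A B h h'; exact h.gen_cst.2.trans h'.gen_cst.2.symm
  | app f a ihf _ =>
    intro Γ A B h h'
    obtain ⟨X, Y, hf, -, hc⟩ := h.gen_app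
    obtain ⟨X', Y', hf', -, hc'⟩ := h'.gen_app
    exact hc.trans (((ihf hf hf').pi_inj.2.sub _).trans hc'.symm)
  | lam X b _ ihb =>
    intro Γ A B h h'
    obtain ⟨Y, s, hb, -, hc⟩ := h.gen_lam
    obtain ⟨Y', s', hb', -, hc'⟩ := h'.gen_lam
    obtain ⟨Z, h₁, h₂⟩ := conv_iff.1 (ihb hb hb')
    exact hc.trans ((conv_iff.2 ⟨_, Steps.pi .refl h₁, Steps.pi .refl h₂⟩).trans hc'.symm)
  | pi X Y _ ihY =>
    intro Γ A B h h'
    obtain ⟨s, t, u, -, hY, hr, hc⟩ := h.gen_pi
    obtain ⟨s', t', u', -, hY', hr', hc'⟩ := h'.gen_pi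
    have e := (ihY hY hY').srt_inj
    rw [hP.cod _ _ _ hr] at hc
    rw [hP.cod _ _ _ hr', ← e] at hc'
    exact hc.trans hc'.symm

theorem uniq_sort {M : Tm S} {Γ : List (Tm S)} {s t : S}
    (h : Has P Γ M (srt s)) (h' : Has P Γ M (srt t)) : s = t :=
  (uniq_type hP h h').srt_inj

theorem memC_ax {s t : S} (h : P.Ax s t) : memC P s = .inl t := by
  have hh : ∃ t, P.Ax s t := ⟨t, h⟩
  rw [memC, dif_pos hh, hP.func _ _ _ hh.choose_spec h]

omit [Inhabited S] hP in
theorem memC_top {s : S} (h : ∀ t, ¬ P.Ax s t) : memC P s = .inr s := by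
  rw [memC, dif_neg (fun ⟨t, ht⟩ => h t ht)]

theorem srtC_ax {s t : S} (h : P.Ax s t) : srtC P s = memC P t := by
  have hh : ∃ t, P.Ax s t := ⟨t, h⟩
  rw [srtC, dif_pos hh, hP.func _ _ _ hh.choose_spec h]

theorem bindC_memC (s : S) : bindC P (memC P s) = s := by
  by_cases h : ∃ t, P.Ax s t
  · obtain ⟨t, ht⟩ := h
    have hh : ∃ s, P.Ax s t := ⟨s, ht⟩
    rw [memC_ax hP ht]
    simp only [bindC, dif_pos hh]
    exact hP.inj _ _ _ hh.choose_spec ht
  · rw [memC_top (fun t ht => h ⟨t, ht⟩)]; rfl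

/-- The class of a term is determined by the sort of its type. -/
theorem classify {Γ : List (Tm S)} {M A : Tm S} (h : Has P Γ M A) :
    (∀ s, Has P Γ A (srt s) → cl P (ctxC P Γ) M = .inl s) ∧
      (∀ t, A = srt t → cl P (ctxC P Γ) M = memC P t) := by
  induction h with
  | @ax s t ha =>
    refine ⟨fun u hu => ?_, fun t' e => by cases e; exact srtC_ax hP ha⟩
    obtain ⟨u', hu', hc⟩ := hu.gen_srt
    rw [hc.srt_inj]
    exact (srtC_ax hP ha).trans (memC_ax hP hu')
  | @cst A s n hok hA ih =>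
    have e : cl P (ctxC P []) (cst n A) = .inl s := by
      show Sum.inl (bindC P (cl P (ctxC P []) A)) = _
      rw [ih.2 s rfl, bindC_memC hP]
    refine ⟨fun u hu => by rw [e, uniq_sort hP hu hA], fun t et => ?_⟩
    subst et
    obtain ⟨s', hs', hc⟩ := hA.gen_srt
    rw [e, hc.srt_inj, memC_ax hP hs']
  | @var Γ A s hA ih =>
    have e : cl P (ctxC P (A :: Γ)) (var 0) = .inl s := by
      show Sum.inl (bindC P (cl P (ctxC P Γ) A)) = _
      rw [ih.2 s rfl, bindC_memC hP]
    refine ⟨fun u hu => by rw [e, uniq_sort hP hu (hA.sh hA)], fun t et => ?_⟩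
    cases A with
    | srt a =>
      cases et
      obtain ⟨s', hs', hc⟩ := hA.gen_srt
      rw [e, hc.srt_inj, memC_ax hP hs']
    | _ => simp [Tm.sh, Tm.ren] at et
  | @weak Γ M B A s hM hA ihM _ =>
    have e : cl P (ctxC P (A :: Γ)) (Tm.sh M) = cl P (ctxC P Γ) M := cl_sh M _ _
    refine ⟨fun u hu => ?_, fun t et => ?_⟩
    · rw [e]
      rcases hM.correct with ⟨s', hs'⟩ | ⟨s', rfl⟩
      · rw [uniq_sort hP hu (hs'.sh hA)]; exact ihM.1 _ hs'
      · obtain ⟨u', hu', hc⟩ := (show Has P _ (srt s') _ from hu).gen_srt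
        rw [hc.srt_inj]
        exact ihM.1 _ (Has.srt_of_ax hM.wf hu')
    · cases B with
      | srt b => cases et; rw [e]; exact ihM.2 _ rfl
      | _ => simp [Tm.sh, Tm.ren] at et
  | @pi Γ A B s t u hA hB hr ihA ihB =>
    have e : cl P (ctxC P Γ) (Tm.pi A B) = memC P u := by
      rw [hP.cod _ _ _ hr]; exact ihB.2 t rfl
    refine ⟨fun w hw => ?_, fun t' et => by cases et; exact e⟩
    obtain ⟨w', hw', hc⟩ := hw.gen_srt
    rw [e, hc.srt_inj]
    exact memC_ax hP hw'
  | @lam Γ A B M s hM hPi ihM _ =>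
    refine ⟨fun w hw => ?_, fun t' et => by cases et⟩
    obtain ⟨_, t, u, _, hB, hr, hc⟩ := hPi.gen_pi
    rw [uniq_sort hP hw hPi, hc.srt_inj, hP.cod _ _ _ hr]
    exact ihM.1 t hB
  | @app Γ A B M N hM hN ihM _ =>
    rcases hM.correct with ⟨s, hs⟩ | ⟨s, e⟩
    · obtain ⟨_, t, u, _, hB, hr, hc⟩ := hs.gen_pi
      have hT : Has P Γ (Tm.inst B N) (srt t) := hB.inst hN
      have e : cl P (ctxC P Γ) (Tm.app M N) = .inl t := by
        show cl P _ M = _
        rw [ihM.1 s hs, hc.srt_inj, hP.cod _ _ _ hr]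
      refine ⟨fun w hw => by rw [e, uniq_sort hP hw hT], fun t' et => ?_⟩
      rw [et] at hT
      obtain ⟨t'', ht'', hc'⟩ := hT.gen_srt
      rw [e, hc'.srt_inj, memC_ax hP ht'']
    · cases e
  | @conv Γ M A B s hM hB hc ihM _ =>
    have e : cl P (ctxC P Γ) M = .inl s := by
      obtain ⟨C, h₁, h₂⟩ := conv_iff.1 hc
      rcases hM.correct with ⟨s', hs'⟩ | ⟨s', rfl⟩
      · rw [uniq_sort hP (hB.steps h₂) (hs'.steps h₁)]; exact ihM.1 _ hs'
      · rw [h₁.srt_inv] at h₂
        obtain ⟨u, hu, hcu⟩ := (hB.steps h₂).gen_srt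
        rw [hcu.srt_inj]
        exact ihM.1 u (Has.srt_of_ax hM.wf hu)
    refine ⟨fun w hw => by rw [e, uniq_sort hP hw hB], fun t' et => ?_⟩
    subst et
    obtain ⟨t'', ht'', hc'⟩ := hB.gen_srt
    rw [e, hc'.srt_inj, memC_ax hP ht'']

theorem cl_type {Γ : List (Tm S)} {A : Tm S} {s : S} (h : Has P Γ A (srt s)) :
    cl P (ctxC P Γ) A = memC P s :=
  (classify hP h).2 s rfl

theorem cl_term {Γ : List (Tm S)} {M A : Tm S} {s : S} (h : Has P Γ M A)
    (hA : Has P Γ A (srt s)) : cl P (ctxC P Γ) M = .inl s :=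
  (classify hP h).1 s hA

theorem ctxC_cons {Γ : List (Tm S)} {A : Tm S} {s : S} (h : Has P Γ A (srt s)) :
    ctxC P (A :: Γ) = cons s (ctxC P Γ) := by
  show cons _ _ = _
  rw [cl_type hP h, bindC_memC hP]

theorem cl_steps {Γ : List (Tm S)} {M N A : Tm S} (h : Has P Γ M A) (hs : Steps M N) :
    cl P (ctxC P Γ) N = cl P (ctxC P Γ) M := by
  have h' := h.steps hs
  rcases h.correct with ⟨s, hA⟩ | ⟨s, rfl⟩
  · rw [cl_term hP h hA, cl_term hP h' hA]
  · rw [(classify hP h).2 s rfl, (classify hP h').2 s rfl]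

end Vale.Agent.P340.St
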