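import Vale.Agent.P340.StMem
import Vale.Agent.P340.StCPS

/-!
Erasure of a typed term of class `c`: keep the abstractions and applications of class-`c`
arguments, drop annotations and all other binders and arguments.
-/

namespace Vale.Agent.P340.St

open Relation

universe u
variable {S : Type u} [Inhabited S]

open Classical

/-- The number of class-`c` variables below index `i`. -/
noncomputable def rk (c : S) : (ℕ → S) → ℕ → ℕ
  | _, 0 => 0
  | cs, i + 1 => rk c (cs ∘ Nat.succ) i + if cs 0 = c then 1 else 0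

noncomputable def er (P : Sys S) (c : S) : (ℕ → S) → Tm S → UTm
  | cs, .var i => .var (rk c cs i)
  | _, .srt _ => .cst Tag.srtT
  | _, .cst n _ => .cst n
  | cs, .app f a =>
    if cl P cs a = .inl c then .app (er P c cs f) (er P c cs a) else er P c cs f
  | cs, .lam A b =>
    if bindC P (cl P cs A) = c then .lam (er P c (cons (bindC P (cl P cs A)) cs) b)
    else er P c (cons (bindC P (cl P cs A)) cs) b
  | cs, .pi A b =>
    if bindC P (cl P cs A) = c then
      .app (.cst Tag.piT) (.lam (er P c (cons (bindC P (cl P cs A)) cs) b))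
    else er P c (cons (bindC P (cl P cs A)) cs) b

variable {P : Sys S} {c : S}

theorem rk_cons (a : S) (cs : ℕ → S) (i : ℕ) :
    rk c (cons a cs) (i + 1) = rk c cs i + if a = c then 1 else 0 := rfl

theorem er_ren (M : Tm S) : ∀ (cs : ℕ → S) (h : ℕ → ℕ) (h' : ℕ → ℕ),
    cl P (cs ∘ h) M = .inl c →
    (∀ i, cs (h i) = c → rk c cs (h i) = h' (rk c (cs ∘ h) i)) →
    er P c cs (Tm.ren h M) = UTm.ren h' (er P c (cs ∘ h) M) := by
  induction M with
  | var i =>
    intro cs h h' hc hr
    simp only [Tm.ren, er, UTm.ren]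
    rw [hr i (Sum.inl.inj hc)]
  | srt s => intros; rfl
  | cst n A _ => intros; rfl
  | app f a ihf iha =>
    intro cs h h' hc hr
    simp only [Tm.ren, er, cl_ren]
    split_ifs with ha
    · simp only [UTm.ren, ihf cs h h' hc hr, iha cs h h' ha hr]
    · exact ihf cs h h' hc hr
  | lam A b _ ihb =>
    intro cs h h' hc hr
    simp only [Tm.ren, er, cl_ren]
    simp only [cl] at hc
    generalize bindC P (cl P (cs ∘ h) A) = a at hc ⊢
    rw [← cons_upR] at hc
    split_ifs with ha
    · simp only [UTm.ren]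
      rw [ihb _ _ (UTm.liftF h') hc, cons_upR]
      rintro (_ | i) hi
      · rfl
      · simp only [upR_succ, cons_upR, rk_cons, if_pos ha, UTm.liftF]
        rw [hr i hi]
    · rw [ihb _ _ h' hc, cons_upR]
      rintro (_ | i) hi
      · exact absurd hi ha
      · simp only [upR_succ, cons_upR, rk_cons, if_neg ha, Nat.add_zero]
        exact hr i hi
  | pi A b _ ihb =>
    intro cs h h' hc hr
    simp only [Tm.ren, er, cl_ren]
    simp only [cl] at hc
    generalize bindC P (cl P (cs ∘ h) A) = a at hc ⊢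
    rw [← cons_upR] at hc
    split_ifs with ha
    · simp only [UTm.ren]
      rw [ihb _ _ (UTm.liftF h') hc, cons_upR]
      rintro (_ | i) hi
      · rfl
      · simp only [upR_succ, cons_upR, rk_cons, if_pos ha, UTm.liftF]
        rw [hr i hi]
    · rw [ihb _ _ h' hc, cons_upR]
      rintro (_ | i) hi
      · exact absurd hi ha
      · simp only [upR_succ, cons_upR, rk_cons, if_neg ha, Nat.add_zero]
        exact hr i hi

theorem er_sh {M : Tm S} {cs : ℕ → S} {a : S} (h : cl P cs M = .inl c) :
    er P c (cons a cs) (Tm.sh M) = if a = c then UTm.ren Nat.succ (er P c cs M)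
      else er P c cs M := by
  split_ifs with ha
  · exact er_ren M (cons a cs) Nat.succ Nat.succ h fun i _ => by
      show rk c (cons a cs) (i + 1) = rk c cs i + 1
      rw [rk_cons, if_pos ha]
  · rw [show er P c cs M = UTm.ren id (er P c cs M) from (UTm.ren_id _).symm]
    exact er_ren M (cons a cs) Nat.succ id h fun i _ => by
      show rk c (cons a cs) (i + 1) = rk c cs i
      rw [rk_cons, if_neg ha, Nat.add_zero]

theorem er_sub (M : Tm S) : ∀ (cs cs' : ℕ → S) (f : ℕ → Tm S) (g : ℕ → UTm),
    cl P cs M = .inl c → (∀ i, cl P cs' (f i) = .inl (cs i)) →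
    (∀ i, cs i = c → er P c cs' (f i) = g (rk c cs i)) →
    er P c cs' (Tm.sub f M) = UTm.sub g (er P c cs M) := by
  induction M with
  | var i =>
    intro cs cs' f g hc hf hg
    simp only [Tm.sub, er, UTm.sub]
    exact hg i (Sum.inl.inj hc)
  | srt s => intros; rfl
  | cst n A _ => intros; rfl
  | app p q ihp ihq =>
    intro cs cs' f g hc hf hg
    simp only [Tm.sub, er, cl_sub q _ _ _ hf]
    split_ifs with ha
    · simp only [UTm.sub, ihp cs cs' f g hc hf hg, ihq cs cs' f g ha hf hg]
    · exact ihp cs cs' f g hc hf hg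
  | lam A b _ ihb =>
    intro cs cs' f g hc hf hg
    simp only [Tm.sub, er, cl_sub A _ _ _ hf]
    simp only [cl] at hc
    generalize bindC P (cl P cs A) = a at hc ⊢
    have hup : ∀ i, cl P (cons a cs') (Tm.up f i) = .inl (cons a cs i) := by
      intro i; cases i with
      | zero => rfl
      | succ i => simp only [Tm.up_succ]; rw [← Tm.sh, cl_sh]; exact hf i
    split_ifs with ha
    · simp only [UTm.sub]
      rw [ihb _ _ _ (UTm.up g) hc hup]
      rintro (_ | i) hi
      · rfl
      · have h₀ : cl P cs' (f i) = .inl c := by rw [hf i, show cs i = c from hi]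
        rw [Tm.up_succ, ← Tm.sh, er_sh h₀, if_pos ha, rk_cons, if_pos ha, hg i hi]
        rfl
    · rw [ihb _ _ _ g hc hup]
      rintro (_ | i) hi
      · exact absurd hi ha
      · have h₀ : cl P cs' (f i) = .inl c := by rw [hf i, show cs i = c from hi]
        rw [Tm.up_succ, ← Tm.sh, er_sh h₀, if_neg ha, rk_cons, if_neg ha, hg i hi, Nat.add_zero]
  | pi A b _ ihb =>
    intro cs cs' f g hc hf hg
    simp only [Tm.sub, er, cl_sub A _ _ _ hf]
    simp only [cl] at hc
    generalize bindC P (cl P cs A) = a at hc ⊢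
    have hup : ∀ i, cl P (cons a cs') (Tm.up f i) = .inl (cons a cs i) := by
      intro i; cases i with
      | zero => rfl
      | succ i => simp only [Tm.up_succ]; rw [← Tm.sh, cl_sh]; exact hf i
    split_ifs with ha
    · simp only [UTm.sub]
      rw [ihb _ _ _ (UTm.up g) hc hup]
      rintro (_ | i) hi
      · rfl
      · have h₀ : cl P cs' (f i) = .inl c := by rw [hf i, show cs i = c from hi]
        rw [Tm.up_succ, ← Tm.sh, er_sh h₀, if_pos ha, rk_cons, if_pos ha, hg i hi]
        rfl
    · rw [ihb _ _ _ g hc hup]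
      rintro (_ | i) hi
      · exact absurd hi ha
      · have h₀ : cl P cs' (f i) = .inl c := by rw [hf i, show cs i = c from hi]
        rw [Tm.up_succ, ← Tm.sh, er_sh h₀, if_neg ha, rk_cons, if_neg ha, hg i hi, Nat.add_zero]

theorem er_inst {M N : Tm S} {cs : ℕ → S} {a : S} (hM : cl P (cons a cs) M = .inl c)
    (hN : cl P cs N = .inl a) :
    er P c cs (Tm.inst M N) = if a = c then UTm.inst (er P c (cons a cs) M) (er P c cs N)
      else er P c (cons a cs) M := by
  have hf : ∀ i, cl P cs (Tm.scons N Tm.var i) = .inl (cons a cs i) := by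
    intro i; cases i with
    | zero => exact hN
    | succ i => rfl
  split_ifs with ha
  · refine er_sub M _ _ _ _ hM hf ?_
    rintro (_ | i) _
    · rfl
    · rw [rk_cons, if_pos ha]; rfl
  · rw [show er P c (cons a cs) M = UTm.sub UTm.var (er P c (cons a cs) M) from
      (UTm.sub_var _).symm]
    refine er_sub M _ _ _ _ hM hf ?_
    rintro (_ | i) hi
    · exact absurd hi ha
    · rw [rk_cons, if_neg ha]; rfl

variable (hP : Strat P)
include hP

theorem cl_body {Γ : List (Tm S)} {A M T : Tm S} (h : Has P Γ (Tm.lam A M) T) :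
    ∃ s B, Has P Γ A (.srt s) ∧ Has P (A :: Γ) M B ∧
      ctxC P (A :: Γ) = cons (bindC P (cl P (ctxC P Γ) A)) (ctxC P Γ) := by
  obtain ⟨B, u, hM, hpi, -⟩ := h.gen_lam
  obtain ⟨s, _, _, hA, -, -, -⟩ := hpi.gen_pi
  exact ⟨s, B, hA, hM, rfl⟩

theorem er_step {Γ : List (Tm S)} {t t' : Tm S} (hs : Step t t') :
    ∀ {Γ : List (Tm S)} {T : Tm S}, Has P Γ t T → cl P (ctxC P Γ) t = .inl c →
      UTm.Steps (er P c (ctxC P Γ) t) (er P c (ctxC P Γ) t') := by
  induction hs with
  | beta A M N =>
    intro Γ T h hc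
    obtain ⟨s, t, hA, hN, -, -, hcN, hcA⟩ := redex_classes hP h
    simp only [er, cl, hcA, bindC_memC hP, hcN] at hc ⊢
    rw [er_inst hc hcN]
    by_cases hs : s = c
    · rw [if_pos (by rw [hs]), if_pos hs, if_pos hs]
      exact .single (.beta _ _)
    · rw [if_neg (fun e => hs (Sum.inl.inj e)), if_neg hs, if_neg hs]
  | @appL M M' N hM ih =>
    intro Γ T h hc
    obtain ⟨A, B, hf, -, -⟩ := h.gen_app
    simp only [er]
    split_ifs with ha
    · exact UTm.Steps.app (ih hf hc) .refl
    · exact ih hf hc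
  | @appR M N N' hN ih =>
    intro Γ T h hc
    obtain ⟨A, B, -, ha', -⟩ := h.gen_app
    simp only [er, cl_steps hP ha' (.single hN)]
    split_ifs with ha
    · exact UTm.Steps.app .refl (ih ha' ha)
    · exact .refl
  | @lamL A A' M hA ih =>
    intro Γ T h hc
    obtain ⟨s, B, hA', -, -⟩ := cl_body hP h
    simp only [er, cl_steps hP hA' (.single hA)]
    exact .refl
  | @lamR A M M' hM ih =>
    intro Γ T h hc
    obtain ⟨s, B, -, hM', -⟩ := cl_body hP h
    simp only [er]
    split_ifs with ha
    · exact UTm.Steps.lam (ih hM' hc)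
    · exact ih hM' hc
  | @piL A A' B hA ih =>
    intro Γ T h hc
    obtain ⟨s, _, _, hA', -, -, -⟩ := h.gen_pi
    simp only [er, cl_steps hP hA' (.single hA)]
    exact .refl
  | @piR A B B' hB ih =>
    intro Γ T h hc
    obtain ⟨s, _, _, -, hB', -, -⟩ := h.gen_pi
    simp only [er]
    split_ifs with ha
    · exact UTm.Steps.app .refl (UTm.Steps.lam (ih hB' hc))
    · exact ih hB' hc

theorem er_steps {Γ : List (Tm S)} {t t' T : Tm S} (h : Has P Γ t T)
    (hc : cl P (ctxC P Γ) t = .inl c) (hs : Steps t t') :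
    UTm.Steps (er P c (ctxC P Γ) t) (er P c (ctxC P Γ) t') := by
  induction hs with
  | refl => exact .refl
  | tail h₁ h₂ ih =>
    exact ih.trans (er_step hP (Γ := Γ) h₂ (h.steps h₁) (by rw [cl_steps hP h h₁, hc]))

theorem er_normal {t : Tm S} : ∀ {Γ : List (Tm S)} {T : Tm S}, Has P Γ t T →
    cl P (ctxC P Γ) t = .inl c → (∀ t', ¬ Step t t') →
      UTm.Normal (er P c (ctxC P Γ) t) ∧
        ((∀ A b, t ≠ .lam A b) → ∀ b, er P c (ctxC P Γ) t ≠ .lam b) := by
  induction t with
  | var i =>
    intro Γ T _ _ _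
    simp only [er]
    refine ⟨fun X hX => ?_, fun _ b hb => ?_⟩
    · cases hX
    · cases hb
  | srt s =>
    intro Γ T _ _ _
    simp only [er]
    refine ⟨fun X hX => ?_, fun _ b hb => ?_⟩
    · cases hX
    · cases hb
  | cst n A _ =>
    intro Γ T _ _ _
    simp only [er]
    refine ⟨fun X hX => ?_, fun _ b hb => ?_⟩
    · cases hX
    · cases hb
  | app f a ihf iha =>
    intro Γ T h hc hn
    obtain ⟨A, B, hf, ha', -⟩ := h.gen_app
    have h₁ := ihf hf hc fun X hX => hn _ (.appL a hX)
    have hnl : ∀ A b, f ≠ .lam A b := fun A b e => hn _ (e ▸ Step.beta A b a)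
    simp only [er]
    split_ifs with ha
    · have h₂ := iha ha' ha fun X hX => hn _ (.appR f hX)
      refine ⟨fun X hX => ?_, fun _ b hb => by cases hb⟩
      generalize hF : er P c (ctxC P Γ) f = F at hX
      cases hX with
      | beta M _ => exact h₁.2 hnl M hF
      | appL _ h => exact h₁.1 _ (hF ▸ h)
      | appR _ h => exact h₂.1 _ h
    · exact ⟨h₁.1, fun _ => h₁.2 hnl⟩
  | lam A b _ ihb =>
    intro Γ T h hc hn
    obtain ⟨s, B, -, hb, -⟩ := cl_body hP h
    have h₁ := ihb hb hc fun X hX => hn _ (.lamR A hX)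
    refine ⟨?_, fun h => absurd rfl (h A b)⟩
    simp only [er]
    split_ifs with ha
    · intro X hX; cases hX with | lamB h => exact h₁.1 _ h
    · exact h₁.1
  | pi A b _ ihb =>
    intro Γ T h hc hn
    obtain ⟨s, t, u, -, hb, -, -⟩ := h.gen_pi
    have h₁ := ihb hb hc fun X hX => hn _ (.piR A hX)
    simp only [er]
    split_ifs with ha
    · refine ⟨fun X hX => ?_, fun _ b hb => by cases hb⟩
      cases hX with
      | appL _ h => cases h
      | appR _ h => cases h with | lamB h => exact h₁.1 _ h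
    · refine ⟨h₁.1, fun _ => h₁.2 fun A' b' e => ?_⟩
      subst e
      obtain ⟨_, _, -, -, hcv⟩ := hb.gen_lam
      exact hcv.srt_pi

/-- A lambda-I erasure of a weakly normalizing typed term is strongly normalizing. -/
theorem sn_er {Γ : List (Tm S)} {t T : Tm S} (h : Has P Γ t T)
    (hc : cl P (ctxC P Γ) t = .inl c) (hI : UTm.RelI (er P c (ctxC P Γ) t))
    (hwn : ∃ n, Steps t n ∧ ∀ n', ¬ Step n n') : UTm.SN (er P c (ctxC P Γ) t) := by
  obtain ⟨n, hn, hnn⟩ := hwn
  exact UTm.sn_of_wn hI (er_steps hP h hc hn)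
    (er_normal hP (h.steps hn) (by rw [cl_steps hP h hn, hc]) hnn).1

end Vale.Agent.P340.St
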