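import Vale.Agent.P340.StVal
import Vale.Agent.P340.StErase

/-!
Environments of the translation, and the constants used as heads.
-/

namespace Vale.Agent.P340.St

open Relation Classical

universe u
variable {S : Type u} [Inhabited S] {P : Sys S} {c : S} {D : Tm S}

/-- A typed target term with a prescribed erasure. -/
def Real (P : Sys S) (c : S) (Δ : List (Tm S)) (T : Tm S) (u : UTm) : Prop :=
  ∃ t, Has P Δ t T ∧ er P c (ctxC P Δ) t = u

/-- The type of a variable of class `e` and type `A`, or of a term of class `inl e`. -/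
noncomputable def vty (P : Sys S) (c : S) (D : Tm S) (cs : ℕ → S) (σ : ℕ → Tm S) (k : Cl S)
    (T : Tm S) : Tm S :=
  if k = .inl c then val P c D cs σ T else D

/-- Translation environments. -/
structure Env (P : Sys S) (c : S) (D : Tm S) (Γ Δ : List (Tm S)) (σ : ℕ → Tm S)
    (z r : ℕ → ℕ) : Prop where
  wf : Wf P Δ
  sat : Poly P c → Sat P c D Γ Δ σ
  hvar : ∀ i A, At Γ i A → ¬ TransGen P.Ax c (ctxC P Γ i) →
    Has P Δ (.var (z i)) (comp D (vty P c D (ctxC P Γ) σ (.inl (ctxC P Γ i)) A)) ∧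
      rk c (ctxC P Δ) (z i) = r i

/-- Either the valuation is closed, or the node lies inside an active node. -/
def Mode (P : Sys S) (c : S) (D : Tm S) (Γ : List (Tm S)) (σ : ℕ → Tm S) (k : Cl S) : Prop :=
  Poly P c → Sat P c D Γ [] σ ∨ k = .inl c ∨ Above P c k

variable (h : Cls P c D)
include h

theorem Cls.arr_inst (A B t : Tm S) : Tm.inst (Tm.sh B) t = B ∧ arr A B = Tm.pi A (Tm.sh B) :=
  ⟨Tm.inst_sh B t, rfl⟩

theorem Cls.app_arr {Δ : List (Tm S)} {f a A B : Tm S} (hf : Has P Δ f (arr A B))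
    (ha : Has P Δ a A) : Has P Δ (.app f a) B := by
  have := Has.app hf ha
  rwa [Tm.inst_sh] at this

theorem Cls.lam_arr {Δ : List (Tm S)} {A B b : Tm S} (hA : Has P Δ A (.srt c))
    (hB : Has P Δ B (.srt c)) (hb : Has P (A :: Δ) b (Tm.sh B)) :
    Has P Δ (.lam A b) (arr A B) :=
  .lam hb (arr_typed h.rule hA hB)

theorem Cls.er_lam {Δ : List (Tm S)} {A : Tm S} (hA : Has P Δ A (.srt c)) (b : Tm S) :
    er P c (ctxC P Δ) (.lam A b) = .lam (er P c (ctxC P (A :: Δ)) b) := by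
  have e : bindC P (cl P (ctxC P Δ) A) = c := by
    rw [cl_type h.nd.toStrat hA, bindC_memC h.nd.toStrat]
  simp only [er, ctxC, e, if_true]

theorem Cls.er_lam_drop {Δ : List (Tm S)} {A : Tm S} {s : S} (hA : Has P Δ A (.srt s))
    (hs : s ≠ c) (b : Tm S) :
    er P c (ctxC P Δ) (.lam A b) = er P c (ctxC P (A :: Δ)) b := by
  have e : bindC P (cl P (ctxC P Δ) A) = s := by
    rw [cl_type h.nd.toStrat hA, bindC_memC h.nd.toStrat]
  simp only [er, ctxC, e, if_neg hs]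

theorem Cls.er_pi_drop {Δ : List (Tm S)} {A : Tm S} {s : S} (hA : Has P Δ A (.srt s))
    (hs : s ≠ c) (b : Tm S) :
    er P c (ctxC P Δ) (.pi A b) = er P c (ctxC P (A :: Δ)) b := by
  have e : bindC P (cl P (ctxC P Δ) A) = s := by
    rw [cl_type h.nd.toStrat hA, bindC_memC h.nd.toStrat]
  simp only [er, ctxC, e, if_neg hs]

theorem Cls.er_app {Δ : List (Tm S)} {a A : Tm S} (ha : Has P Δ a A) (hA : Has P Δ A (.srt c))
    (f : Tm S) :
    er P c (ctxC P Δ) (.app f a) = .app (er P c (ctxC P Δ) f) (er P c (ctxC P Δ) a) := by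
  simp only [er, cl_term h.nd.toStrat ha hA, if_true]

theorem Cls.er_app_drop {Δ : List (Tm S)} {a A : Tm S} {s : S} (ha : Has P Δ a A)
    (hA : Has P Δ A (.srt s)) (hs : s ≠ c) (f : Tm S) :
    er P c (ctxC P Δ) (.app f a) = er P c (ctxC P Δ) f := by
  have : cl P (ctxC P Δ) a ≠ .inl c := by
    rw [cl_term h.nd.toStrat ha hA]; exact fun e => hs (Sum.inl.inj e)
  simp only [er, if_neg this]

theorem Cls.er_shift {Δ : List (Tm S)} {t T A : Tm S} (ht : Has P Δ t T)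
    (hT : Has P Δ T (.srt c)) (hA : Has P Δ A (.srt c)) :
    er P c (ctxC P (A :: Δ)) (Tm.sh t) = UTm.ren Nat.succ (er P c (ctxC P Δ) t) := by
  rw [ctxC_cons h.nd.toStrat hA, er_sh (cl_term h.nd.toStrat ht hT), if_pos rfl]

theorem Cls.rk_shift {Δ : List (Tm S)} {A : Tm S} (hA : Has P Δ A (.srt c)) (i : ℕ) :
    rk c (ctxC P (A :: Δ)) (i + 1) = rk c (ctxC P Δ) i + 1 := by
  rw [ctxC_cons h.nd.toStrat hA, rk_cons, if_pos rfl]

/-- A closed constant. -/
theorem Cls.head₀ {Δ : List (Tm S)} (hw : Wf P Δ) (n : ℕ) {T : Tm S}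
    (hT : Has P [] T (.srt c)) : Real P c Δ T (.cst n) :=
  ⟨.cst n T, hw.weakenClosed (.cst n h.nd.cok hT), rfl⟩

/-- A head constant for a schema `F` at the value type `V`. -/
theorem Cls.head {Δ : List (Tm S)} (n : ℕ) {V : Tm S} (F : Tm S → Tm S)
    (hV : Has P Δ V (.srt c)) (hV₀ : ¬ Poly P c → Has P [] V (.srt c))
    (hF : ∀ Δ V, Has P Δ V (.srt c) → Has P Δ (F V) (.srt c))
    (hsub : ∀ f V, Tm.sub f (F V) = F (Tm.sub f V)) : Real P c Δ (F V) (.cst n) := by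
  by_cases hp : Poly P c
  · obtain ⟨c', hc', hr'⟩ := hp
    have hs : Has P [] (Tm.srt c) (.srt c') := .ax hc'
    have h0 : Has P [Tm.srt c] (Tm.var 0) (.srt c) := Has.var hs
    have hG : Has P [] (Tm.pi (Tm.srt c) (F (.var 0))) (.srt c) := .pi hs (hF _ _ h0) hr'
    have happ := Has.app (hV.wf.weakenClosed (.cst n h.nd.cok hG)) hV
    rw [Tm.inst, hsub] at happ
    refine ⟨_, happ, ?_⟩
    have hne : cl P (ctxC P Δ) V ≠ .inl c := by
      rw [cl_type h.nd.toStrat hV]; exact h.memC_ne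
    simp only [er, if_neg hne]
  · exact h.head₀ hV.wf n (hF _ _ (hV₀ hp))

theorem vty_typed {Γ Δ : List (Tm S)} {σ : ℕ → Tm S} (k : Cl S) {T : Tm S}
    (hw : Wf P Δ) (hs : Poly P c → Sat P c D Γ Δ σ)
    (hT : k = .inl c → Has P Γ T (.srt c)) :
    Has P Δ (vty P c D (ctxC P Γ) σ k T) (.srt c) := by
  unfold vty
  split_ifs with hk
  · exact val_typed h (hT hk) hw hs
  · exact hw.weakenClosed h.hD

theorem vty_closed {Γ : List (Tm S)} (σ : ℕ → Tm S) (k : Cl S) {T : Tm S}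
    (hT : k = .inl c → Has P Γ T (.srt c)) (hp : ¬ Poly P c) :
    Has P [] (vty P c D (ctxC P Γ) σ k T) (.srt c) := by
  unfold vty
  split_ifs with hk
  · exact val_closed h (hT hk) hp σ
  · exact h.hD

theorem vty_shift {Γ : List (Tm S)} (σ : ℕ → Tm S) (k : Cl S) {T : Tm S}
    (hT : k = .inl c → Has P Γ T (.srt c)) (g : ℕ → ℕ) :
    vty P c D (ctxC P Γ) (Tm.ren g ∘ σ) k T = Tm.ren g (vty P c D (ctxC P Γ) σ k T) := by
  unfold vty
  split_ifs with hk
  · exact val_shift h (hT hk) σ g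
  · exact (h.scopedD.ren_closed g).symm

theorem term_sort {Γ : List (Tm S)} {M T : Tm S} (hM : Has P Γ M T)
    (hc : cl P (ctxC P Γ) M = .inl c) : Has P Γ T (.srt c) := by
  rcases hM.correct with ⟨s, hs⟩ | ⟨s, rfl⟩
  · rw [cl_term h.nd.toStrat hM hs] at hc
    rw [← Sum.inl.inj hc]; exact hs
  · rw [(classify h.nd.toStrat hM).2 s rfl] at hc
    by_cases hex : ∃ t, P.Ax s t
    · obtain ⟨t, ht⟩ := hex
      rw [memC_ax h.nd.toStrat ht] at hc
      rw [← Sum.inl.inj hc]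
      exact hM.wf.weakenClosed (.ax ht)
    · rw [memC_top fun t ht => hex ⟨t, ht⟩] at hc; cases hc

theorem var_sort {Γ : List (Tm S)} {i : ℕ} {A : Tm S} (hw : Wf P Γ) (hA : At Γ i A)
    (hc : (Sum.inl (ctxC P Γ i) : Cl S) = .inl c) : Has P Γ A (.srt c) :=
  term_sort h (hw.var hA) hc

/-- Weakening an environment by a class-`c` binder. -/
theorem Env.push {Γ Δ : List (Tm S)} {σ : ℕ → Tm S} {z r : ℕ → ℕ} (hΓ : Wf P Γ)
    (he : Env P c D Γ Δ σ z r) {X : Tm S} (hX : Has P Δ X (.srt c)) :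
    Env P c D Γ (X :: Δ) (Tm.ren Nat.succ ∘ σ) (Nat.succ ∘ z) (Nat.succ ∘ r) := by
  refine ⟨.cons he.wf hX, fun hp => (he.sat hp).weak h.scopedD hX, fun i A hA hi => ?_⟩
  obtain ⟨h₁, h₂⟩ := he.hvar i A hA hi
  refine ⟨?_, ?_⟩
  · rw [vty_shift h σ _ (var_sort h hΓ hA), ← comp_ren h.scopedD]
    exact h₁.sh hX
  · show rk c (ctxC P (X :: Δ)) (z i + 1) = r i + 1
    rw [h.rk_shift hX, h₂]

/-- Weakening an environment by a type binder. -/
theorem Env.pushType {Γ Δ : List (Tm S)} {σ : ℕ → Tm S} {z r : ℕ → ℕ} (hΓ : Wf P Γ)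
    (he : Env P c D Γ Δ σ z r) {X : Tm S} {s : S} (hX : Has P Δ X (.srt s)) (hs : s ≠ c) :
    Env P c D Γ (X :: Δ) (Tm.ren Nat.succ ∘ σ) (Nat.succ ∘ z) r := by
  refine ⟨.cons he.wf hX, fun hp => (he.sat hp).weak h.scopedD hX, fun i A hA hi => ?_⟩
  obtain ⟨h₁, h₂⟩ := he.hvar i A hA hi
  refine ⟨?_, ?_⟩
  · rw [vty_shift h σ _ (var_sort h hΓ hA), ← comp_ren h.scopedD]
    exact h₁.sh hX
  · show rk c (ctxC P (X :: Δ)) (z i + 1) = r i
    rw [ctxC_cons h.nd.toStrat hX, rk_cons, if_neg hs, Nat.add_zero, h₂]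

theorem vty_skip {Γ : List (Tm S)} {A B : Tm S} {s : S} (k : Cl S)
    (hA : k = .inl c → Has P Γ A (.srt c)) (hB : Has P Γ B (.srt s)) (σ : ℕ → Tm S) (t : Tm S) :
    vty P c D (ctxC P (B :: Γ)) (Tm.scons t σ) k (Tm.sh A) = vty P c D (ctxC P Γ) σ k A := by
  unfold vty
  split_ifs with hk
  · exact val_weak h (hA hk) hB σ t
  · rfl

/-- Extending an environment by a source binder with value `t`, bound to a new variable. -/
theorem Env.bind {Γ Δ : List (Tm S)} {σ : ℕ → Tm S} {z r : ℕ → ℕ} (hΓ : Wf P Γ)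
    (he : Env P c D Γ Δ σ z r) {A : Tm S} {s : S} (hA : Has P Γ A (.srt s)) (t : Tm S)
    (ht : Poly P c → TransGen P.Ax c s → Has P Δ t (tau P c D (ctxC P Γ) σ A)) :
    Has P Δ (comp D (vty P c D (ctxC P Γ) σ (.inl s) A)) (.srt c) ∧
    Env P c D (A :: Γ) (comp D (vty P c D (ctxC P Γ) σ (.inl s) A) :: Δ)
      (Tm.ren Nat.succ ∘ Tm.scons t σ) (upR z) (upR r) := by
  have hW : Has P Δ (comp D (vty P c D (ctxC P Γ) σ (.inl s) A)) (.srt c) :=
    comp_typed h.rule h.hD (vty_typed h _ he.wf he.sat fun e => by cases e; exact hA)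
  have hsat : Poly P c → Sat P c D (A :: Γ) Δ (Tm.scons t σ) := by
    intro hp
    by_cases hs : TransGen P.Ax c s
    · exact (he.sat hp).cons (ht hp hs)
    · exact (he.sat hp).skip t (by rwa [cl_type h.nd.toStrat hA, bindC_memC h.nd.toStrat])
  refine ⟨hW, .cons he.wf hW, fun hp => (hsat hp).weak h.scopedD hW, fun i C hC hi => ?_⟩
  have hΓ' : Wf P (A :: Γ) := .cons hΓ hA
  rw [vty_shift h _ _ (var_sort h hΓ' hC)]
  cases hC with
  | zero =>
    refine ⟨?_, rfl⟩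
    have hW' := hW
    rw [show (Sum.inl (ctxC P (A :: Γ) 0) : Cl S) = .inl s by rw [ctxC_cons h.nd.toStrat hA]; rfl,
      vty_skip h (B := A) (.inl s) (fun e => by cases e; exact hA) hA, ← comp_ren h.scopedD]
    exact .var hW'
  | @succ _ j C _ hC =>
    obtain ⟨h₁, h₂⟩ := he.hvar j C hC hi
    refine ⟨?_, ?_⟩
    · rw [show (Sum.inl (ctxC P (A :: Γ) (j + 1)) : Cl S) = .inl (ctxC P Γ j) from rfl,
        vty_skip h (B := A) _ (var_sort h hΓ hC) hA, ← comp_ren h.scopedD]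
      exact h₁.sh hW
    · show rk c (ctxC P (_ :: Δ)) (z j + 1) = r j + 1
      rw [h.rk_shift hW, h₂]

/-- Extending an environment by a real type binder. -/
theorem Env.bindType {Γ Δ : List (Tm S)} {σ : ℕ → Tm S} {z r : ℕ → ℕ} (hΓ : Wf P Γ)
    (he : Env P c D Γ Δ σ z r) {A : Tm S} {s : S} (hA : Has P Γ A (.srt s)) (hp : Poly P c)
    (hs : TransGen P.Ax c s) :
    Has P Δ (tau P c D (ctxC P Γ) σ A) (.srt s) ∧
    Has P (tau P c D (ctxC P Γ) σ A :: Δ) (comp D D) (.srt c) ∧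
    Env P c D (A :: Γ) (comp D D :: tau P c D (ctxC P Γ) σ A :: Δ)
      (Tm.ren Nat.succ ∘ Tm.up σ) (upR (Nat.succ ∘ z)) (upR r) := by
  have hne : s ≠ c := h.ne_above hs
  have haA : Above P c (cl P (ctxC P Γ) A) := by
    rw [cl_type h.nd.toStrat hA, above_memC h.nd]; exact hs.to_reflTransGen
  have hX : Has P Δ (tau P c D (ctxC P Γ) σ A) (.srt s) :=
    tau_typed h.nd h.rule h.hD hA he.wf (he.sat hp) haA
  have he₁ := he.pushType h hΓ hX hne
  have hv : Has P (tau P c D (ctxC P Γ) σ A :: Δ) (Tm.var 0)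
      (tau P c D (ctxC P Γ) (Tm.ren Nat.succ ∘ σ) A) := by
    rw [tau_shift h.scopedD]; exact .var hX
  obtain ⟨hW, he₂⟩ := he₁.bind h hΓ hA (Tm.var 0) (fun _ _ => hv)
  have e : vty P c D (ctxC P Γ) (Tm.ren Nat.succ ∘ σ) (.inl s) A = D := by
    rw [vty, if_neg fun e => hne (Sum.inl.inj e)]
  rw [e] at hW he₂
  rw [show Tm.scons (Tm.var 0) (Tm.ren Nat.succ ∘ σ) = Tm.up σ by funext n; cases n <;> rfl] at he₂
  exact ⟨hX, hW, he₂⟩

end Vale.Agent.P340.St
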