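import Vale.Agent.P340.StSN
import Vale.Agent.P340.StCst

/-!
The main theorem: weakly normalizing nondependent stratified specifications are strongly
normalizing.
-/

namespace Vale.Agent.P340.St

open Relation Classical

universe u
variable {S : Type u}

/-- Expressions as memory terms without memories. -/
def memOf : PTS.Expr S → MTm S
  | .var i => .var i
  | .sort s => .srt s
  | .app a b => .app (memOf a) (memOf b)
  | .lam a b => .lam (memOf a) (memOf b)
  | .pi a b => .pi (memOf a) (memOf b)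

theorem strip_memOf (e : PTS.Expr S) : MTm.strip (memOf e) = ofExpr e := by
  induction e <;> simp [memOf, MTm.strip, ofExpr, *]

variable [Inhabited S]

theorem good_memOf {Q : Sys S} (e : PTS.Expr S) : ∀ Γ T, Has Q Γ (ofExpr e) T →
    Good Q Γ (memOf e) := by
  induction e with
  | var i => intro Γ T h; exact ⟨T, h⟩
  | sort s => intro Γ T h; exact ⟨T, h⟩
  | app a b ha hb =>
    intro Γ T h
    refine ⟨⟨T, by simpa [MTm.strip, strip_memOf, ofExpr] using h⟩, ?_, ?_⟩
    · obtain ⟨_, _, hf, -, -⟩ := h.gen_app; exact ha _ _ hf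
    · obtain ⟨_, _, -, hx, -⟩ := h.gen_app; exact hb _ _ hx
  | lam a b ha hb =>
    intro Γ T h
    obtain ⟨_, _, hM, hpi, -⟩ := h.gen_lam
    obtain ⟨_, _, _, hA, -, -, -⟩ := hpi.gen_pi
    exact ⟨⟨T, by simpa [MTm.strip, strip_memOf, ofExpr] using h⟩, ha _ _ hA,
      by rw [strip_memOf]; exact hb _ _ hM⟩
  | pi a b ha hb =>
    intro Γ T h
    obtain ⟨_, _, _, hA, hB, -, -⟩ := h.gen_pi
    exact ⟨⟨T, by simpa [MTm.strip, strip_memOf, ofExpr] using h⟩, ha _ _ hA,
      by rw [strip_memOf]; exact hb _ _ hB⟩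

omit [Inhabited S] in
theorem no_infinite {M : PTS.Expr S} (h : Acc (fun y x => Step x y) (ofExpr M)) :
    ¬ ∃ f : ℕ → PTS.Expr S, f 0 = M ∧ ∀ n, PTS.Beta (f n) (f (n + 1)) := by
  rintro ⟨f, hf, hstep⟩
  suffices ∀ x, Acc (fun y x => Step x y) x → ∀ n, x = ofExpr (f n) → False from
    this _ h 0 (by rw [hf])
  intro x hx
  induction hx with
  | intro x _ ih =>
    intro n e
    subst e
    exact ih _ (ofExpr_beta (hstep n)) (n + 1) rfl

theorem nondep_stratified_sn (P : PTS.Spec S)
    (hfunc : ∀ s t t', P.Ax s t → P.Ax s t' → t = t')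
    (hinj : ∀ s s' t, P.Ax s t → P.Ax s' t → s = s')
    (hrule : ∀ s t u, P.Rule s t u → u = t ∧ ReflTransGen P.Ax t s)
    (hacyc : ∀ s, ¬ TransGen P.Ax s s)
    (hwn : PTS.WeaklyNormalizing P) {M : PTS.Expr S} (hM : PTS.Legal P M) :
    ¬ ∃ f : ℕ → PTS.Expr S, f 0 = M ∧ ∀ n, PTS.Beta (f n) (f (n + 1)) := by
  have hP : NonDep (withCst P) :=
    { func := hfunc, inj := hinj, cod := fun s t u h => (hrule s t u h).1,
      nd := fun s t u h => (hrule s t u h).2, acyc := hacyc, cok := trivial }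
  have hw : WNSys (withCst P) := fun Γ X T h => wn_internal hwn h
  have key : ∀ Γ T, Has (withCst P) Γ (ofExpr M) T → Acc (fun y x => Step x y) (ofExpr M) := by
    intro Γ T h
    have := sn_of_good hP hw (good_memOf M Γ T h)
    rwa [strip_memOf] at this
  obtain ⟨Γ, A, h | h⟩ := hM
  · exact no_infinite (key _ _ (has_of_typed (Q := withCst P) rfl h))
  · rcases (has_of_typed (Q := withCst P) rfl h).correct with ⟨s, hs⟩ | ⟨s, e⟩
    · exact no_infinite (key _ _ hs)
    · rintro ⟨f, rfl, hstep⟩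
      have := ofExpr_beta (hstep 0)
      rw [e] at this
      cases this

omit [Inhabited S] in
theorem nonempty_of_typed {P : PTS.Spec S} {Γ : List (PTS.Expr S)} {M A : PTS.Expr S}
    (h : PTS.Typed P Γ M A) : Nonempty S := by
  induction h with
  | @ax s t _ => exact ⟨s⟩
  | _ => assumption

end Vale.Agent.P340.St
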