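import Vale.Agent.P340.StClass

/-!
The memory calculus: `mem P Q` is `P` remembering `Q`. Beta reduction remembers the argument and
the annotation; the permutation moves memories out of function position.
-/

namespace Vale.Agent.P340.St

open Relation

universe u
variable {S : Type u}

inductive MTm (S : Type u) : Type u where
  | var : ℕ → MTm S
  | srt : S → MTm S
  | app : MTm S → MTm S → MTm S
  | lam : MTm S → MTm S → MTm S
  | pi : MTm S → MTm S → MTm S
  | mem : MTm S → MTm S → MTm S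

namespace MTm

def ren : (ℕ → ℕ) → MTm S → MTm S
  | f, var n => var (f n)
  | _, srt s => srt s
  | f, app a b => app (ren f a) (ren f b)
  | f, lam a b => lam (ren f a) (ren (upR f) b)
  | f, pi a b => pi (ren f a) (ren (upR f) b)
  | f, mem a b => mem (ren f a) (ren f b)

def up (f : ℕ → MTm S) : ℕ → MTm S
  | 0 => var 0
  | n + 1 => ren Nat.succ (f n)

def sub : (ℕ → MTm S) → MTm S → MTm S
  | f, var n => f n
  | _, srt s => srt s
  | f, app a b => app (sub f a) (sub f b)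
  | f, lam a b => lam (sub f a) (sub (up f) b)
  | f, pi a b => pi (sub f a) (sub (up f) b)
  | f, mem a b => mem (sub f a) (sub f b)

def scons (a : MTm S) (f : ℕ → MTm S) : ℕ → MTm S
  | 0 => a
  | n + 1 => f n

def inst (B N : MTm S) : MTm S := sub (scons N var) B

/-- Forget memories. -/
def strip : MTm S → Tm S
  | var n => .var n
  | srt s => .srt s
  | app a b => .app (strip a) (strip b)
  | lam a b => .lam (strip a) (strip b)
  | pi a b => .pi (strip a) (strip b)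
  | mem a _ => strip a

theorem strip_ren (M : MTm S) : ∀ f, strip (ren f M) = Tm.ren f (strip M) := by
  induction M with
  | var n => intros; rfl
  | srt s => intros; rfl
  | mem a b ha _ => intro f; simp [ren, strip, ha]
  | app a b ha hb => intro f; simp [ren, strip, Tm.ren, ha, hb]
  | lam a b ha hb => intro f; simp [ren, strip, Tm.ren, ha, hb]
  | pi a b ha hb => intro f; simp [ren, strip, Tm.ren, ha, hb]

theorem strip_up (f : ℕ → MTm S) : strip ∘ up f = Tm.up (strip ∘ f) := by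
  funext n; cases n with
  | zero => rfl
  | succ n => exact strip_ren _ _

theorem strip_sub (M : MTm S) : ∀ f, strip (sub f M) = Tm.sub (strip ∘ f) (strip M) := by
  induction M with
  | var n => intros; rfl
  | srt s => intros; rfl
  | mem a b ha _ => intro f; simp [sub, strip, ha]
  | app a b ha hb => intro f; simp [sub, strip, Tm.sub, ha, hb]
  | lam a b ha hb => intro f; simp [sub, strip, Tm.sub, ha, hb, strip_up]
  | pi a b ha hb => intro f; simp [sub, strip, Tm.sub, ha, hb, strip_up]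

theorem strip_scons (a : MTm S) : strip ∘ scons a var = Tm.scons (strip a) Tm.var := by
  funext n; cases n <;> rfl

theorem strip_inst (B N : MTm S) : strip (inst B N) = Tm.inst (strip B) (strip N) := by
  rw [inst, strip_sub, strip_scons]; rfl

end MTm

open MTm

/-- Steps of the memory calculus; the flag is `true` for beta and `false` for the permutation. -/
inductive MStep : Bool → MTm S → MTm S → Prop where
  | beta (A M N : MTm S) : MStep true (app (lam A M) N) (mem (mem (inst M N) N) A)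
  | perm (M Q N : MTm S) : MStep false (app (mem M Q) N) (mem (app M N) Q)
  | appL {b : Bool} {M M' : MTm S} (N : MTm S) : MStep b M M' → MStep b (app M N) (app M' N)
  | appR {b : Bool} (M : MTm S) {N N' : MTm S} : MStep b N N' → MStep b (app M N) (app M N')
  | lamL {b : Bool} {A A' : MTm S} (M : MTm S) : MStep b A A' → MStep b (lam A M) (lam A' M)
  | lamR {b : Bool} (A : MTm S) {M M' : MTm S} : MStep b M M' → MStep b (lam A M) (lam A M')
  | piL {b : Bool} {A A' : MTm S} (B : MTm S) : MStep b A A' → MStep b (pi A B) (pi A' B)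
  | piR {b : Bool} (A : MTm S) {B B' : MTm S} : MStep b B B' → MStep b (pi A B) (pi A B')
  | memL {b : Bool} {M M' : MTm S} (Q : MTm S) : MStep b M M' → MStep b (mem M Q) (mem M' Q)
  | memR {b : Bool} (M : MTm S) {Q Q' : MTm S} : MStep b Q Q' → MStep b (mem M Q) (mem M Q')

theorem MStep.strip_steps {b : Bool} {M N : MTm S} (h : MStep b M N) :
    Steps (strip M) (strip N) := by
  induction h with
  | beta A M N => simp only [MTm.strip, strip_inst]; exact .single (.beta _ _ _)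
  | perm M Q N => exact .refl
  | appL N _ ih => exact Steps.app ih .refl
  | appR M _ ih => exact Steps.app .refl ih
  | lamL M _ ih => exact Steps.lam ih .refl
  | lamR A _ ih => exact Steps.lam .refl ih
  | piL B _ ih => exact Steps.pi ih .refl
  | piR A _ ih => exact Steps.pi .refl ih
  | memL Q _ ih => exact ih
  | memR M _ _ => exact .refl

/-- Several permutations followed by one beta step. -/
def BetaAfterPerm (M N : MTm S) : Prop :=
  ∃ X, ReflTransGen (MStep false) M X ∧ MStep true X N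

theorem BetaAfterPerm.lift {M N : MTm S} (h : BetaAfterPerm M N) (F : MTm S → MTm S)
    (hF : ∀ b X Y, MStep b X Y → MStep b (F X) (F Y)) : BetaAfterPerm (F M) (F N) := by
  obtain ⟨X, h₁, h₂⟩ := h
  exact ⟨F X, h₁.lift F (hF false), hF true _ _ h₂⟩

theorem beta_after_perm_app (F : MTm S) : ∀ (A M : Tm S), strip F = Tm.lam A M → ∀ a,
    ∃ N, BetaAfterPerm (app F a) N ∧ strip N = Tm.inst M (strip a) := by
  induction F with
  | var n => intro A M h; cases h
  | srt s => intro A M h; cases h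
  | app x y _ _ => intro A M h; cases h
  | pi x y _ _ => intro A M h; cases h
  | lam x y _ _ =>
    intro A M h a
    cases h
    exact ⟨_, ⟨_, .refl, .beta x y a⟩, strip_inst y a⟩
  | mem F Q ih _ =>
    intro A M h a
    obtain ⟨N, ⟨X, h₁, h₂⟩, hN⟩ := ih A M h a
    refine ⟨mem N Q, ⟨mem X Q, ReflTransGen.head (.perm F Q a) ?_, .memL Q h₂⟩, hN⟩
    exact h₁.lift (fun Z => mem Z Q) fun _ _ hz => .memL Q hz

/-- Every beta step on the stripped term is simulated in the memory calculus. -/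
theorem simulate (N : MTm S) :
    ∀ M', Step (strip N) M' → ∃ N', BetaAfterPerm N N' ∧ strip N' = M' := by
  induction N with
  | var n => intro M' h; cases h
  | srt s => intro M' h; cases h
  | mem a b ha _ =>
    intro M' h
    obtain ⟨a', h₁, h₂⟩ := ha M' h
    exact ⟨mem a' b, h₁.lift (fun Z => mem Z b) fun _ _ _ hz => .memL b hz, h₂⟩
  | lam a b ha hb =>
    intro M' h
    cases h with
    | lamL _ h =>
      obtain ⟨a', h₁, rfl⟩ := ha _ h
      exact ⟨lam a' b, h₁.lift (fun Z => lam Z b) fun _ _ _ hz => .lamL b hz, rfl⟩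
    | lamR _ h =>
      obtain ⟨b', h₁, rfl⟩ := hb _ h
      exact ⟨lam a b', h₁.lift (fun Z => lam a Z) fun _ _ _ hz => .lamR a hz, rfl⟩
  | pi a b ha hb =>
    intro M' h
    cases h with
    | piL _ h =>
      obtain ⟨a', h₁, rfl⟩ := ha _ h
      exact ⟨pi a' b, h₁.lift (fun Z => pi Z b) fun _ _ _ hz => .piL b hz, rfl⟩
    | piR _ h =>
      obtain ⟨b', h₁, rfl⟩ := hb _ h
      exact ⟨pi a b', h₁.lift (fun Z => pi a Z) fun _ _ _ hz => .piR a hz, rfl⟩
  | app a b ha hb =>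
    intro M' h
    simp only [MTm.strip] at h
    generalize ea : strip a = a₀ at h
    cases h with
    | appL _ h =>
      subst ea
      obtain ⟨a', h₁, rfl⟩ := ha _ h
      exact ⟨app a' b, h₁.lift (fun Z => app Z b) fun _ _ _ hz => .appL b hz, rfl⟩
    | appR _ h =>
      subst ea
      obtain ⟨b', h₁, rfl⟩ := hb _ h
      exact ⟨app a b', h₁.lift (fun Z => app a Z) fun _ _ _ hz => .appR a hz, rfl⟩
    | beta A₀ M₀ _ =>
      obtain ⟨N, h₁, h₂⟩ := beta_after_perm_app a A₀ M₀ ea b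
      exact ⟨N, h₁, h₂⟩

/-- If the memory calculus has no reduction with infinitely many beta steps from `N`, the stripped
term has no infinite reduction. -/
theorem acc_strip {N : MTm S} (h : Acc (fun y x => BetaAfterPerm x y) N) :
    Acc (fun y x => Step x y) (strip N) := by
  induction h with
  | intro N _ ih =>
    refine Acc.intro _ fun M hM => ?_
    obtain ⟨N', h₁, rfl⟩ := simulate N M hM
    exact ih N' h₁

variable [Inhabited S]

/-- The class of a memory term. -/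
noncomputable def MTm.cls (P : Sys S) (Γ : List (Tm S)) (N : MTm S) : Cl S :=
  cl P (ctxC P Γ) (strip N)

/-- Typed memory terms. -/
def Good (P : Sys S) : List (Tm S) → MTm S → Prop
  | Γ, .var i => ∃ T, Has P Γ (.var i) T
  | Γ, .srt s => ∃ T, Has P Γ (.srt s) T
  | Γ, .app a b => (∃ T, Has P Γ (strip (.app a b)) T) ∧ Good P Γ a ∧ Good P Γ b
  | Γ, .lam a b => (∃ T, Has P Γ (strip (.lam a b)) T) ∧ Good P Γ a ∧ Good P (strip a :: Γ) b
  | Γ, .pi a b => (∃ T, Has P Γ (strip (.pi a b)) T) ∧ Good P Γ a ∧ Good P (strip a :: Γ) b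
  | Γ, .mem a b => Good P Γ a ∧ Good P Γ b ∧
      ∃ s t, P.Rule s t t ∧ a.cls P Γ = .inl t ∧ (b.cls P Γ = .inl s ∨ b.cls P Γ = memC P s)

variable {P : Sys S}

theorem Good.typed : ∀ {N : MTm S} {Γ : List (Tm S)}, Good P Γ N → ∃ T, Has P Γ (strip N) T
  | .var _, _, h => h
  | .srt _, _, h => h
  | .app _ _, _, h => h.1
  | .lam _ _, _, h => h.1
  | .pi _ _, _, h => h.1
  | .mem a _, _, h => Good.typed (N := a) h.1

variable (hP : Strat P)
include hP

/-- Classes are invariant under typed substitution. -/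
theorem cl_sub_typed {Γ Δ : List (Tm S)} {M A : Tm S} {f : ℕ → Tm S} (h : Has P Γ M A)
    (hw : Wf P Δ) (hf : SubOK P f Γ Δ) :
    cl P (ctxC P Δ) (Tm.sub f M) = cl P (ctxC P Γ) M := by
  have h' := h.subst hw hf
  rcases h.correct with ⟨s, hA⟩ | ⟨s, rfl⟩
  · rw [cl_term hP h hA, cl_term hP h' (hA.subst hw hf)]
  · rw [(classify hP h).2 s rfl, (classify hP h').2 s rfl]

theorem cls_sub {Γ Δ : List (Tm S)} {N : MTm S} {f : ℕ → MTm S} (h : Good P Γ N)
    (hw : Wf P Δ) (hf : SubOK P (strip ∘ f) Γ Δ) :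
    (MTm.sub f N).cls P Δ = N.cls P Γ := by
  obtain ⟨T, hT⟩ := h.typed
  simp only [MTm.cls, strip_sub]
  exact cl_sub_typed hP hT hw hf

omit hP in
theorem binder_wf {Γ : List (Tm S)} {a : MTm S} {b : Tm S} {T : Tm S}
    (h : Has P Γ (Tm.lam (strip a) b) T ∨ Has P Γ (Tm.pi (strip a) b) T) :
    ∃ s, Has P Γ (strip a) (.srt s) := by
  rcases h with h | h
  · obtain ⟨_, _, -, hpi, -⟩ := h.gen_lam
    obtain ⟨s, _, _, hA, -, -, -⟩ := hpi.gen_pi
    exact ⟨s, hA⟩
  · obtain ⟨s, _, _, hA, -, -, -⟩ := h.gen_pi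
    exact ⟨s, hA⟩

theorem Good.ren : ∀ {N : MTm S} {Γ Δ : List (Tm S)} {f : ℕ → ℕ}, Good P Γ N → Wf P Δ →
    RenOK f Γ Δ → Good P Δ (MTm.ren f N) := by
  intro N
  induction N with
  | var i => intro Γ Δ f h hw hf; obtain ⟨T, hT⟩ := h; exact ⟨_, hT.ren hw hf⟩
  | srt s => intro Γ Δ f h hw hf; obtain ⟨T, hT⟩ := h; exact ⟨_, hT.ren hw hf⟩
  | app a b iha ihb =>
    intro Γ Δ f h hw hf
    obtain ⟨⟨T, hT⟩, ha, hb⟩ := h
    refine ⟨⟨Tm.ren f T, ?_⟩, iha ha hw hf, ihb hb hw hf⟩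
    rw [show strip (MTm.app (MTm.ren f a) (MTm.ren f b))
      = Tm.ren f (strip (MTm.app a b)) from strip_ren (MTm.app a b) f]
    exact hT.ren hw hf
  | lam a b iha ihb =>
    intro Γ Δ f h hw hf
    obtain ⟨⟨T, hT⟩, ha, hb⟩ := h
    obtain ⟨s, hA⟩ := binder_wf (.inl hT)
    refine ⟨⟨Tm.ren f T, ?_⟩, iha ha hw hf, ?_⟩
    · rw [show strip (MTm.lam (MTm.ren f a) (MTm.ren (upR f) b))
        = Tm.ren f (strip (MTm.lam a b)) from strip_ren (MTm.lam a b) f]
      exact hT.ren hw hf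
    · rw [strip_ren]; exact ihb hb (.cons hw (hA.ren hw hf)) (hf.up _)
  | pi a b iha ihb =>
    intro Γ Δ f h hw hf
    obtain ⟨⟨T, hT⟩, ha, hb⟩ := h
    obtain ⟨s, hA⟩ := binder_wf (.inr hT)
    refine ⟨⟨Tm.ren f T, ?_⟩, iha ha hw hf, ?_⟩
    · rw [show strip (MTm.pi (MTm.ren f a) (MTm.ren (upR f) b))
        = Tm.ren f (strip (MTm.pi a b)) from strip_ren (MTm.pi a b) f]
      exact hT.ren hw hf
    · rw [strip_ren]; exact ihb hb (.cons hw (hA.ren hw hf)) (hf.up _)
  | mem a b iha ihb =>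
    intro Γ Δ f h hw hf
    obtain ⟨ha, hb, s, t, hr, hca, hcb⟩ := h
    have key : ∀ X : MTm S, Good P Γ X → (MTm.ren f X).cls P Δ = X.cls P Γ := by
      intro X hX
      obtain ⟨T, hT⟩ := hX.typed
      simp only [MTm.cls, strip_ren, Tm.ren_eq_sub]
      refine cl_sub_typed hP hT hw fun i A hi => ?_
      rw [← Tm.ren_eq_sub]
      exact hw.var (hf i A hi)
    exact ⟨iha ha hw hf, ihb hb hw hf, s, t, hr, by rw [key a ha, hca], by rwa [key b hb]⟩

theorem Good.sub : ∀ {N : MTm S} {Γ Δ : List (Tm S)} {f : ℕ → MTm S}, Good P Γ N → Wf P Δ →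
    SubOK P (strip ∘ f) Γ Δ → (∀ i A, At Γ i A → Good P Δ (f i)) → Good P Δ (MTm.sub f N) := by
  intro N
  induction N with
  | var i =>
    intro Γ Δ f h hw hf hg
    obtain ⟨T, hT⟩ := h
    obtain ⟨A, hA, -⟩ := hT.gen_var
    exact hg i A hA
  | srt s => intro Γ Δ f h hw hf hg; obtain ⟨T, hT⟩ := h; exact ⟨_, hT.subst hw hf⟩
  | app a b iha ihb =>
    intro Γ Δ f h hw hf hg
    obtain ⟨⟨T, hT⟩, ha, hb⟩ := h
    refine ⟨⟨Tm.sub (strip ∘ f) T, ?_⟩, iha ha hw hf hg, ihb hb hw hf hg⟩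
    rw [show strip (MTm.app (MTm.sub f a) (MTm.sub f b))
      = Tm.sub (strip ∘ f) (strip (MTm.app a b)) from strip_sub (MTm.app a b) f]
    exact hT.subst hw hf
  | lam a b iha ihb =>
    intro Γ Δ f h hw hf hg
    obtain ⟨⟨T, hT⟩, ha, hb⟩ := h
    obtain ⟨s, hA⟩ := binder_wf (.inl hT)
    refine ⟨⟨Tm.sub (strip ∘ f) T, ?_⟩, iha ha hw hf hg, ?_⟩
    · rw [show strip (MTm.lam (MTm.sub f a) (MTm.sub (MTm.up f) b))
        = Tm.sub (strip ∘ f) (strip (MTm.lam a b)) from strip_sub (MTm.lam a b) f]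
      exact hT.subst hw hf
    · rw [strip_sub]
      have hA' := hA.subst hw hf
      refine ihb hb (.cons hw hA') (by rw [strip_up]; exact hf.up hA') fun i A hi => ?_
      cases hi with
      | zero => exact ⟨_, .var hA'⟩
      | succ _ hi => exact (hg _ _ hi).ren hP (.cons hw hA') (RenOK.sh _ _)
  | pi a b iha ihb =>
    intro Γ Δ f h hw hf hg
    obtain ⟨⟨T, hT⟩, ha, hb⟩ := h
    obtain ⟨s, hA⟩ := binder_wf (.inr hT)
    refine ⟨⟨Tm.sub (strip ∘ f) T, ?_⟩, iha ha hw hf hg, ?_⟩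
    · rw [show strip (MTm.pi (MTm.sub f a) (MTm.sub (MTm.up f) b))
        = Tm.sub (strip ∘ f) (strip (MTm.pi a b)) from strip_sub (MTm.pi a b) f]
      exact hT.subst hw hf
    · rw [strip_sub]
      have hA' := hA.subst hw hf
      refine ihb hb (.cons hw hA') (by rw [strip_up]; exact hf.up hA') fun i A hi => ?_
      cases hi with
      | zero => exact ⟨_, .var hA'⟩
      | succ _ hi => exact (hg _ _ hi).ren hP (.cons hw hA') (RenOK.sh _ _)
  | mem a b iha ihb =>
    intro Γ Δ f h hw hf hg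
    obtain ⟨ha, hb, s, t, hr, hca, hcb⟩ := h
    exact ⟨iha ha hw hf hg, ihb hb hw hf hg, s, t, hr, by rw [cls_sub hP ha hw hf, hca],
      by rwa [cls_sub hP hb hw hf]⟩

theorem Good.inst {Γ : List (Tm S)} {A : Tm S} {M N : MTm S} (hM : Good P (A :: Γ) M)
    (hN : Good P Γ N) (hT : Has P Γ (strip N) A) : Good P Γ (MTm.inst M N) := by
  refine hM.sub hP hT.wf (by rw [strip_scons]; exact SubOK.scons hT) fun i B hi => ?_
  cases hi with
  | zero => exact hN
  | succ _ hi => exact ⟨_, hT.wf.var hi⟩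

theorem Good.ctx_conv {Γ : List (Tm S)} {A A' : Tm S} {s s' : S} {M : MTm S}
    (h : Good P (A :: Γ) M) (hA : Has P Γ A (.srt s)) (hA' : Has P Γ A' (.srt s'))
    (hc : Conv A A') : Good P (A' :: Γ) M := by
  have hw : Wf P (A' :: Γ) := .cons hA.wf hA'
  have hid : MTm.sub MTm.var M = M := by
    clear h hA hA' hc hw
    induction M with
    | var n => rfl
    | srt s => rfl
    | app a b ha hb => simp [MTm.sub, ha, hb]
    | mem a b ha hb => simp [MTm.sub, ha, hb]
    | lam a b ha hb =>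
      have : MTm.up MTm.var = (MTm.var : ℕ → MTm S) := by funext n; cases n <;> rfl
      simp [MTm.sub, this, ha, hb]
    | pi a b ha hb =>
      have : MTm.up MTm.var = (MTm.var : ℕ → MTm S) := by funext n; cases n <;> rfl
      simp [MTm.sub, this, ha, hb]
  rw [← hid]
  have hok : SubOK P (strip ∘ MTm.var) (A :: Γ) (A' :: Γ) := by
    intro i C hC
    show Has P _ (Tm.var i) (Tm.sub Tm.var C)
    rw [Tm.sub_var]
    cases hC with
    | zero => exact .conv (.var hA') (hA.sh hA') (hc.symm.ren _)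
    | succ _ hC => exact hw.var (hC.succ _)
  exact h.sub hP hw hok fun i C hC => ⟨_, hok i C hC⟩

theorem redex_classes {Γ : List (Tm S)} {A M N : Tm S} {T : Tm S}
    (h : Has P Γ (Tm.app (Tm.lam A M) N) T) :
    ∃ s t, Has P Γ A (.srt s) ∧ Has P Γ N A ∧ P.Rule s t t ∧
      cl P (ctxC P Γ) (Tm.lam A M) = .inl t ∧ cl P (ctxC P Γ) N = .inl s ∧
      cl P (ctxC P Γ) A = memC P s := by
  obtain ⟨A', B', hf, ha, -⟩ := h.gen_app
  obtain ⟨B, u, -, hpi, hc⟩ := hf.gen_lam
  obtain ⟨s, t, u', hA, -, hr, hcu⟩ := hpi.gen_pi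
  have hN : Has P Γ N A := .conv ha hA hc.pi_inj.1
  have hut : u = t := by rw [hcu.srt_inj, hP.cod _ _ _ hr]
  refine ⟨s, t, hA, hN, by rwa [hP.cod _ _ _ hr] at hr, ?_, cl_term hP hN hA,
    cl_type hP hA⟩
  rw [cl_term hP (.conv hf hpi hc) hpi, hut]

theorem app_classes {Γ : List (Tm S)} {M N : Tm S} {T : Tm S}
    (h : Has P Γ (Tm.app M N) T) :
    ∃ s t, P.Rule s t t ∧ cl P (ctxC P Γ) M = .inl t ∧ cl P (ctxC P Γ) N = .inl s := by
  obtain ⟨A, B, hf, ha, -⟩ := h.gen_app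
  rcases hf.correct with ⟨u, hu⟩ | ⟨u, e⟩
  · obtain ⟨s, t, u', hA, -, hr, hcu⟩ := hu.gen_pi
    have hut : u = t := by rw [hcu.srt_inj, hP.cod _ _ _ hr]
    exact ⟨s, t, by rwa [hP.cod _ _ _ hr] at hr,
      by rw [cl_term hP hf hu, hut], cl_term hP ha hA⟩
  · cases e

theorem cls_step {Γ : List (Tm S)} {b : Bool} {N N' : MTm S} (h : Good P Γ N)
    (hs : MStep b N N') : N'.cls P Γ = N.cls P Γ := by
  obtain ⟨T, hT⟩ := h.typed
  exact cl_steps hP hT hs.strip_steps

theorem Good.step : ∀ {b : Bool} {N N' : MTm S}, MStep b N N' →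
    ∀ {Γ : List (Tm S)}, Good P Γ N → Good P Γ N' := by
  intro b N N' h
  induction h with
  | beta A M N =>
    intro Γ ⟨⟨T, hT⟩, ⟨_, hA, hM⟩, hN⟩
    obtain ⟨s, t, hA', hN', hr, hcf, hcN, hcA⟩ := redex_classes hP hT
    have hT' : Has P Γ (Tm.inst (strip M) (strip N)) T := hT.step (.beta _ _ _)
    have hc : (MTm.inst M N).cls P Γ = .inl t := by
      rw [MTm.cls, strip_inst, cl_steps hP hT (.single (.beta _ _ _))]
      exact hcf
    exact ⟨⟨hM.inst hP hN hN', hN, s, t, hr, hc, .inl hcN⟩, hA, s, t, hr, hc, .inr hcA⟩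
  | perm M Q N =>
    intro Γ ⟨⟨T, hT⟩, ⟨hM, hQ, s, t, hr, hcM, hcQ⟩, hN⟩
    exact ⟨⟨⟨T, hT⟩, hM, hN⟩, hQ, s, t, hr, hcM, hcQ⟩
  | appL N hs ih =>
    intro Γ ⟨⟨T, hT⟩, hM, hN⟩
    exact ⟨⟨T, hT.steps (Steps.app hs.strip_steps .refl)⟩, ih hM, hN⟩
  | appR M hs ih =>
    intro Γ ⟨⟨T, hT⟩, hM, hN⟩
    exact ⟨⟨T, hT.steps (Steps.app .refl hs.strip_steps)⟩, hM, ih hN⟩
  | @lamL b A A' M hs ih =>
    intro Γ ⟨⟨T, hT⟩, hA, hM⟩
    obtain ⟨s, hA'⟩ := binder_wf (.inl hT)
    refine ⟨⟨T, hT.steps (Steps.lam hs.strip_steps .refl)⟩, ih hA, ?_⟩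
    exact hM.ctx_conv hP hA' (hA'.steps hs.strip_steps) (Conv.of_steps hs.strip_steps)
  | lamR A hs ih =>
    intro Γ ⟨⟨T, hT⟩, hA, hM⟩
    exact ⟨⟨T, hT.steps (Steps.lam .refl hs.strip_steps)⟩, hA, ih hM⟩
  | @piL b A A' B hs ih =>
    intro Γ ⟨⟨T, hT⟩, hA, hB⟩
    obtain ⟨s, hA'⟩ := binder_wf (.inr hT)
    refine ⟨⟨T, hT.steps (Steps.pi hs.strip_steps .refl)⟩, ih hA, ?_⟩
    exact hB.ctx_conv hP hA' (hA'.steps hs.strip_steps) (Conv.of_steps hs.strip_steps)
  | piR A hs ih =>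
    intro Γ ⟨⟨T, hT⟩, hA, hB⟩
    exact ⟨⟨T, hT.steps (Steps.pi .refl hs.strip_steps)⟩, hA, ih hB⟩
  | memL Q hs ih =>
    intro Γ ⟨hM, hQ, s, t, hr, hcM, hcQ⟩
    exact ⟨ih hM, hQ, s, t, hr, by rw [cls_step hP hM hs, hcM], hcQ⟩
  | memR M hs ih =>
    intro Γ ⟨hM, hQ, s, t, hr, hcM, hcQ⟩
    exact ⟨hM, ih hQ, s, t, hr, hcM, by rwa [cls_step hP hQ hs]⟩

end Vale.Agent.P340.St
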