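import Vale.Agent.P340.StCR
import Vale.Agent.P340.StDefs

/-!
Typing for internal terms (the seven rules of a pure type system plus closed constants) and its
standard metatheory: renaming, substitution, generation, subject reduction.
-/

namespace Vale.Agent.P340.St

universe u
variable {S : Type u}

open Tm

/-- A specification together with a switch allowing closed constants. -/
structure Sys (S : Type u) extends PTS.Spec S where
  cstOK : Prop

inductive Has (P : Sys S) : List (Tm S) → Tm S → Tm S → Prop where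
  | ax {s t : S} : P.Ax s t → Has P [] (srt s) (srt t)
  | cst {A : Tm S} {s : S} (n : ℕ) : P.cstOK → Has P [] A (srt s) → Has P [] (cst n A) A
  | var {Γ : List (Tm S)} {A : Tm S} {s : S} :
      Has P Γ A (srt s) → Has P (A :: Γ) (var 0) (sh A)
  | weak {Γ : List (Tm S)} {M B A : Tm S} {s : S} :
      Has P Γ M B → Has P Γ A (srt s) → Has P (A :: Γ) (sh M) (sh B)
  | pi {Γ : List (Tm S)} {A B : Tm S} {s t u : S} :
      Has P Γ A (srt s) → Has P (A :: Γ) B (srt t) → P.Rule s t u →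
      Has P Γ (pi A B) (srt u)
  | lam {Γ : List (Tm S)} {A B M : Tm S} {s : S} :
      Has P (A :: Γ) M B → Has P Γ (Tm.pi A B) (srt s) → Has P Γ (lam A M) (Tm.pi A B)
  | app {Γ : List (Tm S)} {A B M N : Tm S} :
      Has P Γ M (Tm.pi A B) → Has P Γ N A → Has P Γ (app M N) (inst B N)
  | conv {Γ : List (Tm S)} {M A B : Tm S} {s : S} :
      Has P Γ M A → Has P Γ B (srt s) → Conv A B → Has P Γ M B

inductive Wf (P : Sys S) : List (Tm S) → Prop where
  | nil : Wf P []
  | cons {Γ : List (Tm S)} {A : Tm S} {s : S} :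
      Wf P Γ → Has P Γ A (srt s) → Wf P (A :: Γ)

inductive At : List (Tm S) → ℕ → Tm S → Prop where
  | zero (A : Tm S) (Γ : List (Tm S)) : At (A :: Γ) 0 (sh A)
  | succ {Γ : List (Tm S)} {i : ℕ} {A : Tm S} (B : Tm S) :
      At Γ i A → At (B :: Γ) (i + 1) (sh A)

theorem At.det {Γ : List (Tm S)} {i : ℕ} {A B : Tm S} (h : At Γ i A) (h' : At Γ i B) : A = B := by
  induction h generalizing B with
  | zero A Γ => cases h'; rfl
  | succ B' _ ih => cases h' with
    | succ _ h'' => rw [ih h'']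

theorem At.lt {Γ : List (Tm S)} {i : ℕ} {A : Tm S} (h : At Γ i A) : i < Γ.length := by
  induction h with
  | zero => simp
  | succ => simp; omega

theorem At.exists_of_lt : ∀ {Γ : List (Tm S)} {i : ℕ}, i < Γ.length → ∃ A, At Γ i A
  | [], i, h => by simp at h
  | A :: Γ, 0, _ => ⟨_, .zero A Γ⟩
  | B :: Γ, i + 1, h => by
    obtain ⟨A, hA⟩ := At.exists_of_lt (Γ := Γ) (i := i) (by simpa using h)
    exact ⟨_, hA.succ B⟩

variable {P : Sys S}

theorem Has.wf {Γ : List (Tm S)} {M A : Tm S} (h : Has P Γ M A) : Wf P Γ := by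
  induction h with
  | ax => exact .nil
  | cst => exact .nil
  | var hA ih => exact .cons ih hA
  | weak _ hA ih _ => exact .cons ih hA
  | pi _ _ _ ih _ => exact ih
  | lam _ _ _ ih => exact ih
  | app _ _ ih _ => exact ih
  | conv _ _ _ ih _ => exact ih

/-- Free variables are bounded by `n`. -/
def Scoped : ℕ → Tm S → Prop
  | n, .var i => i < n
  | _, .srt _ => True
  | _, .cst _ _ => True
  | n, .app a b => Scoped n a ∧ Scoped n b
  | n, .lam a b => Scoped n a ∧ Scoped (n + 1) b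
  | n, .pi a b => Scoped n a ∧ Scoped (n + 1) b

theorem Scoped.ren {M : Tm S} : ∀ {n m : ℕ} {f : ℕ → ℕ},
    Scoped n M → (∀ i, i < n → f i < m) → Scoped m (Tm.ren f M) := by
  induction M with
  | var i => intro n m f h hf; exact hf i h
  | srt s => intros; trivial
  | cst n A => intros; trivial
  | app a b ha hb => intro n m f h hf; exact ⟨ha h.1 hf, hb h.2 hf⟩
  | lam a b ha hb =>
    intro n m f h hf
    refine ⟨ha h.1 hf, hb h.2 ?_⟩
    rintro (_ | i) hi
    · simp
    · simp only [upR_succ]; have := hf i (by omega); omega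
  | pi a b ha hb =>
    intro n m f h hf
    refine ⟨ha h.1 hf, hb h.2 ?_⟩
    rintro (_ | i) hi
    · simp
    · simp only [upR_succ]; have := hf i (by omega); omega

theorem Scoped.sub {M : Tm S} : ∀ {n m : ℕ} {f : ℕ → Tm S},
    Scoped n M → (∀ i, i < n → Scoped m (f i)) → Scoped m (Tm.sub f M) := by
  induction M with
  | var i => intro n m f h hf; exact hf i h
  | srt s => intros; trivial
  | cst n A => intros; trivial
  | app a b ha hb => intro n m f h hf; exact ⟨ha h.1 hf, hb h.2 hf⟩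
  | lam a b ha hb =>
    intro n m f h hf
    refine ⟨ha h.1 hf, hb h.2 ?_⟩
    rintro (_ | i) hi
    · simp [Scoped]
    · exact (hf i (by omega)).ren (fun j hj => by omega)
  | pi a b ha hb =>
    intro n m f h hf
    refine ⟨ha h.1 hf, hb h.2 ?_⟩
    rintro (_ | i) hi
    · simp [Scoped]
    · exact (hf i (by omega)).ren (fun j hj => by omega)

theorem Scoped.sub_congr {M : Tm S} : ∀ {n : ℕ} {f g : ℕ → Tm S},
    Scoped n M → (∀ i, i < n → f i = g i) → Tm.sub f M = Tm.sub g M := by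
  induction M with
  | var i => intro n f g h hf; exact hf i h
  | srt s => intros; rfl
  | cst n A => intros; rfl
  | app a b ha hb =>
    intro n f g h hf; simp only [Tm.sub]; rw [ha h.1 hf, hb h.2 hf]
  | lam a b ha hb =>
    intro n f g h hf
    simp only [Tm.sub]
    rw [ha h.1 hf, hb h.2 (g := Tm.up g) ?_]
    rintro (_ | i) hi
    · rfl
    · simp [hf i (by omega)]
  | pi a b ha hb =>
    intro n f g h hf
    simp only [Tm.sub]
    rw [ha h.1 hf, hb h.2 (g := Tm.up g) ?_]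
    rintro (_ | i) hi
    · rfl
    · simp [hf i (by omega)]

theorem Scoped.sub_closed {M : Tm S} (h : Scoped 0 M) (f : ℕ → Tm S) : Tm.sub f M = M := by
  rw [h.sub_congr (g := Tm.var) (fun i hi => absurd hi (by omega)), Tm.sub_var]

theorem Scoped.ren_closed {M : Tm S} (h : Scoped 0 M) (f : ℕ → ℕ) : Tm.ren f M = M := by
  rw [Tm.ren_eq_sub, h.sub_closed]

theorem Has.scoped {Γ : List (Tm S)} {M A : Tm S} (h : Has P Γ M A) :
    Scoped Γ.length M ∧ Scoped Γ.length A := by
  induction h with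
  | ax => exact ⟨trivial, trivial⟩
  | cst n _ _ ih => exact ⟨trivial, ih.1⟩
  | var _ ih =>
    exact ⟨by simp [Scoped], ih.1.ren (fun i hi => by simpa using hi)⟩
  | weak _ _ ih _ =>
    exact ⟨ih.1.ren (fun i hi => by simpa using hi), ih.2.ren (fun i hi => by simpa using hi)⟩
  | pi _ _ _ ih₁ ih₂ => exact ⟨⟨ih₁.1, by simpa using ih₂.1⟩, trivial⟩
  | lam _ _ ih₁ ih₂ => exact ⟨⟨ih₂.1.1, by simpa using ih₁.1⟩, ih₂.1⟩
  | app _ _ ih₁ ih₂ =>
    refine ⟨⟨ih₁.1, ih₂.1⟩, Scoped.sub ih₁.2.2 ?_⟩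
    rintro (_ | i) hi
    · exact ih₂.1
    · simpa [Scoped] using hi
  | conv _ _ _ ih₁ ih₂ => exact ⟨ih₁.1, ih₂.1⟩

theorem Wf.weakenClosed {Δ : List (Tm S)} (h : Wf P Δ) {M A : Tm S} (hM : Has P [] M A) :
    Has P Δ M A := by
  induction h with
  | nil => exact hM
  | cons _ hB ih =>
    have := Has.weak ih hB
    rwa [sh, sh, hM.scoped.1.ren_closed, hM.scoped.2.ren_closed] at this

theorem Wf.var {Δ : List (Tm S)} (h : Wf P Δ) {i : ℕ} {A : Tm S} (hA : At Δ i A) :
    Has P Δ (var i) A := by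
  induction hA with
  | zero A Γ => cases h with | cons _ hA => exact .var hA
  | succ B _ ih => cases h with | cons hw hB => exact .weak (ih hw) hB

theorem Wf.sorted {Δ : List (Tm S)} (h : Wf P Δ) {i : ℕ} {A : Tm S} (hA : At Δ i A) :
    ∃ s, Has P Δ A (srt s) := by
  induction hA with
  | zero A Γ => cases h with | cons _ hA => exact ⟨_, .weak hA hA⟩
  | succ B _ ih => cases h with | cons hw hB =>
    obtain ⟨s, hs⟩ := ih hw
    exact ⟨s, .weak hs hB⟩

def RenOK (f : ℕ → ℕ) (Γ Δ : List (Tm S)) : Prop :=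
  ∀ i A, At Γ i A → At Δ (f i) (Tm.ren f A)

theorem RenOK.up {f : ℕ → ℕ} {Γ Δ : List (Tm S)} (h : RenOK f Γ Δ) (A : Tm S) :
    RenOK (upR f) (A :: Γ) (Tm.ren f A :: Δ) := by
  intro i B hB
  cases hB with
  | zero => rw [ren_sh]; exact .zero _ _
  | succ _ hB => rw [ren_sh]; exact .succ _ (h _ _ hB)

theorem RenOK.tail {f : ℕ → ℕ} {Γ Δ : List (Tm S)} {A : Tm S} (h : RenOK f (A :: Γ) Δ) :
    RenOK (f ∘ Nat.succ) Γ Δ := by
  intro i B hB
  have := h _ _ (hB.succ A)
  rwa [sh, ren_ren] at this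

theorem RenOK.sh (Γ : List (Tm S)) (A : Tm S) : RenOK Nat.succ Γ (A :: Γ) :=
  fun _ _ hB => hB.succ A

theorem Has.ren {Γ : List (Tm S)} {M A : Tm S} (h : Has P Γ M A) :
    ∀ {f : ℕ → ℕ} {Δ : List (Tm S)}, Wf P Δ → RenOK f Γ Δ →
      Has P Δ (Tm.ren f M) (Tm.ren f A) := by
  induction h with
  | ax h => intro f Δ hw _; exact hw.weakenClosed (.ax h)
  | @cst A s n hok hA _ =>
    intro f Δ hw _
    rw [hA.scoped.1.ren_closed]
    exact hw.weakenClosed (.cst n hok hA)
  | var _ _ => intro f Δ hw hf; exact hw.var (hf _ _ (.zero _ _))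
  | weak _ _ ih _ =>
    intro f Δ hw hf
    simp only [Tm.sh, ren_ren]
    exact ih hw hf.tail
  | pi _ _ hr ihA ihB =>
    intro f Δ hw hf
    have hA := ihA hw hf
    exact .pi hA (ihB (.cons hw hA) (hf.up _)) hr
  | @lam Γ A B M s hM hP ihM ihP =>
    intro f Δ hw hf
    have hP' := ihP hw hf
    obtain ⟨s', hA⟩ : ∃ s', Has P (Γ) A (srt s') := by
      cases hM.wf with | cons _ hA => exact ⟨_, hA⟩
    cases hM.wf with
    | cons _ hA =>
      refine .lam (ihM ?_ (hf.up _)) hP'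
      generalize hX : Tm.pi A B = X at hP'
      clear ihM ihP hP hM
      suffices ∀ Δ (X T : Tm S), Has P Δ X T → ∀ A B, X = Tm.pi A B →
          ∃ s, Has P Δ A (srt s) by
        obtain ⟨s, hs⟩ := this _ _ _ hP' (Tm.ren f A) (Tm.ren (upR f) B) (by rw [← hX]; rfl)
        exact .cons hw hs
      intro Δ X T hX
      induction hX with
      | pi hA _ _ _ _ => intro A B e; cases e; exact ⟨_, hA⟩
      | conv _ _ _ ih _ => exact ih
      | @weak Γ M B' A' s _ hA' ih _ =>
        intro A B e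
        cases M with
        | pi a b =>
          simp only [Tm.sh, Tm.ren] at e
          cases e
          obtain ⟨s, hs⟩ := ih a b rfl
          exact ⟨s, .weak hs hA'⟩
        | _ => simp [Tm.sh, Tm.ren] at e
      | _ => intro A B e; cases e
  | @app Γ A B M N _ _ ihM ihN =>
    intro f Δ hw hf
    rw [ren_inst]
    exact .app (ihM hw hf) (ihN hw hf)
  | conv _ _ hc ihM ihB => intro f Δ hw hf; exact .conv (ihM hw hf) (ihB hw hf) (hc.ren f)

theorem Has.sh {Γ : List (Tm S)} {M A B : Tm S} {s : S} (h : Has P Γ M A)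
    (hB : Has P Γ B (srt s)) : Has P (B :: Γ) (Tm.sh M) (Tm.sh A) := .weak h hB

/-- Generation for products. -/
theorem Has.gen_pi {Γ : List (Tm S)} {A B T : Tm S} (h : Has P Γ (Tm.pi A B) T) :
    ∃ s t u, Has P Γ A (srt s) ∧ Has P (A :: Γ) B (srt t) ∧ P.Rule s t u ∧ Conv T (srt u) := by
  generalize e : Tm.pi A B = M at h
  induction h generalizing A B with
  | pi hA hB hr _ _ => cases e; exact ⟨_, _, _, hA, hB, hr, Conv.refl _⟩
  | conv _ _ hc ih _ =>
    obtain ⟨s, t, u, h₁, h₂, h₃, h₄⟩ := ih e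
    exact ⟨s, t, u, h₁, h₂, h₃, hc.symm.trans h₄⟩
  | @weak Γ M B' A' s _ hA' ih _ =>
    cases M with
    | pi a b =>
      simp only [Tm.sh, Tm.ren] at e
      cases e
      obtain ⟨s, t, u, h₁, h₂, h₃, h₄⟩ := ih rfl
      have h₁' := h₁.sh hA'
      refine ⟨s, t, u, h₁', h₂.ren (.cons (.cons h₁.wf hA') h₁') ((RenOK.sh _ _).up _), h₃,
        h₄.ren Nat.succ⟩
    | _ => simp [Tm.sh, Tm.ren] at e
  | _ => cases e

def SubOK (P : Sys S) (f : ℕ → Tm S) (Γ Δ : List (Tm S)) : Prop :=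
  ∀ i A, At Γ i A → Has P Δ (f i) (Tm.sub f A)

theorem SubOK.up {f : ℕ → Tm S} {Γ Δ : List (Tm S)} (h : SubOK P f Γ Δ) {A : Tm S} {s : S}
    (hA : Has P Δ (Tm.sub f A) (srt s)) : SubOK P (Tm.up f) (A :: Γ) (Tm.sub f A :: Δ) := by
  intro i B hB
  cases hB with
  | zero => rw [sub_up_sh]; exact .var hA
  | succ _ hB => rw [sub_up_sh]; exact (h _ _ hB).sh hA

theorem SubOK.tail {f : ℕ → Tm S} {Γ Δ : List (Tm S)} {A : Tm S} (h : SubOK P f (A :: Γ) Δ) :
    SubOK P (f ∘ Nat.succ) Γ Δ := by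
  intro i B hB
  have := h _ _ (hB.succ A)
  rwa [Tm.sh, sub_ren] at this

theorem Has.subst {Γ : List (Tm S)} {M A : Tm S} (h : Has P Γ M A) :
    ∀ {f : ℕ → Tm S} {Δ : List (Tm S)}, Wf P Δ → SubOK P f Γ Δ →
      Has P Δ (Tm.sub f M) (Tm.sub f A) := by
  induction h with
  | ax h => intro f Δ hw _; exact hw.weakenClosed (.ax h)
  | @cst A s n hok hA _ =>
    intro f Δ hw _
    rw [hA.scoped.1.sub_closed]
    exact hw.weakenClosed (.cst n hok hA)
  | var _ _ => intro f Δ hw hf; exact hf _ _ (.zero _ _)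
  | weak _ _ ih _ =>
    intro f Δ hw hf
    simp only [Tm.sh, sub_ren]
    exact ih hw hf.tail
  | pi _ _ hr ihA ihB =>
    intro f Δ hw hf
    have hA := ihA hw hf
    exact .pi hA (ihB (.cons hw hA) (hf.up hA)) hr
  | @lam Γ A B M s hM hP ihM ihP =>
    intro f Δ hw hf
    have hP' := ihP hw hf
    obtain ⟨s', t', u', hA, -, -, -⟩ := (show Has P Δ (Tm.pi _ _) _ from hP').gen_pi
    exact .lam (ihM (.cons hw hA) (hf.up hA)) hP'
  | @app Γ A B M N _ _ ihM ihN =>
    intro f Δ hw hf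
    rw [sub_inst]
    exact .app (ihM hw hf) (ihN hw hf)
  | conv _ _ hc ihM ihB => intro f Δ hw hf; exact .conv (ihM hw hf) (ihB hw hf) (hc.sub f)

theorem SubOK.scons {Γ : List (Tm S)} {A N : Tm S} (hN : Has P Γ N A) :
    SubOK P (Tm.scons N Tm.var) (A :: Γ) Γ := by
  intro i B hB
  cases hB with
  | zero => rw [sub_scons_sh, sub_var]; exact hN
  | succ _ hB => rw [sub_scons_sh, sub_var]; exact hN.wf.var hB

theorem Has.inst {Γ : List (Tm S)} {A B M N : Tm S} (hM : Has P (A :: Γ) M B)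
    (hN : Has P Γ N A) : Has P Γ (Tm.inst M N) (Tm.inst B N) :=
  hM.subst hN.wf (SubOK.scons hN)

/-- The type of a typed expression is sorted or is a sort. -/
theorem Has.correct {Γ : List (Tm S)} {M A : Tm S} (h : Has P Γ M A) :
    (∃ s, Has P Γ A (srt s)) ∨ ∃ s, A = srt s := by
  induction h with
  | ax _ => exact .inr ⟨_, rfl⟩
  | cst _ _ hA _ => exact .inl ⟨_, hA⟩
  | var hA _ => exact .inl ⟨_, hA.sh hA⟩
  | weak _ hB ih _ =>
    rcases ih with ⟨s, hs⟩ | ⟨s, rfl⟩
    · exact .inl ⟨s, hs.sh hB⟩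
    · exact .inr ⟨s, rfl⟩
  | pi _ _ _ _ _ => exact .inr ⟨_, rfl⟩
  | lam _ hP _ _ => exact .inl ⟨_, hP⟩
  | app _ hN ihM _ =>
    rcases ihM with ⟨s, hs⟩ | ⟨s, e⟩
    · obtain ⟨_, t, _, _, hB, _, _⟩ := hs.gen_pi
      exact .inl ⟨t, hB.inst hN⟩
    · cases e
  | conv _ hB _ _ _ => exact .inl ⟨_, hB⟩

/-- Generation for abstractions. -/
theorem Has.gen_lam {Γ : List (Tm S)} {A M T : Tm S} (h : Has P Γ (Tm.lam A M) T) :
    ∃ B s, Has P (A :: Γ) M B ∧ Has P Γ (Tm.pi A B) (srt s) ∧ Conv T (Tm.pi A B) := by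
  generalize e : Tm.lam A M = X at h
  induction h generalizing A M with
  | lam hM hP _ _ => cases e; exact ⟨_, _, hM, hP, Conv.refl _⟩
  | conv _ _ hc ih _ =>
    obtain ⟨B, s, h₁, h₂, h₃⟩ := ih e
    exact ⟨B, s, h₁, h₂, hc.symm.trans h₃⟩
  | @weak Γ M' B' A' s _ hA' ih _ =>
    cases M' with
    | lam a b =>
      simp only [Tm.sh, Tm.ren] at e
      cases e
      obtain ⟨B, s, h₁, h₂, h₃⟩ := ih rfl
      have h₂' := h₂.sh hA'
      obtain ⟨sA, _, _, hA, -, -, -⟩ := h₂.gen_pi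
      exact ⟨Tm.ren (upR Nat.succ) B, s,
        h₁.ren (.cons (.cons hA.wf hA') (hA.sh hA')) ((RenOK.sh _ _).up _), h₂',
        h₃.ren Nat.succ⟩
    | _ => simp [Tm.sh, Tm.ren] at e
  | _ => cases e

/-- Generation for applications. -/
theorem Has.gen_app {Γ : List (Tm S)} {M N T : Tm S} (h : Has P Γ (Tm.app M N) T) :
    ∃ A B, Has P Γ M (Tm.pi A B) ∧ Has P Γ N A ∧ Conv T (Tm.inst B N) := by
  generalize e : Tm.app M N = X at h
  induction h generalizing M N with
  | app hM hN _ _ => cases e; exact ⟨_, _, hM, hN, Conv.refl _⟩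
  | conv _ _ hc ih _ =>
    obtain ⟨A, B, h₁, h₂, h₃⟩ := ih e
    exact ⟨A, B, h₁, h₂, hc.symm.trans h₃⟩
  | @weak Γ M' B' A' s _ hA' ih _ =>
    cases M' with
    | app a b =>
      simp only [Tm.sh, Tm.ren] at e
      cases e
      obtain ⟨A, B, h₁, h₂, h₃⟩ := ih rfl
      refine ⟨Tm.sh A, Tm.ren (upR Nat.succ) B, h₁.sh hA', h₂.sh hA', ?_⟩
      rw [← ren_inst]
      exact h₃.ren _
    | _ => simp [Tm.sh, Tm.ren] at e
  | _ => cases e

/-- Generation for sorts. -/
theorem Has.gen_srt {Γ : List (Tm S)} {s : S} {T : Tm S} (h : Has P Γ (Tm.srt s) T) :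
    ∃ t, P.Ax s t ∧ Conv T (srt t) := by
  generalize e : Tm.srt s = X at h
  induction h with
  | ax h => cases e; exact ⟨_, h, Conv.refl _⟩
  | conv _ _ hc ih _ =>
    obtain ⟨t, h₁, h₂⟩ := ih e
    exact ⟨t, h₁, hc.symm.trans h₂⟩
  | @weak Γ M' B' A' s' _ hA' ih _ =>
    cases M' with
    | srt a =>
      simp only [Tm.sh, Tm.ren] at e
      cases e
      obtain ⟨t, h₁, h₂⟩ := ih rfl
      exact ⟨t, h₁, h₂.ren Nat.succ⟩
    | _ => simp [Tm.sh, Tm.ren] at e
  | _ => cases e

/-- Generation for constants. -/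
theorem Has.gen_cst {Γ : List (Tm S)} {n : ℕ} {A T : Tm S} (h : Has P Γ (Tm.cst n A) T) :
    (∃ s, Has P [] A (srt s)) ∧ Conv T A := by
  generalize e : Tm.cst n A = X at h
  induction h with
  | cst _ hok h => cases e; exact ⟨⟨_, h⟩, Conv.refl _⟩
  | conv _ _ hc ih _ =>
    obtain ⟨h₁, h₂⟩ := ih e
    exact ⟨h₁, hc.symm.trans h₂⟩
  | @weak Γ M' B' A' s' _ hA' ih _ =>
    cases M' with
    | cst a b =>
      simp only [Tm.sh, Tm.ren] at e
      cases e
      obtain ⟨⟨s, h₁⟩, h₂⟩ := ih rfl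
      refine ⟨⟨s, h₁⟩, ?_⟩
      have := h₂.ren Nat.succ
      rwa [h₁.scoped.1.ren_closed] at this
    | _ => simp [Tm.sh, Tm.ren] at e
  | _ => cases e

/-- Generation for variables. -/
theorem Has.gen_var {Γ : List (Tm S)} {i : ℕ} {T : Tm S} (h : Has P Γ (Tm.var i) T) :
    ∃ A, At Γ i A ∧ Conv T A := by
  generalize e : Tm.var i = X at h
  induction h generalizing i with
  | var _ => cases e; exact ⟨_, .zero _ _, Conv.refl _⟩
  | conv _ _ hc ih _ =>
    obtain ⟨A, h₁, h₂⟩ := ih e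
    exact ⟨A, h₁, hc.symm.trans h₂⟩
  | @weak Γ M' B' A' s' _ hA' ih _ =>
    cases M' with
    | var j =>
      simp only [Tm.sh, Tm.ren] at e
      cases e
      obtain ⟨A, h₁, h₂⟩ := ih rfl
      exact ⟨_, h₁.succ _, h₂.ren Nat.succ⟩
    | _ => simp [Tm.sh, Tm.ren] at e
  | _ => cases e

theorem Has.ctx_conv {Γ : List (Tm S)} {A A' M B : Tm S} {s s' : S}
    (h : Has P (A :: Γ) M B) (hA : Has P Γ A (srt s)) (hA' : Has P Γ A' (srt s'))
    (hc : Conv A A') : Has P (A' :: Γ) M B := by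
  have hw : Wf P (A' :: Γ) := .cons hA.wf hA'
  have := h.subst hw (f := Tm.var) (Δ := A' :: Γ) (by
    intro i C hC
    rw [sub_var]
    cases hC with
    | zero => exact .conv (.var hA') (hA.sh hA') (hc.symm.ren _)
    | succ _ hC => exact hw.var (hC.succ _))
  simpa [sub_var] using this

/-- Subject reduction. -/
theorem Has.step {Γ : List (Tm S)} {M A : Tm S} (h : Has P Γ M A) :
    ∀ {N : Tm S}, Step M N → Has P Γ N A := by
  induction h with
  | ax => intro N h; cases h
  | cst => intro N h; cases h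
  | var => intro N h; cases h
  | @weak Γ M B A s hM hA ihM _ =>
    intro N h
    obtain ⟨N', hN', e⟩ : ∃ N', Step M N' ∧ N = Tm.sh N' := by
      have key : ∀ (M : Tm S) (f : ℕ → ℕ) (N : Tm S), Step (Tm.ren f M) N →
          ∃ N', Step M N' ∧ N = Tm.ren f N' := by
        intro M
        induction M with
        | var n => intro f N h; cases h
        | srt s => intro f N h; cases h
        | cst n A => intro f N h; cases h
        | lam a b ha hb =>
          intro f N h
          cases h with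
          | lamL _ h => obtain ⟨x, hx, rfl⟩ := ha f _ h; exact ⟨_, .lamL _ hx, rfl⟩
          | lamR _ h => obtain ⟨x, hx, rfl⟩ := hb _ _ h; exact ⟨_, .lamR _ hx, rfl⟩
        | pi a b ha hb =>
          intro f N h
          cases h with
          | piL _ h => obtain ⟨x, hx, rfl⟩ := ha f _ h; exact ⟨_, .piL _ hx, rfl⟩
          | piR _ h => obtain ⟨x, hx, rfl⟩ := hb _ _ h; exact ⟨_, .piR _ hx, rfl⟩
        | app a b ha hb =>
          intro f N h
          simp only [Tm.ren] at h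
          generalize ea : Tm.ren f a = a' at h
          cases h with
          | appL _ h => subst ea; obtain ⟨x, hx, rfl⟩ := ha f _ h; exact ⟨_, .appL _ hx, rfl⟩
          | appR _ h => subst ea; obtain ⟨x, hx, rfl⟩ := hb f _ h; exact ⟨_, .appR _ hx, rfl⟩
          | beta A₀ M₀ _ =>
            cases a with
            | lam x y =>
              simp only [Tm.ren] at ea
              cases ea
              exact ⟨_, .beta x y b, by rw [ren_inst]⟩
            | _ => simp [Tm.ren] at ea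
      exact key M _ N h
    subst e
    exact (ihM hN').sh hA
  | @pi Γ A B s t u hA hB hr ihA ihB =>
    intro N h
    cases h with
    | piL _ h =>
      exact .pi (ihA h) (hB.ctx_conv hA (ihA h) (Conv.of_steps (.single h))) hr
    | piR _ h => exact .pi hA (ihB h) hr
  | @lam Γ A B M s hM hP ihM ihP =>
    intro N h
    cases h with
    | lamL _ h =>
      have hP' := ihP (Step.piL B h)
      obtain ⟨_, _, _, hA, -, -, -⟩ := hP.gen_pi
      obtain ⟨_, _, _, hA', -, -, -⟩ := hP'.gen_pi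
      exact .conv (.lam (hM.ctx_conv hA hA' (Conv.of_steps (.single h))) hP') hP
        (Conv.of_steps (.single (Step.piL B h))).symm
    | lamR _ h => exact .lam (ihM h) hP
  | @app Γ A B M N' hM hN ihM ihN =>
    intro X h
    cases h with
    | appL _ h => exact .app (ihM h) hN
    | appR _ h =>
      rcases hM.correct with ⟨s, hs⟩ | ⟨s, e⟩
      · obtain ⟨_, t, _, _, hB, _, _⟩ := hs.gen_pi
        refine .conv (.app hM (ihN h)) (hB.inst hN) (Conv.symm (Conv.of_steps ?_))
        exact Steps.sub_arg B _ _ fun n => match n with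
          | 0 => .single h
          | _ + 1 => .refl
      · cases e
    | beta A₀ M₀ _ =>
      obtain ⟨B₀, s₀, hM₀, hP₀, hc⟩ := hM.gen_lam
      obtain ⟨hcA, hcB⟩ := hc.pi_inj
      obtain ⟨_, _, _, hA₀, -, -, -⟩ := hP₀.gen_pi
      rcases hM.correct with ⟨s, hs⟩ | ⟨s, e⟩
      · obtain ⟨_, t, _, _, hB, _, _⟩ := hs.gen_pi
        have hN₀ : Has P Γ N' A₀ := .conv hN hA₀ hcA
        exact .conv (hM₀.inst hN₀) (hB.inst hN) (hcB.symm.sub _)
      · cases e
  | conv _ hB hc ih _ => intro N h; exact .conv (ih h) hB hc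

theorem Has.steps {Γ : List (Tm S)} {M N A : Tm S} (h : Has P Γ M A) (hs : Steps M N) :
    Has P Γ N A := by
  induction hs with
  | refl => exact h
  | tail _ hs ih => exact ih.step hs

theorem Has.conv_right {Γ : List (Tm S)} {M A B : Tm S} (h : Has P Γ M A) (hs : Steps A B) :
    Has P Γ M B := by
  rcases h.correct with ⟨s, hA⟩ | ⟨s, rfl⟩
  · exact .conv h (hA.steps hs) (Conv.of_steps hs)
  · rwa [hs.srt_inv]

end Vale.Agent.P340.St
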