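import Vale.Agent.P340.StStage

/-!
Weak normalization implies strong normalization for nondependent stratified systems (with
constants).
-/

namespace Vale.Agent.P340.St

open Relation Classical

universe u
variable {S : Type u} [Inhabited S] {P : Sys S}

/-- Every typed term has a normal form. -/
def WNSys (P : Sys S) : Prop :=
  ∀ Γ M A, Has P Γ M A → ∃ N, Steps M N ∧ NormalTm N

/-- A step at any redex. -/
def AStep (P : Sys S) (cs : ℕ → S) (N N' : MTm S) : Prop :=
  ∃ b, CStep P (fun _ => True) (fun _ => False) cs b N N'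

theorem CStep.toAll {act : Cl S → Prop} {cs : ℕ → S} {b : Bool} {N N' : MTm S}
    (h : CStep P act (fun _ => False) cs b N N') :
    CStep P (fun _ => True) (fun _ => False) cs b N N' := by
  induction h with
  | beta A M N _ hp hb => exact .beta A M N trivial hp hb
  | perm M Q N _ hp => exact .perm M Q N trivial hp
  | appL N _ hp he ih => exact .appL N ih hp he
  | appR M _ hp ih => exact .appR M ih hp
  | lamL M _ hp he ih => exact .lamL M ih hp he
  | lamR A _ hp he ih => exact .lamR A ih hp he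
  | piL B _ hp he ih => exact .piL B ih hp he
  | piR A _ hp he ih => exact .piR A ih hp he
  | memL Q _ hp he ih => exact .memL Q ih hp he
  | memR M _ hp ih => exact .memR M ih hp

theorem MStep.toCStep (hS : Strat P) {b : Bool} {N N' : MTm S} (h : MStep b N N') :
    ∀ Γ, Good P Γ N → CStep P (fun _ => True) (fun _ => False) (ctxC P Γ) b N N' := by
  induction h with
  | beta A M N =>
    intro Γ ⟨⟨T, hT⟩, _, _⟩
    obtain ⟨s, t, -, -, -, -, hcN, hcA⟩ := redex_classes hS hT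
    refine .beta A M N trivial (fun hh => hh) ?_
    rw [hcA, bindC_memC hS]; exact hcN
  | perm M Q N => intro Γ _; exact .perm M Q N trivial (fun hh => hh)
  | appL N hs ih =>
    intro Γ ⟨_, hM, _⟩
    exact .appL N (ih Γ hM) (fun hh => hh) (cls_step hS hM hs)
  | appR M _ ih => intro Γ ⟨_, _, hN⟩; exact .appR M (ih Γ hN) (fun hh => hh)
  | lamL M hs ih =>
    intro Γ ⟨_, hA, _⟩
    exact .lamL M (ih Γ hA) (fun hh => hh) (cls_step hS hA hs)
  | lamR A hs ih =>
    intro Γ ⟨_, _, hM⟩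
    have e := cls_step hS hM hs
    exact .lamR A (ih _ hM) (fun hh => hh) e
  | piL B hs ih =>
    intro Γ ⟨_, hA, _⟩
    exact .piL B (ih Γ hA) (fun hh => hh) (cls_step hS hA hs)
  | piR A hs ih =>
    intro Γ ⟨_, _, hB⟩
    have e := cls_step hS hB hs
    exact .piR A (ih _ hB) (fun hh => hh) e
  | memL Q hs ih =>
    intro Γ ⟨hM, _, _⟩
    exact .memL Q (ih Γ hM) (fun hh => hh) (cls_step hS hM hs)
  | memR M _ ih => intro Γ ⟨_, hQ, _⟩; exact .memR M (ih Γ hQ) (fun hh => hh)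

/-- Inside a node above `c` there is no redex of class `c`, and some type has sort `c` if there
is one. -/
theorem promote (hP : NonDep P) {c : S} {cs : ℕ → S} {b : Bool} {N N' : MTm S}
    (h : CStep P (fun x => x = .inl c) (fun _ => False) cs b N N') :
    ∀ Γ, ctxC P Γ = cs → Good P Γ N →
      ¬ Above P c (cl P cs (MTm.strip N)) ∧
      CStep P (fun x => x = .inl c) (fun x => Above P c x) cs b N N' ∧
      ∃ Δ A, Has P Δ A (.srt c) := by
  have hne : ∀ k : Cl S, k = .inl c → ¬ Above P c k := fun k e ha => by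
    subst e; exact hP.acyc _ ha
  induction h with
  | @beta cs A M N ha _ hb =>
    intro Γ hΓ ⟨⟨T, hT⟩, _, _⟩
    subst hΓ
    refine ⟨hne _ ha, .beta A M N ha (hne _ ha) hb, ?_⟩
    obtain ⟨X, Y, hf, -, -⟩ := hT.gen_app
    rcases hf.correct with ⟨v, hv⟩ | ⟨_, e⟩
    · have e := Sum.inl.inj ((cl_term hP.toStrat hf hv).symm.trans ha)
      exact ⟨Γ, .pi X Y, by rw [← e]; exact hv⟩
    · cases e
  | @perm cs M Q N ha _ =>
    intro Γ hΓ ⟨⟨T, hT⟩, _, _⟩
    subst hΓ
    refine ⟨hne _ ha, .perm M Q N ha (hne _ ha), ?_⟩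
    obtain ⟨X, Y, hf, -, -⟩ := hT.gen_app
    rcases hf.correct with ⟨v, hv⟩ | ⟨_, e⟩
    · have e := Sum.inl.inj ((cl_term hP.toStrat hf hv).symm.trans ha)
      exact ⟨Γ, .pi X Y, by rw [← e]; exact hv⟩
    · cases e
  | appL N _ _ he ih =>
    intro Γ hΓ ⟨_, hM, _⟩
    obtain ⟨h₁, h₂, h₃⟩ := ih Γ hΓ hM
    exact ⟨h₁, .appL N h₂ h₁ he, h₃⟩
  | @appR cs b M N N' _ _ ih =>
    intro Γ hΓ ⟨⟨T, hT⟩, _, hN⟩
    obtain ⟨h₁, h₂, h₃⟩ := ih Γ hΓ hN
    have hnode : ¬ Above P c (cl P cs (MTm.strip M)) := fun ha => by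
      subst hΓ
      exact h₁ (above_app hP hT ha).2
    exact ⟨hnode, .appR M h₂ hnode, h₃⟩
  | @lamL cs b A A' M _ _ he ih =>
    intro Γ hΓ ⟨⟨T, hT⟩, hA, _⟩
    obtain ⟨h₁, h₂, h₃⟩ := ih Γ hΓ hA
    have hnode : ¬ Above P c (cl P cs (MTm.strip (.lam A M))) := fun ha => by
      subst hΓ
      exact h₁ (above_lam hP hT ha).1
    exact ⟨hnode, .lamL M h₂ hnode he, h₃⟩
  | @lamR cs b A M M' _ _ he ih =>
    intro Γ hΓ ⟨⟨T, hT⟩, _, hM⟩
    obtain ⟨h₁, h₂, h₃⟩ := ih (MTm.strip A :: Γ) (by simp only [ctxC, hΓ]) hM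
    have hnode : ¬ Above P c (cl P cs (MTm.strip (.lam A M))) := fun ha => h₁ ha
    exact ⟨hnode, .lamR A h₂ hnode he, h₃⟩
  | @piL cs b A A' B _ _ he ih =>
    intro Γ hΓ ⟨⟨T, hT⟩, hA, _⟩
    obtain ⟨h₁, h₂, h₃⟩ := ih Γ hΓ hA
    have hnode : ¬ Above P c (cl P cs (MTm.strip (.pi A B))) := fun ha => by
      subst hΓ
      obtain ⟨s, t, -, -, -, -, -, -, -, g, -⟩ := above_pi hP hT ha
      exact h₁ g
    exact ⟨hnode, .piL B h₂ hnode he, h₃⟩
  | @piR cs b A B B' _ _ he ih =>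
    intro Γ hΓ ⟨⟨T, hT⟩, _, hB⟩
    obtain ⟨h₁, h₂, h₃⟩ := ih (MTm.strip A :: Γ) (by simp only [ctxC, hΓ]) hB
    have hnode : ¬ Above P c (cl P cs (MTm.strip (.pi A B))) := fun ha => h₁ ha
    exact ⟨hnode, .piR A h₂ hnode he, h₃⟩
  | memL Q _ _ he ih =>
    intro Γ hΓ ⟨hM, _⟩
    obtain ⟨h₁, h₂, h₃⟩ := ih Γ hΓ hM
    exact ⟨h₁, .memL Q h₂ h₁ he, h₃⟩
  | @memR cs b M Q Q' _ _ ih =>
    intro Γ hΓ ⟨_, hQ, s, t, hr, hcM, hcQ⟩
    obtain ⟨h₁, h₂, h₃⟩ := ih Γ hΓ hQ
    subst hΓ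
    have hnode : ¬ Above P c (cl P (ctxC P Γ) (MTm.strip M)) := fun ha => by
      apply h₁
      rw [show cl P (ctxC P Γ) (MTm.strip M) = _ from hcM] at ha
      have hs : TransGen P.Ax c s := TransGen.trans_left ha (hP.nd _ _ _ hr)
      rcases hcQ with e | e
      · rw [show cl P (ctxC P Γ) (MTm.strip Q) = _ from e]; exact hs
      · rw [show cl P (ctxC P Γ) (MTm.strip Q) = _ from e, above_memC hP]
        exact hs.to_reflTransGen
    exact ⟨hnode, .memR M h₂ hnode, h₃⟩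

omit [Inhabited S] in
/-- A closed type of sort `c`, if any type has sort `c`. -/
theorem exists_D (hP : NonDep P) {c : S} {A : Tm S} :
    ∀ Γ : List (Tm S), Has P Γ A (.srt c) → ∃ D, Has P [] D (.srt c) := by
  by_cases hc : ∃ c', P.Ax c c'
  · obtain ⟨c', hc'⟩ := hc
    intro Γ _
    exact ⟨.cst 8 (.srt c), .cst 8 hP.cok (.ax hc')⟩
  have nosort : ∀ {Γ : List (Tm S)} {T : Tm S} {s : S}, Has P Γ T (.srt s) →
      Conv (Tm.srt c) T → False := by
    intro Γ T s hT hcv
    obtain ⟨C, h₁, h₂⟩ := conv_iff.1 hcv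
    rw [h₁.srt_inv] at h₂
    obtain ⟨c', hc', -⟩ := (hT.steps h₂).gen_srt
    exact hc ⟨c', hc'⟩
  induction A with
  | var i =>
    intro Γ h
    obtain ⟨T, hT, hcv⟩ := h.gen_var
    obtain ⟨s, hs⟩ := h.wf.sorted hT
    exact (nosort hs hcv).elim
  | srt s =>
    intro Γ h
    obtain ⟨t, ht, hcv⟩ := h.gen_srt
    exact ⟨.srt s, .ax (by rw [hcv.srt_inj]; exact ht)⟩
  | cst n X _ =>
    intro Γ h
    obtain ⟨⟨s, hs⟩, hcv⟩ := h.gen_cst
    exact (nosort hs hcv).elim
  | app f a _ _ =>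
    intro Γ h
    obtain ⟨X, Y, hf, ha, hcv⟩ := h.gen_app
    rcases hf.correct with ⟨v, hv⟩ | ⟨_, e⟩
    · obtain ⟨_, t, _, -, hY, -, -⟩ := hv.gen_pi
      exact (nosort (hY.inst ha) hcv).elim
    · cases e
  | lam X b _ _ =>
    intro Γ h
    obtain ⟨_, _, -, -, hcv⟩ := h.gen_lam
    exact hcv.srt_pi.elim
  | pi X b _ ihb =>
    intro Γ h
    obtain ⟨s, t, v, -, hb, hr, hcv⟩ := h.gen_pi
    exact ihb _ (by rw [hcv.srt_inj, hP.cod _ _ _ hr]; exact hb)

/-- Initial environments: every source context has one. -/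
theorem init_env {c : S} {D : Tm S} (h : Cls P c D) : ∀ {Γ : List (Tm S)}, Wf P Γ →
    ∃ Δ σ, Env P c D Γ Δ σ id id ∧ (Poly P c → Sat P c D Γ [] σ) := by
  intro Γ hΓ
  induction hΓ with
  | nil =>
    exact ⟨[], fun _ => D, ⟨.nil, fun _ i A hA => (by cases hA), fun i A hA => (by cases hA)⟩,
      fun _ i A hA => (by cases hA)⟩
  | @cons Γ A s hw hA ih =>
    obtain ⟨Δ, σ, he, hs⟩ := ih
    obtain ⟨t, ht₁, ht₂⟩ := bind_closed h he.wf hs hA
    obtain ⟨-, he'⟩ := he.bind h hw hA t ht₁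
    rw [upR_id] at he'
    exact ⟨_, _, he', ht₂ Nat.succ⟩

/-- Steps of a self-quantifying class terminate. -/
theorem flex_acc {c : S} {D : Tm S} (h : Cls P c D) {Γ : List (Tm S)} {N : MTm S}
    (hg : Good P Γ N) : Acc (fun y x => KStep P (.inl c) (ctxC P Γ) x y) N := by
  obtain ⟨T, hT⟩ := hg.typed
  obtain ⟨Δ, σ, he, hs⟩ := init_env h hT.wf
  have hm : Mode P c D Γ σ (N.cls P Γ) := fun hp => .inl (hs hp)
  obtain ⟨hV, -, hth⟩ := real_thunk h (trans_ok h N Γ hg) hT he hm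
  obtain ⟨t, ht, hte⟩ := hth
  have hI : UTm.RelI (er P c (ctxC P Δ) t) := by rw [hte]; exact trU_relI N _ id
  have hsn := sn_er h.nd.toStrat ht
    (cl_term h.nd.toStrat ht (comp_typed h.rule h.hD hV)) hI (h.wn _ _ _ ht)
  rw [hte] at hsn
  have hacc := cstep_acc (act := fun k => k = Sum.inl c) (pur := fun k => Above P c k)
    (ctxC P Γ) (N := N) hsn
  clear hsn hI hte ht t hV hm hs he hT
  induction hacc with
  | intro N _ ih =>
    refine Acc.intro _ fun N' hN' => ?_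
    obtain ⟨b, hb⟩ := hN'
    exact ih N' ⟨b, (promote h.nd hb Γ rfl hg).2.1⟩ (Good.step h.nd.toStrat hb.mstep hg)

/-- Each class can be normalized. -/
theorem class_norm (hP : NonDep P) (hwn : WNSys P) (c : S) {Γ : List (Tm S)} {N : MTm S}
    (hg : Good P Γ N) : ∃ N', ReflTransGen (KStep P (.inl c) (ctxC P Γ)) N N' ∧
      KNF P (.inl c) (ctxC P Γ) N' := by
  by_cases hr : P.Rule c c c
  · by_cases hex : ∃ Δ A, Has P Δ A (.srt c)
    · obtain ⟨Δ, A, hA⟩ := hex
      obtain ⟨D, hD⟩ := exists_D hP Δ hA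
      have hacc := flex_acc ⟨hP, hr, hD, hwn⟩ hg
      induction hacc with
      | intro N _ ih =>
        by_cases hstep : ∃ N', KStep P (.inl c) (ctxC P Γ) N N'
        · obtain ⟨N', hN'⟩ := hstep
          obtain ⟨M, hM, hM'⟩ := ih N' hN' (hg.ksteps hP.toStrat (.single hN'))
          exact ⟨M, hM.head hN', hM'⟩
        · exact ⟨N, .refl, knf_of_normal hP.toStrat N Γ hg fun N' h => hstep ⟨N', h⟩⟩
    · refine ⟨N, .refl, knf_of_normal hP.toStrat N Γ hg ?_⟩
      rintro N' ⟨b, hb⟩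
      exact hex (promote hP hb Γ rfl hg).2.2
  · exact rigid_norm hP.toStrat hr N Γ hg

omit [Inhabited S] in
theorem exists_maximal (hP : NonDep P) : ∀ L : List S, L ≠ [] →
    ∃ m ∈ L, ∀ x ∈ L, ¬ TransGen P.Ax m x := by
  intro L
  induction L with
  | nil => intro h; exact absurd rfl h
  | cons a l ih =>
    intro _
    by_cases hl : l = []
    · subst hl
      exact ⟨a, by simp, fun x hx => by simp at hx; subst hx; exact hP.acyc _⟩
    obtain ⟨m, hm, hmax⟩ := ih hl
    by_cases hma : TransGen P.Ax m a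
    · refine ⟨a, by simp, fun x hx hax => ?_⟩
      rcases List.mem_cons.1 hx with rfl | hx
      · exact hP.acyc _ hax
      · exact hmax x hx (hma.trans hax)
    · refine ⟨m, by simp [hm], fun x hx => ?_⟩
      rcases List.mem_cons.1 hx with rfl | hx
      · exact hma
      · exact hmax x hx

/-- Finitely many classes can be normalized together. -/
theorem classes_norm (hP : NonDep P) (hwn : WNSys P) : ∀ (n : ℕ) (L : List S), L.length ≤ n →
    ∀ {Γ : List (Tm S)} {N : MTm S}, Good P Γ N →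
      ∃ N', ReflTransGen (AStep P (ctxC P Γ)) N N' ∧ Good P Γ N' ∧
        ∀ m ∈ L, KNF P (.inl m) (ctxC P Γ) N' := by
  intro n
  induction n with
  | zero =>
    intro L hL Γ N hg
    exact ⟨N, .refl, hg, fun m hm => absurd hm (by
      have : L = [] := List.length_eq_zero_iff.1 (by omega)
      simp [this])⟩
  | succ n ih =>
    intro L hL Γ N hg
    by_cases hnil : L = []
    · exact ⟨N, .refl, hg, fun m hm => by simp [hnil] at hm⟩
    obtain ⟨m, hm, hmax⟩ := exists_maximal hP L hnil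
    obtain ⟨N₁, h₁, hg₁, hk₁⟩ := ih (L.filter fun x => decide (x ≠ m)) (by
      have : (L.filter fun x => decide (x ≠ m)).length < L.length :=
        List.length_filter_lt_length_iff_exists.2 ⟨m, hm, by simp⟩
      omega) hg
    obtain ⟨N₂, h₂, hk₂⟩ := class_norm hP hwn m hg₁
    refine ⟨N₂, h₁.trans (Relation.ReflTransGen.mono (fun a b ⟨v, hv⟩ => ⟨v, hv.toAll⟩) _ _ h₂),
      hg₁.ksteps hP.toStrat h₂, fun x hx => ?_⟩
    by_cases hxm : x = m
    · subst hxm; exact hk₂
    · have hx' := hk₁ x (List.mem_filter.2 ⟨hx, by simp [hxm]⟩)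
      clear hk₂
      induction h₂ with
      | refl => exact hx'
      | tail h₃ h₄ ih' =>
        obtain ⟨b, hb⟩ := h₄
        refine knf_step hxm ?_ hb Γ rfl (hg₁.ksteps hP.toStrat h₃) hP.toStrat ih'
        rintro s rfl hr
        rcases Relation.reflTransGen_iff_eq_or_transGen.1 (hP.nd _ _ _ hr) with e | e
        · exact hxm e
        · exact hmax _ hx e

theorem appIn_mono {L L' : List (Cl S)} (hL : ∀ x ∈ L, x ∈ L') (N : MTm S) :
    ∀ cs, AppIn P L cs N → AppIn P L' cs N := by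
  induction N with
  | var i => intros; trivial
  | srt s => intros; trivial
  | app f a ihf iha => intro cs h; exact ⟨ihf _ h.1, iha _ h.2.1, hL _ h.2.2⟩
  | lam A b ihA ihb => intro cs h; exact ⟨ihA _ h.1, ihb _ h.2⟩
  | pi A b ihA ihb => intro cs h; exact ⟨ihA _ h.1, ihb _ h.2⟩
  | mem p q ihp ihq => intro cs h; exact ⟨ihp _ h.1, ihq _ h.2⟩

theorem exists_appIn (hS : Strat P) (N : MTm S) : ∀ Γ, Good P Γ N →
    ∃ L : List S, AppIn P (L.map Sum.inl) (ctxC P Γ) N := by
  have comb : ∀ (a b : MTm S) (cs cs' : ℕ → S) (L L' : List S),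
      AppIn P (L.map Sum.inl) cs a → AppIn P (L'.map Sum.inl) cs' b →
      AppIn P ((L ++ L').map Sum.inl) cs a ∧ AppIn P ((L ++ L').map Sum.inl) cs' b :=
    fun a b cs cs' L L' h h' =>
      ⟨appIn_mono (fun x hx => by simp only [List.map_append]; exact List.mem_append_left _ hx) a
          cs h,
        appIn_mono (fun x hx => by simp only [List.map_append]; exact List.mem_append_right _ hx) b
          cs' h'⟩
  induction N with
  | var i => intro Γ _; exact ⟨[], trivial⟩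
  | srt s => intro Γ _; exact ⟨[], trivial⟩
  | app f a ihf iha =>
    intro Γ ⟨⟨T, hT⟩, hf, ha⟩
    obtain ⟨s, t, -, hcf, -⟩ := app_classes hS hT
    obtain ⟨L₁, h₁⟩ := ihf Γ hf
    obtain ⟨L₂, h₂⟩ := iha Γ ha
    obtain ⟨g₁, g₂⟩ := comb f a _ _ L₁ L₂ h₁ h₂
    refine ⟨t :: (L₁ ++ L₂), appIn_mono (fun x hx => by simp only [List.map_cons]; exact List.mem_cons_of_mem _ hx) f _ g₁,
      appIn_mono (fun x hx => by simp only [List.map_cons]; exact List.mem_cons_of_mem _ hx) a _ g₂, ?_⟩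
    rw [hcf]; simp
  | lam A b ihA ihb =>
    intro Γ ⟨_, hA, hb⟩
    obtain ⟨L₁, h₁⟩ := ihA Γ hA
    obtain ⟨L₂, h₂⟩ := ihb _ hb
    exact ⟨L₁ ++ L₂, comb A b _ _ L₁ L₂ h₁ h₂⟩
  | pi A b ihA ihb =>
    intro Γ ⟨_, hA, hb⟩
    obtain ⟨L₁, h₁⟩ := ihA Γ hA
    obtain ⟨L₂, h₂⟩ := ihb _ hb
    exact ⟨L₁ ++ L₂, comb A b _ _ L₁ L₂ h₁ h₂⟩
  | mem p q ihp ihq =>
    intro Γ ⟨hp, hq, _⟩
    obtain ⟨L₁, h₁⟩ := ihp Γ hp
    obtain ⟨L₂, h₂⟩ := ihq Γ hq
    exact ⟨L₁ ++ L₂, comb p q _ _ L₁ L₂ h₁ h₂⟩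

theorem knf_of_notMem {L : List (Cl S)} {k : Cl S} (hk : k ∉ L) (N : MTm S) :
    ∀ cs, AppIn P L cs N → KNF P k cs N := by
  induction N with
  | var i => intros; trivial
  | srt s => intros; trivial
  | app f a ihf iha =>
    intro cs h; exact ⟨ihf _ h.1, iha _ h.2.1, fun e => absurd (e ▸ h.2.2) hk⟩
  | lam A b ihA ihb => intro cs h; exact ⟨ihA _ h.1, ihb _ h.2⟩
  | pi A b ihA ihb => intro cs h; exact ⟨ihA _ h.1, ihb _ h.2⟩
  | mem p q ihp ihq => intro cs h; exact ⟨ihp _ h.1, ihq _ h.2⟩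

/-- The translation of a term without redexes is normal. -/
theorem tk_normal (N : MTm S) : ∀ (cs : ℕ → S) (r : ℕ → ℕ) (K : UTm),
    (∀ k, KNF P k cs N) → UTm.Normal K →
    (((∃ A b, N = .lam A b) ∨ ∃ p q, N = .mem p q) → ∀ b, K ≠ .lam b) →
    UTm.Normal (tk P (fun _ => True) (fun _ => False) cs N r K) ∧
      ∀ b, tk P (fun _ => True) (fun _ => False) cs N r K ≠ .lam b := by
  have happ : ∀ f a : UTm, UTm.Normal f → UTm.Normal a → (∀ b, f ≠ .lam b) →
      UTm.Normal (.app f a) ∧ ∀ b, UTm.app f a ≠ .lam b := by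
    intro f a hf ha hl
    refine ⟨fun X hX => ?_, fun b e => by cases e⟩
    cases hX with
    | beta M _ => exact hl M rfl
    | appL _ h => exact hf _ h
    | appR _ h => exact ha _ h
  have hlam : ∀ b : UTm, UTm.Normal b → UTm.Normal (.lam b) := by
    intro b hb X hX
    cases hX with | lamB h => exact hb _ h
  have hv : ∀ i, UTm.Normal (.var i) := fun i X hX => by cases hX
  have hc : ∀ i, UTm.Normal (.cst i) := fun i X hX => by cases hX
  have nv : ∀ (i : ℕ) b, UTm.var i ≠ .lam b := fun i b e => by cases e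
  have nc : ∀ (i : ℕ) b, UTm.cst i ≠ .lam b := fun i b e => by cases e
  have renN : ∀ (K : UTm), UTm.Normal K → ∀ g, UTm.Normal (UTm.ren g K) := by
    intro K
    induction K with
    | var n => intro _ g; exact hv _
    | cst n => intro _ g; exact hc _
    | app x y ihx ihy =>
      intro hK g
      refine (happ _ _ (ihx (fun X h => hK _ (.appL _ h)) g) (ihy (fun X h => hK _ (.appR _ h)) g)
        fun b e => ?_).1
      cases x with
      | lam m => exact hK _ (.beta m y)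
      | _ => simp [UTm.ren] at e
    | lam b ih => intro hK g; exact hlam _ (ih (fun X h => hK _ (.lamB h)) _)
  induction N with
  | var i =>
    intro cs r K _ hK _
    simp only [tk, if_neg id]
    exact happ _ _ (hv _) hK (nv _)
  | srt s =>
    intro cs r K _ hK _
    simp only [tk, if_neg id]
    exact happ _ _ (hc _) hK (nc _)
  | app f a ihf iha =>
    intro cs r K hk hK _
    simp only [tk, if_neg id, if_true]
    have ha := (iha cs (fun i => r i + 2) (.var 0) (fun k => (hk k).2.1) (hv 0)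
      (fun _ => nv 0)).1
    refine ihf cs r _ (fun k => (hk k).1) (hlam _ ?_) ?_
    · have h₁ := happ _ _ (hv 0) (hlam _ ha) (nv 0)
      exact (happ _ _ h₁.1 (renN K hK _) h₁.2).1
    · have hs := (hk (cl P cs (MTm.strip f))).2.2 rfl
      rintro (⟨A, b, e⟩ | ⟨p, q, e⟩)
      · exact absurd e (hs.1 A b)
      · exact absurd e (hs.2 p q)
  | lam A b ihA ihb =>
    intro cs r K hk hK hKl
    simp only [tk, if_neg id, if_true]
    have hA := (ihA cs (fun i => r i + 3) (.var 0) (fun k => (hk k).1) (hv 0) (fun _ => nv 0)).1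
    have hb := (ihb _ (bind2 r) (.var 0) (fun k => (hk k).2) (hv 0) (fun _ => nv 0)).1
    have h₁ := happ _ _ (hc Tag.memT) (hv 1) (nc _)
    have h₂ := happ _ _ h₁.1 hb h₁.2
    have h₃ := happ _ _ (hc Tag.memT) (hlam _ hA) (nc _)
    have h₄ := happ _ _ h₃.1 h₂.1 h₃.2
    exact happ _ _ hK (hlam _ (hlam _ h₄.1)) (hKl (.inl ⟨A, b, rfl⟩))
  | pi A b ihA ihb =>
    intro cs r K hk hK _
    simp only [tk, if_neg id]
    have hA := (ihA cs (Nat.succ ∘ r) (.var 0) (fun k => (hk k).1) (hv 0) (fun _ => nv 0)).1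
    have hb := (ihb _ (bind2 r) (.var 0) (fun k => (hk k).2) (hv 0) (fun _ => nv 0)).1
    have h₁ := happ _ _ (hc Tag.memT) (hv 1) (nc _)
    have h₂ := happ _ _ h₁.1 hb h₁.2
    have h₃ := happ _ _ (hc Tag.piT) (hlam _ hA) (nc _)
    have h₄ := happ _ _ (hc Tag.atomT) (hlam _ (hlam _ h₂.1)) (nc _)
    have h₅ := happ _ _ h₃.1 h₄.1 h₃.2
    exact happ _ _ h₅.1 hK h₅.2
  | mem p q ihp ihq =>
    intro cs r K hk hK hKl
    simp only [tk, if_neg id]
    have hq := (ihq cs (Nat.succ ∘ r) (.var 0) (fun k => (hk k).2) (hv 0) (fun _ => nv 0)).1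
    have hp := (ihp cs r K (fun k => (hk k).1) hK fun _ => hKl (.inr ⟨p, q, rfl⟩)).1
    have h₁ := happ _ _ (hc Tag.memT) (hlam _ hq) (nc _)
    exact happ _ _ h₁.1 hp h₁.2

/-- Typed memory terms are strongly normalizing. -/
theorem good_acc (hP : NonDep P) (hwn : WNSys P) {Γ : List (Tm S)} {N : MTm S}
    (hg : Good P Γ N) : Acc (fun y x => BetaAfterPerm x y) N := by
  obtain ⟨L, hL⟩ := exists_appIn hP.toStrat N Γ hg
  obtain ⟨N', hsteps, -, hk⟩ := classes_norm hP hwn L.length L (Nat.le_refl _) hg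
  have hL' : AppIn P (L.map Sum.inl) (ctxC P Γ) N' := by
    clear hk
    induction hsteps with
    | refl => exact hL
    | tail _ hs ih => obtain ⟨b, hb⟩ := hs; exact appIn_step hb ih
  have hall : ∀ k, KNF P k (ctxC P Γ) N' := by
    intro k
    by_cases hkL : k ∈ L.map Sum.inl
    · obtain ⟨m, hm, rfl⟩ := List.mem_map.1 hkL
      exact hk m hm
    · exact knf_of_notMem hkL N' _ hL'
  have hu : UTm.Steps (trU P (fun _ => True) (fun _ => False) (ctxC P Γ) N id)
      (trU P (fun _ => True) (fun _ => False) (ctxC P Γ) N' id) := by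
    clear hall hL' hk
    induction hsteps with
    | refl => exact .refl
    | tail _ hs ih =>
      obtain ⟨b, hb⟩ := hs
      refine ih.trans ?_
      cases b with
      | true => exact (sim_beta hb rfl _ _).lam.to_reflTransGen
      | false => rw [trU, trU, sim_perm hb rfl]
  have hnor : UTm.Normal (trU P (fun _ => True) (fun _ => False) (ctxC P Γ) N' id) := by
    intro X hX
    cases hX with
    | lamB hb =>
      exact (tk_normal N' _ _ (.var 0) hall (fun X h => by cases h)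
        (fun _ b e => by cases e)).1 _ hb
  have hsn := UTm.sn_of_wn (trU_relI N _ id) hu hnor
  have hacc := (cstep_acc (ctxC P Γ) hsn).transGen
  clear hsn hnor hu hall hL' hk hsteps hL
  induction hacc with
  | intro N _ ih =>
    refine Acc.intro _ fun M hM => ?_
    obtain ⟨X, hX, hXM⟩ := hM
    have key : ∀ {Y}, ReflTransGen (MStep false) N Y →
        ReflTransGen (AStep P (ctxC P Γ)) N Y ∧ Good P Γ Y := by
      intro Y hY
      induction hY with
      | refl => exact ⟨.refl, hg⟩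
      | tail _ hs ih' =>
        exact ⟨ih'.1.tail ⟨_, hs.toCStep hP.toStrat Γ ih'.2⟩, Good.step hP.toStrat hs ih'.2⟩
    obtain ⟨hNX, hgX⟩ := key hX
    have hNM : TransGen (AStep P (ctxC P Γ)) N M :=
      TransGen.tail' hNX ⟨_, hXM.toCStep hP.toStrat Γ hgX⟩
    exact ih M (Relation.transGen_swap.2 hNM) (Good.step hP.toStrat hXM hgX)

/-- Weak normalization implies strong normalization. -/
theorem sn_of_good (hP : NonDep P) (hwn : WNSys P) {Γ : List (Tm S)} {N : MTm S}
    (hg : Good P Γ N) : Acc (fun y x => Step x y) (MTm.strip N) :=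
  acc_strip (good_acc hP hwn hg)

end Vale.Agent.P340.St
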