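import Vale.Agent.P340.StCPS

/-!
The translation simulates selected steps; memory-weak normalization gives strong normalization.
-/

namespace Vale.Agent.P340.St

open Relation

universe u
variable {S : Type u} [Inhabited S]

/-- Selected steps: redexes have an active class and lie below no dummy node. -/
inductive CStep (P : Sys S) (act pur : Cl S → Prop) :
    (ℕ → S) → Bool → MTm S → MTm S → Prop where
  | beta {cs : ℕ → S} (A M N : MTm S) : act (cl P cs (MTm.strip (.lam A M))) →
      ¬ pur (cl P cs (MTm.strip (.lam A M))) →
      cl P cs (MTm.strip N) = .inl (bindC P (cl P cs (MTm.strip A))) →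
      CStep P act pur cs true (.app (.lam A M) N) (.mem (.mem (MTm.inst M N) N) A)
  | perm {cs : ℕ → S} (M Q N : MTm S) : act (cl P cs (MTm.strip M)) →
      ¬ pur (cl P cs (MTm.strip M)) →
      CStep P act pur cs false (.app (.mem M Q) N) (.mem (.app M N) Q)
  | appL {cs : ℕ → S} {b : Bool} {M M' : MTm S} (N : MTm S) : CStep P act pur cs b M M' →
      ¬ pur (cl P cs (MTm.strip M)) → cl P cs (MTm.strip M') = cl P cs (MTm.strip M) →
      CStep P act pur cs b (.app M N) (.app M' N)
  | appR {cs : ℕ → S} {b : Bool} (M : MTm S) {N N' : MTm S} : CStep P act pur cs b N N' →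
      ¬ pur (cl P cs (MTm.strip M)) → CStep P act pur cs b (.app M N) (.app M N')
  | lamL {cs : ℕ → S} {b : Bool} {A A' : MTm S} (M : MTm S) : CStep P act pur cs b A A' →
      ¬ pur (cl P cs (MTm.strip (.lam A M))) →
      cl P cs (MTm.strip A') = cl P cs (MTm.strip A) →
      CStep P act pur cs b (.lam A M) (.lam A' M)
  | lamR {cs : ℕ → S} {b : Bool} (A : MTm S) {M M' : MTm S} :
      CStep P act pur (cons (bindC P (cl P cs (MTm.strip A))) cs) b M M' →
      ¬ pur (cl P cs (MTm.strip (.lam A M))) →
      cl P cs (MTm.strip (.lam A M')) = cl P cs (MTm.strip (.lam A M)) →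
      CStep P act pur cs b (.lam A M) (.lam A M')
  | piL {cs : ℕ → S} {b : Bool} {A A' : MTm S} (B : MTm S) : CStep P act pur cs b A A' →
      ¬ pur (cl P cs (MTm.strip (.pi A B))) →
      cl P cs (MTm.strip A') = cl P cs (MTm.strip A) →
      CStep P act pur cs b (.pi A B) (.pi A' B)
  | piR {cs : ℕ → S} {b : Bool} (A : MTm S) {B B' : MTm S} :
      CStep P act pur (cons (bindC P (cl P cs (MTm.strip A))) cs) b B B' →
      ¬ pur (cl P cs (MTm.strip (.pi A B))) →
      cl P cs (MTm.strip (.pi A B')) = cl P cs (MTm.strip (.pi A B)) →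
      CStep P act pur cs b (.pi A B) (.pi A B')
  | memL {cs : ℕ → S} {b : Bool} {M M' : MTm S} (Q : MTm S) : CStep P act pur cs b M M' →
      ¬ pur (cl P cs (MTm.strip M)) → cl P cs (MTm.strip M') = cl P cs (MTm.strip M) →
      CStep P act pur cs b (.mem M Q) (.mem M' Q)
  | memR {cs : ℕ → S} {b : Bool} (M : MTm S) {Q Q' : MTm S} : CStep P act pur cs b Q Q' →
      ¬ pur (cl P cs (MTm.strip M)) → CStep P act pur cs b (.mem M Q) (.mem M Q')

abbrev UPlus : UTm → UTm → Prop := TransGen UTm.Step

theorem UPlus.appL {a a' : UTm} (b : UTm) (h : UPlus a a') : UPlus (.app a b) (.app a' b) :=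
  h.lift (fun x => UTm.app x b) fun _ _ h => UTm.Step.appL b h

theorem UPlus.appR (a : UTm) {b b' : UTm} (h : UPlus b b') : UPlus (.app a b) (.app a b') :=
  h.lift (fun x => UTm.app a x) fun _ _ h => UTm.Step.appR a h

theorem UPlus.lam {a a' : UTm} (h : UPlus a a') : UPlus (.lam a) (.lam a') :=
  h.lift UTm.lam fun _ _ h => UTm.Step.lamB h

variable {P : Sys S} {act pur : Cl S → Prop} [DecidablePred act] [DecidablePred pur]

theorem sim_perm {cs : ℕ → S} {b : Bool} {N N' : MTm S} (h : CStep P act pur cs b N N') :
    b = false → ∀ r K, tk P act pur cs N r K = tk P act pur cs N' r K := by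
  induction h with
  | beta => intro e; cases e
  | perm M Q N ha hp =>
    intro _ r K
    simp only [tk, MTm.strip, cl, if_pos ha, if_neg hp]
  | appL N _ hp he ih =>
    intro e r K
    simp only [tk, he, ih e]
  | appR M _ hp ih => intro e r K; simp only [tk, ih e]
  | @lamL cs b A A' M _ hp he ih =>
    intro e r K
    have hl : cl P cs (MTm.strip (.lam A' M)) = cl P cs (MTm.strip (.lam A M)) := by
      simp only [MTm.strip, cl, he]
    simp only [tk, hl, ih e, he]
  | lamR A _ hp he ih => intro e r K; simp only [tk, he, ih e]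
  | @piL cs b A A' B _ hp he ih =>
    intro e r K
    have hl : cl P cs (MTm.strip (.pi A' B)) = cl P cs (MTm.strip (.pi A B)) := by
      simp only [MTm.strip, cl, he]
    simp only [tk, hl, ih e, he]
  | piR A _ hp he ih => intro e r K; simp only [tk, he, ih e]
  | memL Q _ hp he ih => intro e r K; simp only [tk, he, ih e]
  | memR M _ hp ih => intro e r K; simp only [tk, ih e]

theorem sim_beta {cs : ℕ → S} {b : Bool} {N N' : MTm S} (h : CStep P act pur cs b N N') :
    b = true → ∀ r K, UPlus (tk P act pur cs N r K) (tk P act pur cs N' r K) := by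
  induction h with
  | perm => intro e; cases e
  | @beta cs A M N ha hp hb =>
    intro _ r K
    have hcl : cl P cs (MTm.strip (MTm.inst M N)) = cl P cs (MTm.strip (.lam A M)) := by
      rw [MTm.strip_inst]; exact cl_inst hb
    have rhs : tk P act pur cs (.mem (.mem (MTm.inst M N) N) A) r K =
        .app (.app (.cst Tag.memT) (trU P act pur cs A r))
          (.app (.app (.cst Tag.memT) (trU P act pur cs N r))
            (tk P act pur cs (MTm.inst M N) r K)) := by
      simp only [tk, trU, MTm.strip]
      simp only [MTm.strip] at hcl hp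
      have hp' : ¬ pur (cl P cs (MTm.strip (MTm.inst M N))) := by rw [hcl]; exact hp
      simp only [if_neg hp', Function.comp]
    rw [rhs]
    generalize hB : tk P act pur (cons (bindC P (cl P cs (MTm.strip A))) cs) M (bind2 r) (.var 0)
      = B
    generalize hV : (UTm.lam (.lam (.app (.app (.cst Tag.memT)
      (.lam (tk P act pur cs A (fun i => r i + 3) (.var 0))))
      (.app (.app (.cst Tag.memT) (.var 1)) B)))) = V
    have lhs : tk P act pur cs (.app (.lam A M) N) r K =
        .app (.lam (.app (.app (.var 0)
          (.lam (tk P act pur cs N (fun i => r i + 2) (.var 0)))) (UTm.ren Nat.succ K))) V := by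
      subst hV hB
      simp only [tk]
      rw [if_neg hp, if_pos ha, if_neg hp, if_pos ha]
    rw [lhs]
    have s₁ : UTm.Step (.app (.lam (.app (.app (.var 0)
        (.lam (tk P act pur cs N (fun i => r i + 2) (.var 0)))) (UTm.ren Nat.succ K))) V)
        (.app (.app V (trU P act pur cs N r)) K) := by
      have := UTm.Step.beta (.app (.app (.var 0)
        (.lam (tk P act pur cs N (fun i => r i + 2) (.var 0)))) (UTm.ren Nat.succ K)) V
      simp only [UTm.inst, UTm.sub] at this
      rw [tk_sub N cs _ (Nat.succ ∘ r) _ _ (fun i => by rfl), UTm.sub_ren] at this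
      rw [show UTm.scons V UTm.var ∘ Nat.succ = UTm.var from rfl, UTm.sub_var] at this
      exact this
    refine TransGen.trans_left (TransGen.single s₁) ?_
    subst hV
    refine ReflTransGen.head (UTm.Step.appL K (UTm.Step.beta _ _)) ?_
    simp only [UTm.inst, UTm.sub]
    refine ReflTransGen.head (UTm.Step.beta _ _) ?_
    simp only [UTm.inst, UTm.sub]
    refine UTm.Steps.app (UTm.Steps.app .refl ?_) (UTm.Steps.app (UTm.Steps.app .refl ?_) ?_)
    · simp only [trU]
      rw [tk_sub A cs (fun i => r i + 3) (fun i => r i + 2)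
          (UTm.up (UTm.up (UTm.scons _ UTm.var))) _ (fun i => rfl),
        tk_sub A cs (fun i => r i + 2) (Nat.succ ∘ r)
          (UTm.up (UTm.scons K UTm.var)) _ (fun i => rfl)]
      exact .refl
    · simp only [UTm.up, UTm.scons, UTm.sub_ren]
      rw [show UTm.scons K UTm.var ∘ Nat.succ = UTm.var from rfl, UTm.sub_var]
    · subst hB
      rw [UTm.sub_sub]
      set g := UTm.sub (UTm.scons K UTm.var) ∘ UTm.up (UTm.scons (trU P act pur cs N r) UTm.var)
        with hg
      have h0 : g 0 = K := rfl
      have h1 : g 1 = trU P act pur cs N r := by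
        simp only [hg, Function.comp, UTm.up, UTm.scons, UTm.sub_ren]
        rw [show UTm.scons K UTm.var ∘ Nat.succ = UTm.var from rfl, UTm.sub_var]
      have h2 : ∀ i, g (i + 2) = UTm.var i := fun i => rfl
      refine (tk_subst M (cons (bindC P (cl P cs (MTm.strip A))) cs) cs (MTm.scons N MTm.var)
        (bind2 r) r g (.var 0) ?_ ?_).trans ?_
      · rintro (_ | i)
        · exact hb
        · rfl
      · rintro (_ | i) hi
        · show Rep P act pur (g 1) cs N r
          rw [h1]; exact rep_lam cs N r
        · show Rep P act pur (g (r i + 2)) cs (.var i) r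
          rw [h2]; exact rep_var hi
      · show UTm.Steps (tk P act pur cs (MTm.inst M N) r (g 0)) _
        rw [h0]
  | appL N _ hp he ih =>
    intro e r K
    simp only [tk, he, if_neg hp]
    split_ifs
    · exact ih e _ _
    · exact ((((ih e _ _).lam).appR _).appL _).appL _
  | appR M _ hp ih =>
    intro e r K
    simp only [tk, if_neg hp]
    split_ifs
    · exact (((ih e _ _).lam.appR _).appL _).lam.lift _ fun _ _ hs => tk_step_K M _ _ _ _ hs
    · exact ((ih e _ _).lam.appR _).appL _
  | @lamL cs b A A' M _ hp he ih =>
    intro e r K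
    have hl : cl P cs (MTm.strip (.lam A' M)) = cl P cs (MTm.strip (.lam A M)) := by
      simp only [MTm.strip, cl, he]
    simp only [tk, hl, he, if_neg hp]
    split_ifs
    · exact ((((ih e _ _).lam.appR _).appL _).lam.lam).appR _
    · exact (((ih e _ _).lam.appR _).appL _).appL _
  | lamR A _ hp he ih =>
    intro e r K
    simp only [tk, he, if_neg hp]
    split_ifs
    · exact ((((ih e _ _).appR _).appR _).lam.lam).appR _
    · exact (((ih e _ _).appR _).lam.lam.appR _).appL _
  | @piL cs b A A' B _ hp he ih =>
    intro e r K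
    have hl : cl P cs (MTm.strip (.pi A' B)) = cl P cs (MTm.strip (.pi A B)) := by
      simp only [MTm.strip, cl, he]
    simp only [tk, hl, he, if_neg hp]
    exact (((ih e _ _).lam.appR _).appL _).appL _
  | piR A _ hp he ih =>
    intro e r K
    simp only [tk, he, if_neg hp]
    exact ((((ih e _ _).appR _).lam.lam.appR _).appR _).appL _
  | memL Q _ hp he ih =>
    intro e r K
    simp only [tk, he, if_neg hp]
    exact (ih e _ _).appR _
  | memR M _ hp ih =>
    intro e r K
    simp only [tk, if_neg hp]
    exact ((ih e _ _).lam.appR _).appL _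

/-- A measure decreased by permutations. -/
def weight : MTm S → ℕ
  | .var _ => 1
  | .srt _ => 1
  | .app f a => 2 * weight f + weight a
  | .lam A b => weight A + weight b + 1
  | .pi A b => weight A + weight b + 1
  | .mem p q => weight p + weight q + 1

omit [Inhabited S] in
theorem perm_weight {b : Bool} {N N' : MTm S} (h : MStep b N N') :
    b = false → weight N' < weight N := by
  induction h with
  | beta => intro e; cases e
  | perm M Q N => intro _; simp only [weight]; omega
  | _ => intro e; simp only [weight]; rename_i ih; have := ih e; omega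

theorem CStep.mstep {cs : ℕ → S} {b : Bool} {N N' : MTm S} (h : CStep P act pur cs b N N') :
    MStep b N N' := by
  induction h with
  | beta A M N => exact .beta A M N
  | perm M Q N => exact .perm M Q N
  | appL N _ _ _ ih => exact .appL N ih
  | appR M _ _ ih => exact .appR M ih
  | lamL M _ _ _ ih => exact .lamL M ih
  | lamR A _ _ _ ih => exact .lamR A ih
  | piL B _ _ _ ih => exact .piL B ih
  | piR A _ _ _ ih => exact .piR A ih
  | memL Q _ _ _ ih => exact .memL Q ih
  | memR M _ _ ih => exact .memR M ih

/-- If the translation is strongly normalizing, so are the selected steps. -/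
theorem cstep_acc (cs : ℕ → S) {N : MTm S}
    (h : UTm.SN (trU P act pur cs N id)) :
    Acc (fun y x => ∃ b, CStep P act pur cs b x y) N := by
  have hacc : ∀ u : UTm, UTm.SN u → Acc (fun y x => UPlus x y) u := by
    intro u hu
    refine Subrelation.accessible ?_ hu.transGen
    intro a b hab
    exact Relation.transGen_swap.1 hab
  suffices key : ∀ u, Acc (fun y x => UPlus x y) u → ∀ n N, weight N = n →
      trU P act pur cs N id = u → Acc (fun y x => ∃ b, CStep P act pur cs b x y) N from
    key _ (hacc _ h) _ N rfl rfl
  intro u hu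
  induction hu with
  | intro u _ ihu =>
    intro n
    induction n using Nat.strongRecOn with
    | ind n ihn =>
      intro N hw hN
      refine Acc.intro _ fun N' => ?_
      rintro ⟨b, hb⟩
      cases b with
      | true =>
        subst hN
        exact ihu _ (sim_beta hb rfl _ _).lam _ N' rfl rfl
      | false =>
        refine ihn (weight N') (hw ▸ perm_weight hb.mstep rfl) N' rfl ?_
        rw [← hN, trU, trU, sim_perm hb rfl]

end Vale.Agent.P340.St
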