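import Vale.Agent.P340.StTarget2
import Vale.Agent.P340.StSim

/-!
Class-by-class normalization in the memory calculus, and strong normalization from it.
-/

namespace Vale.Agent.P340.St

open Relation Classical

universe u
variable {S : Type u} [Inhabited S]

/-- No redex of class `k`. -/
def KNF (P : Sys S) (k : Cl S) : (ℕ → S) → MTm S → Prop
  | _, .var _ => True
  | _, .srt _ => True
  | cs, .app f a => KNF P k cs f ∧ KNF P k cs a ∧
      (cl P cs (MTm.strip f) = k → (∀ A b, f ≠ .lam A b) ∧ (∀ p q, f ≠ .mem p q))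
  | cs, .lam A b => KNF P k cs A ∧ KNF P k (cons (bindC P (cl P cs (MTm.strip A))) cs) b
  | cs, .pi A b => KNF P k cs A ∧ KNF P k (cons (bindC P (cl P cs (MTm.strip A))) cs) b
  | cs, .mem p q => KNF P k cs p ∧ KNF P k cs q

/-- The classes of applications lie in `L`. -/
def AppIn (P : Sys S) (L : List (Cl S)) : (ℕ → S) → MTm S → Prop
  | _, .var _ => True
  | _, .srt _ => True
  | cs, .app f a => AppIn P L cs f ∧ AppIn P L cs a ∧ cl P cs (MTm.strip f) ∈ L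
  | cs, .lam A b => AppIn P L cs A ∧ AppIn P L (cons (bindC P (cl P cs (MTm.strip A))) cs) b
  | cs, .pi A b => AppIn P L cs A ∧ AppIn P L (cons (bindC P (cl P cs (MTm.strip A))) cs) b
  | cs, .mem p q => AppIn P L cs p ∧ AppIn P L cs q

/-- A step at a redex of class `k`. -/
def KStep (P : Sys S) (k : Cl S) (cs : ℕ → S) (N N' : MTm S) : Prop :=
  ∃ b, CStep P (fun x => x = k) (fun _ => False) cs b N N'

variable {P : Sys S}

theorem knf_ren {k : Cl S} (N : MTm S) : ∀ (cs : ℕ → S) (f : ℕ → ℕ),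
    KNF P k (cs ∘ f) N → KNF P k cs (MTm.ren f N) := by
  induction N with
  | var i => intros; trivial
  | srt s => intros; trivial
  | app p q ihp ihq =>
    intro cs g h
    refine ⟨ihp _ _ h.1, ihq _ _ h.2.1, fun e => ?_⟩
    rw [MTm.strip_ren, cl_ren] at e
    obtain ⟨h₁, h₂⟩ := h.2.2 e
    cases p with
    | lam A b => exact absurd rfl (h₁ A b)
    | mem x y => exact absurd rfl (h₂ x y)
    | _ => exact ⟨fun A b e => by simp [MTm.ren] at e, fun x y e => by simp [MTm.ren] at e⟩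
  | lam A b ihA ihb =>
    intro cs g h
    refine ⟨ihA _ _ h.1, ihb _ _ ?_⟩
    rw [MTm.strip_ren, cl_ren, cons_upR]; exact h.2
  | pi A b ihA ihb =>
    intro cs g h
    refine ⟨ihA _ _ h.1, ihb _ _ ?_⟩
    rw [MTm.strip_ren, cl_ren, cons_upR]; exact h.2
  | mem p q ihp ihq => intro cs g h; exact ⟨ihp _ _ h.1, ihq _ _ h.2⟩

theorem appIn_ren {L : List (Cl S)} (N : MTm S) : ∀ (cs : ℕ → S) (f : ℕ → ℕ),
    AppIn P L (cs ∘ f) N → AppIn P L cs (MTm.ren f N) := by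
  induction N with
  | var i => intros; trivial
  | srt s => intros; trivial
  | app p q ihp ihq =>
    intro cs g h
    exact ⟨ihp _ _ h.1, ihq _ _ h.2.1, by rw [MTm.strip_ren, cl_ren]; exact h.2.2⟩
  | lam A b ihA ihb =>
    intro cs g h
    refine ⟨ihA _ _ h.1, ihb _ _ ?_⟩
    rw [MTm.strip_ren, cl_ren, cons_upR]; exact h.2
  | pi A b ihA ihb =>
    intro cs g h
    refine ⟨ihA _ _ h.1, ihb _ _ ?_⟩
    rw [MTm.strip_ren, cl_ren, cons_upR]; exact h.2
  | mem p q ihp ihq => intro cs g h; exact ⟨ihp _ _ h.1, ihq _ _ h.2⟩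

theorem up_classes (a : S) (cs cs' : ℕ → S) (f : ℕ → MTm S)
    (hf : ∀ i, cl P cs' (MTm.strip (f i)) = .inl (cs i)) :
    ∀ i, cl P (cons a cs') (MTm.strip (MTm.up f i)) = .inl (cons a cs i)
  | 0 => rfl
  | i + 1 => by simp only [MTm.up, MTm.strip_ren, cl_ren]; exact hf i

theorem cl_msub (N : MTm S) {cs cs' : ℕ → S} {f : ℕ → MTm S}
    (hf : ∀ i, cl P cs' (MTm.strip (f i)) = .inl (cs i)) :
    cl P cs' (MTm.strip (MTm.sub f N)) = cl P cs (MTm.strip N) := by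
  rw [MTm.strip_sub]; exact cl_sub _ _ _ _ hf

theorem knf_sub {k : Cl S} (N : MTm S) : ∀ (cs cs' : ℕ → S) (f : ℕ → MTm S),
    KNF P k cs N → (∀ i, cl P cs' (MTm.strip (f i)) = .inl (cs i)) →
    (∀ i, KNF P k cs' (f i)) →
    (∀ i, (Sum.inl (cs i) : Cl S) = k → ∃ j, f i = .var j) →
    KNF P k cs' (MTm.sub f N) := by
  induction N with
  | var i => intro cs cs' f _ _ hk _; exact hk i
  | srt s => intros; trivial
  | app p q ihp ihq =>
    intro cs cs' f h hc hk hv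
    refine ⟨ihp _ _ _ h.1 hc hk hv, ihq _ _ _ h.2.1 hc hk hv, fun e => ?_⟩
    rw [cl_msub _ hc] at e
    obtain ⟨h₁, h₂⟩ := h.2.2 e
    cases p with
    | lam A b => exact absurd rfl (h₁ A b)
    | mem x y => exact absurd rfl (h₂ x y)
    | var i =>
      obtain ⟨j, hj⟩ := hv i e
      simp only [MTm.sub, hj]
      exact ⟨fun A b e => by simp at e, fun x y e => by simp at e⟩
    | _ => exact ⟨fun A b e => by simp [MTm.sub] at e, fun x y e => by simp [MTm.sub] at e⟩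
  | lam A b ihA ihb =>
    intro cs cs' f h hc hk hv
    refine ⟨ihA _ _ _ h.1 hc hk hv, ?_⟩
    rw [cl_msub _ hc]
    refine ihb _ _ _ h.2 (up_classes _ _ _ _ hc) ?_ ?_
    · rintro (_ | i)
      · trivial
      · exact knf_ren _ _ _ (hk i)
    · rintro (_ | i) hi
      · exact ⟨0, rfl⟩
      · obtain ⟨j, hj⟩ := hv i hi
        exact ⟨j + 1, by simp only [MTm.up, hj]; rfl⟩
  | pi A b ihA ihb =>
    intro cs cs' f h hc hk hv
    refine ⟨ihA _ _ _ h.1 hc hk hv, ?_⟩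
    rw [cl_msub _ hc]
    refine ihb _ _ _ h.2 (up_classes _ _ _ _ hc) ?_ ?_
    · rintro (_ | i)
      · trivial
      · exact knf_ren _ _ _ (hk i)
    · rintro (_ | i) hi
      · exact ⟨0, rfl⟩
      · obtain ⟨j, hj⟩ := hv i hi
        exact ⟨j + 1, by simp only [MTm.up, hj]; rfl⟩
  | mem p q ihp ihq =>
    intro cs cs' f h hc hk hv
    exact ⟨ihp _ _ _ h.1 hc hk hv, ihq _ _ _ h.2 hc hk hv⟩

theorem appIn_sub {L : List (Cl S)} (N : MTm S) : ∀ (cs cs' : ℕ → S) (f : ℕ → MTm S),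
    AppIn P L cs N → (∀ i, cl P cs' (MTm.strip (f i)) = .inl (cs i)) →
    (∀ i, AppIn P L cs' (f i)) → AppIn P L cs' (MTm.sub f N) := by
  induction N with
  | var i => intro cs cs' f _ _ hk; exact hk i
  | srt s => intros; trivial
  | app p q ihp ihq =>
    intro cs cs' f h hc hk
    refine ⟨ihp _ _ _ h.1 hc hk, ihq _ _ _ h.2.1 hc hk, ?_⟩
    rw [cl_msub _ hc]; exact h.2.2
  | lam A b ihA ihb =>
    intro cs cs' f h hc hk
    refine ⟨ihA _ _ _ h.1 hc hk, ?_⟩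
    rw [cl_msub _ hc]
    refine ihb _ _ _ h.2 (up_classes _ _ _ _ hc) ?_
    rintro (_ | i)
    · trivial
    · exact appIn_ren _ _ _ (hk i)
  | pi A b ihA ihb =>
    intro cs cs' f h hc hk
    refine ⟨ihA _ _ _ h.1 hc hk, ?_⟩
    rw [cl_msub _ hc]
    refine ihb _ _ _ h.2 (up_classes _ _ _ _ hc) ?_
    rintro (_ | i)
    · trivial
    · exact appIn_ren _ _ _ (hk i)
  | mem p q ihp ihq => intro cs cs' f h hc hk; exact ⟨ihp _ _ _ h.1 hc hk, ihq _ _ _ h.2 hc hk⟩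

theorem inst_classes {cs : ℕ → S} {N : MTm S} {a : S} (hN : cl P cs (MTm.strip N) = .inl a) :
    ∀ i, cl P cs (MTm.strip (MTm.scons N MTm.var i)) = .inl (cons a cs i)
  | 0 => hN
  | _ + 1 => rfl

theorem appIn_step {L : List (Cl S)} {act : Cl S → Prop} {cs : ℕ → S} {b : Bool} {N N' : MTm S}
    (h : CStep P act (fun _ => False) cs b N N') : AppIn P L cs N → AppIn P L cs N' := by
  induction h with
  | beta A M N _ _ hb =>
    intro ⟨⟨hA, hM⟩, hN, _⟩
    refine ⟨⟨appIn_sub M _ _ _ hM (inst_classes hb) ?_, hN⟩, hA⟩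
    rintro (_ | i)
    · exact hN
    · trivial
  | perm M Q N => intro ⟨⟨hM, hQ⟩, hN, hL⟩; exact ⟨⟨hM, hN, hL⟩, hQ⟩
  | appL N _ _ he ih => intro ⟨h₁, h₂, h₃⟩; exact ⟨ih h₁, h₂, by rwa [he]⟩
  | appR M _ _ ih => intro ⟨h₁, h₂, h₃⟩; exact ⟨h₁, ih h₂, h₃⟩
  | lamL M _ _ he ih => intro ⟨h₁, h₂⟩; exact ⟨ih h₁, by rwa [he]⟩
  | lamR A _ _ _ ih => intro ⟨h₁, h₂⟩; exact ⟨h₁, ih h₂⟩
  | piL B _ _ he ih => intro ⟨h₁, h₂⟩; exact ⟨ih h₁, by rwa [he]⟩
  | piR A _ _ _ ih => intro ⟨h₁, h₂⟩; exact ⟨h₁, ih h₂⟩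
  | memL Q _ _ _ ih => intro ⟨h₁, h₂⟩; exact ⟨ih h₁, h₂⟩
  | memR M _ _ ih => intro ⟨h₁, h₂⟩; exact ⟨h₁, ih h₂⟩

theorem CStep.shape {act pur : Cl S → Prop} {cs : ℕ → S} {b : Bool} {N N' : MTm S}
    (h : CStep P act pur cs b N N') :
    act (cl P cs (MTm.strip N)) ∨
      ((∀ A m, N' = .lam A m → ∃ A₀ m₀, N = .lam A₀ m₀) ∧
        (∀ p q, N' = .mem p q → ∃ p₀ q₀, N = .mem p₀ q₀)) := by
  cases h with
  | beta A M N ha => exact .inl ha
  | perm M Q N ha => exact .inl ha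
  | _ => refine .inr ⟨?_, ?_⟩ <;> intro x y e <;> first | exact ⟨_, _, rfl⟩ | cases e

/-- A step of class `c₂` creates no redex of a class that `c₂` cannot quantify over. -/
theorem knf_step {c₁ c₂ : S} (hne : c₁ ≠ c₂) (hnr : ∀ s, s = c₁ → ¬ P.Rule s c₂ c₂)
    {cs : ℕ → S} {b : Bool} {N N' : MTm S}
    (h : CStep P (fun x => x = .inl c₂) (fun _ => False) cs b N N') :
    ∀ Γ, ctxC P Γ = cs → Good P Γ N → Strat P →
      KNF P (.inl c₁) cs N → KNF P (.inl c₁) cs N' := by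
  induction h with
  | @beta cs A M N ha _ hb =>
    intro Γ hΓ hg hS ⟨⟨hA, hM⟩, hN, _⟩
    refine ⟨⟨knf_sub M _ _ _ hM (inst_classes hb) ?_ ?_, hN⟩, hA⟩
    · rintro (_ | i)
      · exact hN
      · trivial
    · rintro (_ | i) hi
      · exfalso
        subst hΓ
        obtain ⟨T, hT⟩ := hg.1
        obtain ⟨s, t, -, -, hr, hct, -, hcA⟩ := redex_classes hS hT
        rw [cons_zero, hcA, bindC_memC hS] at hi
        have e : (Sum.inl t : Cl S) = .inl c₂ := hct.symm.trans ha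
        rw [Sum.inl.inj e] at hr
        exact hnr s (Sum.inl.inj hi) hr
      · exact ⟨i, rfl⟩
  | @perm cs M Q N ha _ =>
    intro Γ _ _ _ ⟨⟨hM, hQ⟩, hN, _⟩
    refine ⟨⟨hM, hN, fun e => absurd (Sum.inl.inj (e.symm.trans ha)) hne⟩, hQ⟩
  | @appL cs b M M' N hM _ he ih =>
    intro Γ hΓ hg hS ⟨h₁, h₂, h₃⟩
    refine ⟨ih Γ hΓ hg.2.1 hS h₁, h₂, fun e => ?_⟩
    rw [he] at e
    obtain ⟨g₁, g₂⟩ := h₃ e
    rcases hM.shape with ha | ⟨s₁, s₂⟩
    · exact absurd (Sum.inl.inj (e.symm.trans ha)) hne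
    · refine ⟨fun A m em => ?_, fun p q em => ?_⟩
      · obtain ⟨A₀, m₀, e₀⟩ := s₁ A m em; exact g₁ _ _ e₀
      · obtain ⟨p₀, q₀, e₀⟩ := s₂ p q em; exact g₂ _ _ e₀
  | appR M _ _ ih => intro Γ hΓ hg hS ⟨h₁, h₂, h₃⟩; exact ⟨h₁, ih Γ hΓ hg.2.2 hS h₂, h₃⟩
  | lamL M _ _ he ih => intro Γ hΓ hg hS ⟨h₁, h₂⟩; exact ⟨ih Γ hΓ hg.2.1 hS h₁, by rwa [he]⟩
  | lamR A _ _ _ ih =>
    intro Γ hΓ hg hS ⟨h₁, h₂⟩
    exact ⟨h₁, ih (MTm.strip A :: Γ) (by simp only [ctxC, hΓ]) hg.2.2 hS h₂⟩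
  | piL B _ _ he ih => intro Γ hΓ hg hS ⟨h₁, h₂⟩; exact ⟨ih Γ hΓ hg.2.1 hS h₁, by rwa [he]⟩
  | piR A _ _ _ ih =>
    intro Γ hΓ hg hS ⟨h₁, h₂⟩
    exact ⟨h₁, ih (MTm.strip A :: Γ) (by simp only [ctxC, hΓ]) hg.2.2 hS h₂⟩
  | memL Q _ _ _ ih => intro Γ hΓ hg hS ⟨h₁, h₂⟩; exact ⟨ih Γ hΓ hg.1 hS h₁, h₂⟩
  | memR M _ _ ih => intro Γ hΓ hg hS ⟨h₁, h₂⟩; exact ⟨h₁, ih Γ hΓ hg.2.1 hS h₂⟩

/-- Without a step of class `k` a term has no redex of class `k`. -/
theorem knf_of_normal (hS : Strat P) {k : Cl S} (N : MTm S) : ∀ Γ, Good P Γ N →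
    (∀ N', ¬ KStep P k (ctxC P Γ) N N') → KNF P k (ctxC P Γ) N := by
  induction N with
  | var i => intros; trivial
  | srt s => intros; trivial
  | app f a ihf iha =>
    intro Γ ⟨⟨T, hT⟩, hf, ha⟩ hn
    refine ⟨ihf Γ hf ?_, iha Γ ha ?_, fun e => ⟨fun A b eq => ?_, fun p q eq => ?_⟩⟩
    · rintro N' ⟨b, hb⟩
      exact hn _ ⟨b, .appL a hb (fun hh => hh) (cls_step hS hf hb.mstep)⟩
    · rintro N' ⟨b, hb⟩
      exact hn _ ⟨b, .appR f hb (fun hh => hh)⟩
    · subst eq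
      obtain ⟨s, t, -, -, -, -, hcN, hcA⟩ := redex_classes hS hT
      refine hn _ ⟨true, .beta A b a e (fun hh => hh) ?_⟩
      rw [hcA, bindC_memC hS]; exact hcN
    · subst eq
      exact hn _ ⟨false, .perm p q a e (fun hh => hh)⟩
  | lam A b ihA ihb =>
    intro Γ ⟨_, hA, hb'⟩ hn
    refine ⟨ihA Γ hA ?_, ihb _ hb' ?_⟩
    · rintro N' ⟨v, hv⟩
      exact hn _ ⟨v, .lamL b hv (fun hh => hh) (cls_step hS hA hv.mstep)⟩
    · rintro N' ⟨v, hv⟩
      have e := cls_step hS hb' hv.mstep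
      exact hn _ ⟨v, .lamR A hv (fun hh => hh) e⟩
  | pi A b ihA ihb =>
    intro Γ ⟨_, hA, hb'⟩ hn
    refine ⟨ihA Γ hA ?_, ihb _ hb' ?_⟩
    · rintro N' ⟨v, hv⟩
      exact hn _ ⟨v, .piL b hv (fun hh => hh) (cls_step hS hA hv.mstep)⟩
    · rintro N' ⟨v, hv⟩
      have e := cls_step hS hb' hv.mstep
      exact hn _ ⟨v, .piR A hv (fun hh => hh) e⟩
  | mem p q ihp ihq =>
    intro Γ ⟨hp, hq, _⟩ hn
    refine ⟨ihp Γ hp ?_, ihq Γ hq ?_⟩
    · rintro N' ⟨v, hv⟩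
      exact hn _ ⟨v, .memL q hv (fun hh => hh) (cls_step hS hp hv.mstep)⟩
    · rintro N' ⟨v, hv⟩
      exact hn _ ⟨v, .memR p hv (fun hh => hh)⟩

theorem Good.ksteps (hS : Strat P) {k : Cl S} {Γ : List (Tm S)} {N N' : MTm S}
    (h : Good P Γ N) (hs : ReflTransGen (KStep P k (ctxC P Γ)) N N') : Good P Γ N' := by
  induction hs with
  | refl => exact h
  | tail _ hs ih => obtain ⟨b, hb⟩ := hs; exact Good.step hS hb.mstep ih

theorem cls_ksteps (hS : Strat P) {k : Cl S} {Γ : List (Tm S)} {N N' : MTm S}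
    (h : Good P Γ N) (hs : ReflTransGen (KStep P k (ctxC P Γ)) N N') :
    N'.cls P Γ = N.cls P Γ := by
  induction hs with
  | refl => rfl
  | tail h₁ hs ih =>
    obtain ⟨b, hb⟩ := hs
    rw [cls_step hS (h.ksteps hS h₁) hb.mstep, ih]

/-- Contract all redexes at the root of an application of normal terms, for a class that does not
quantify over itself. -/
theorem rigid_app (hS : Strat P) {c : S} (hr : ¬ P.Rule c c c) (f : MTm S) :
    ∀ (Γ : List (Tm S)) (a : MTm S), Good P Γ (.app f a) → KNF P (.inl c) (ctxC P Γ) f →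
      KNF P (.inl c) (ctxC P Γ) a →
      ∃ N, ReflTransGen (KStep P (.inl c) (ctxC P Γ)) (.app f a) N ∧
        KNF P (.inl c) (ctxC P Γ) N := by
  induction f with
  | lam A b _ _ =>
    intro Γ a hg hf ha
    obtain ⟨⟨T, hT⟩, -, -⟩ := hg
    by_cases e : cl P (ctxC P Γ) (MTm.strip (.lam A b)) = .inl c
    · obtain ⟨s, t, -, -, hr', hct, hcN, hcA⟩ := redex_classes hS hT
      have hb : cl P (ctxC P Γ) (MTm.strip a) = .inl (bindC P (cl P (ctxC P Γ) (MTm.strip A))) :=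
        by rw [hcA, bindC_memC hS]; exact hcN
      refine ⟨_, .single ⟨true, .beta A b a e (fun hh => hh) hb⟩,
        ⟨knf_sub b _ _ _ hf.2 (inst_classes hb) ?_ ?_, ha⟩, hf.1⟩
      · rintro (_ | i)
        · exact ha
        · trivial
      · rintro (_ | i) hi
        · exfalso
          rw [cons_zero, hcA, bindC_memC hS] at hi
          have e' : (Sum.inl t : Cl S) = .inl c := hct.symm.trans e
          rw [Sum.inl.inj e', Sum.inl.inj hi] at hr'
          exact hr hr'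
        · exact ⟨i, rfl⟩
    · exact ⟨_, .refl, hf, ha, fun h => absurd h e⟩
  | mem p q ihp _ =>
    intro Γ a hg hf ha
    by_cases e : cl P (ctxC P Γ) (MTm.strip p) = .inl c
    · have st : KStep P (.inl c) (ctxC P Γ) (.app (.mem p q) a) (.mem (.app p a) q) :=
        ⟨false, .perm p q a e (fun hh => hh)⟩
      obtain ⟨hg₁, -⟩ := hg.ksteps hS (.single st)
      obtain ⟨N, hN, hN'⟩ := ihp Γ a hg₁ hf.1 ha
      refine ⟨.mem N q, (ReflTransGen.single st).trans ?_, hN', hf.2⟩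
      clear hN'
      induction hN with
      | refl => exact .refl
      | tail h₁ h₂ ih =>
        obtain ⟨b, hb⟩ := h₂
        exact ih.tail ⟨b, .memL q hb (fun hh => hh)
          (cls_step hS (hg₁.ksteps hS h₁) hb.mstep)⟩
    · exact ⟨_, .refl, hf, ha, fun h => absurd h e⟩
  | var i => intro Γ a _ hf ha; exact ⟨_, .refl, hf, ha, fun _ => ⟨by simp, by simp⟩⟩
  | srt s => intro Γ a _ hf ha; exact ⟨_, .refl, hf, ha, fun _ => ⟨by simp, by simp⟩⟩
  | app p q _ _ => intro Γ a _ hf ha; exact ⟨_, .refl, hf, ha, fun _ => ⟨by simp, by simp⟩⟩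
  | pi p q _ _ => intro Γ a _ hf ha; exact ⟨_, .refl, hf, ha, fun _ => ⟨by simp, by simp⟩⟩

/-- A class that does not quantify over itself is normalized innermost first. -/
theorem rigid_norm (hS : Strat P) {c : S} (hr : ¬ P.Rule c c c) (N : MTm S) :
    ∀ Γ, Good P Γ N → ∃ N', ReflTransGen (KStep P (.inl c) (ctxC P Γ)) N N' ∧
      KNF P (.inl c) (ctxC P Γ) N' := by
  induction N with
  | var i => intro Γ _; exact ⟨_, .refl, trivial⟩
  | srt s => intro Γ _; exact ⟨_, .refl, trivial⟩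
  | app f a ihf iha =>
    intro Γ hg
    obtain ⟨f', hf, hf'⟩ := ihf Γ hg.2.1
    obtain ⟨a', ha, ha'⟩ := iha Γ hg.2.2
    have l₁ : ReflTransGen (KStep P (.inl c) (ctxC P Γ)) (.app f a) (.app f' a) := by
      clear hf'
      induction hf with
      | refl => exact .refl
      | tail h₁ h₂ ih =>
        obtain ⟨b, hb⟩ := h₂
        exact ih.tail ⟨b, .appL a hb (fun hh => hh)
          (cls_step hS (hg.2.1.ksteps hS h₁) hb.mstep)⟩
    have l₂ : ReflTransGen (KStep P (.inl c) (ctxC P Γ)) (.app f' a) (.app f' a') :=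
      ha.lift (fun x => MTm.app f' x) fun _ _ ⟨b, hb⟩ => ⟨b, .appR f' hb (fun hh => hh)⟩
    obtain ⟨N, hN, hN'⟩ := rigid_app hS hr f' Γ a' (hg.ksteps hS (l₁.trans l₂)) hf' ha'
    exact ⟨N, (l₁.trans l₂).trans hN, hN'⟩
  | lam A b ihA ihb =>
    intro Γ hg
    obtain ⟨A', hA, hA'⟩ := ihA Γ hg.2.1
    have hcA := cls_ksteps hS hg.2.1 hA
    have l₁ : ReflTransGen (KStep P (.inl c) (ctxC P Γ)) (.lam A b) (.lam A' b) := by
      clear hA' hcA
      induction hA with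
      | refl => exact .refl
      | tail h₁ h₂ ih =>
        obtain ⟨v, hv⟩ := h₂
        exact ih.tail ⟨v, .lamL b hv (fun hh => hh)
          (cls_step hS (hg.2.1.ksteps hS h₁) hv.mstep)⟩
    obtain ⟨-, -, hgb⟩ := hg.ksteps hS l₁
    obtain ⟨b', hb, hb'⟩ := ihb (MTm.strip A :: Γ) hg.2.2
    have e : ctxC P (MTm.strip A' :: Γ) = ctxC P (MTm.strip A :: Γ) := by
      simp only [ctxC]; rw [show cl P (ctxC P Γ) (MTm.strip A') = _ from hcA]; rfl
    refine ⟨.lam A' b', l₁.trans ?_, hA', ?_⟩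
    · rw [← e] at hb
      clear hb'
      induction hb with
      | refl => exact .refl
      | tail h₁ h₂ ih =>
        obtain ⟨v, hv⟩ := h₂
        have e := cls_step hS (hgb.ksteps hS h₁) hv.mstep
        exact ih.tail ⟨v, .lamR A' hv (fun hh => hh) e⟩
    · show KNF P _ (ctxC P (MTm.strip A' :: Γ)) b'
      rw [e]; exact hb'
  | pi A b ihA ihb =>
    intro Γ hg
    obtain ⟨A', hA, hA'⟩ := ihA Γ hg.2.1
    have hcA := cls_ksteps hS hg.2.1 hA
    have l₁ : ReflTransGen (KStep P (.inl c) (ctxC P Γ)) (.pi A b) (.pi A' b) := by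
      clear hA' hcA
      induction hA with
      | refl => exact .refl
      | tail h₁ h₂ ih =>
        obtain ⟨v, hv⟩ := h₂
        exact ih.tail ⟨v, .piL b hv (fun hh => hh)
          (cls_step hS (hg.2.1.ksteps hS h₁) hv.mstep)⟩
    obtain ⟨-, -, hgb⟩ := hg.ksteps hS l₁
    obtain ⟨b', hb, hb'⟩ := ihb (MTm.strip A :: Γ) hg.2.2
    have e : ctxC P (MTm.strip A' :: Γ) = ctxC P (MTm.strip A :: Γ) := by
      simp only [ctxC]; rw [show cl P (ctxC P Γ) (MTm.strip A') = _ from hcA]; rfl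
    refine ⟨.pi A' b', l₁.trans ?_, hA', ?_⟩
    · rw [← e] at hb
      clear hb'
      induction hb with
      | refl => exact .refl
      | tail h₁ h₂ ih =>
        obtain ⟨v, hv⟩ := h₂
        have e := cls_step hS (hgb.ksteps hS h₁) hv.mstep
        exact ih.tail ⟨v, .piR A' hv (fun hh => hh) e⟩
    · show KNF P _ (ctxC P (MTm.strip A' :: Γ)) b'
      rw [e]; exact hb'
  | mem p q ihp ihq =>
    intro Γ hg
    obtain ⟨p', hp, hp'⟩ := ihp Γ hg.1
    obtain ⟨q', hq, hq'⟩ := ihq Γ hg.2.1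
    refine ⟨.mem p' q', ?_, hp', hq'⟩
    have l₁ : ReflTransGen (KStep P (.inl c) (ctxC P Γ)) (.mem p q) (.mem p' q) := by
      clear hp'
      induction hp with
      | refl => exact .refl
      | tail h₁ h₂ ih =>
        obtain ⟨v, hv⟩ := h₂
        exact ih.tail ⟨v, .memL q hv (fun hh => hh)
          (cls_step hS (hg.1.ksteps hS h₁) hv.mstep)⟩
    exact l₁.trans
      (hq.lift (fun x => MTm.mem p' x) fun _ _ ⟨b, hb⟩ => ⟨b, .memR p' hb (fun hh => hh)⟩)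

end Vale.Agent.P340.St
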