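import Mathlib.Logic.Relation
import Mathlib.Tactic.Common

/-!
Internal syntax: pseudo-terms with rigid closed constants `cst n A` (constant number `n` of
closed type `A`), renaming and substitution.
-/

namespace Vale.Agent.P340.St

universe u

inductive Tm (S : Type u) : Type u where
  | var : ℕ → Tm S
  | srt : S → Tm S
  | cst : ℕ → Tm S → Tm S
  | app : Tm S → Tm S → Tm S
  | lam : Tm S → Tm S → Tm S
  | pi : Tm S → Tm S → Tm S

variable {S : Type u}

def upR (f : ℕ → ℕ) : ℕ → ℕ
  | 0 => 0
  | n + 1 => f n + 1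

@[simp] theorem upR_zero (f : ℕ → ℕ) : upR f 0 = 0 := rfl
@[simp] theorem upR_succ (f : ℕ → ℕ) (n : ℕ) : upR f (n + 1) = f n + 1 := rfl

theorem upR_comp (f g : ℕ → ℕ) : upR g ∘ upR f = upR (g ∘ f) := by
  funext n; cases n <;> rfl

theorem upR_id : upR (id : ℕ → ℕ) = id := by funext n; cases n <;> rfl

namespace Tm

def ren : (ℕ → ℕ) → Tm S → Tm S
  | f, var n => var (f n)
  | _, srt s => srt s
  | _, cst n A => cst n A
  | f, app a b => app (ren f a) (ren f b)
  | f, lam a b => lam (ren f a) (ren (upR f) b)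
  | f, pi a b => pi (ren f a) (ren (upR f) b)

def up (f : ℕ → Tm S) : ℕ → Tm S
  | 0 => var 0
  | n + 1 => ren Nat.succ (f n)

def sub : (ℕ → Tm S) → Tm S → Tm S
  | f, var n => f n
  | _, srt s => srt s
  | _, cst n A => cst n A
  | f, app a b => app (sub f a) (sub f b)
  | f, lam a b => lam (sub f a) (sub (up f) b)
  | f, pi a b => pi (sub f a) (sub (up f) b)

def scons (a : Tm S) (f : ℕ → Tm S) : ℕ → Tm S
  | 0 => a
  | n + 1 => f n

def sh (M : Tm S) : Tm S := ren Nat.succ M

def inst (B N : Tm S) : Tm S := sub (scons N var) B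

@[simp] theorem up_zero (f : ℕ → Tm S) : up f 0 = var 0 := rfl
@[simp] theorem up_succ (f : ℕ → Tm S) (n : ℕ) : up f (n + 1) = ren Nat.succ (f n) := rfl
@[simp] theorem scons_zero (a : Tm S) (f : ℕ → Tm S) : scons a f 0 = a := rfl
@[simp] theorem scons_succ (a : Tm S) (f : ℕ → Tm S) (n : ℕ) : scons a f (n + 1) = f n := rfl

theorem ren_ren (M : Tm S) : ∀ f g : ℕ → ℕ, ren g (ren f M) = ren (g ∘ f) M := by
  induction M with
  | var n => intros; rfl
  | srt s => intros; rfl
  | cst n A => intros; rfl
  | app a b ha hb => intros; simp [ren, ha, hb]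
  | lam a b ha hb => intros; simp [ren, ha, hb, upR_comp]
  | pi a b ha hb => intros; simp [ren, ha, hb, upR_comp]

theorem ren_id (M : Tm S) : ren id M = M := by
  induction M with
  | var n => rfl
  | srt s => rfl
  | cst n A => rfl
  | app a b ha hb => simp [ren, ha, hb]
  | lam a b ha hb => simp [ren, ha, hb, upR_id]
  | pi a b ha hb => simp [ren, ha, hb, upR_id]

theorem up_upR (f : ℕ → ℕ) (g : ℕ → Tm S) : up g ∘ upR f = up (g ∘ f) := by
  funext n; cases n <;> rfl

theorem ren_up (f : ℕ → Tm S) (g : ℕ → ℕ) :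
    ren (upR g) ∘ up f = up (ren g ∘ f) := by
  funext n
  cases n with
  | zero => rfl
  | succ n => simp only [Function.comp, up_succ, ren_ren]; rfl

theorem sub_ren (M : Tm S) : ∀ (f : ℕ → ℕ) (g : ℕ → Tm S), sub g (ren f M) = sub (g ∘ f) M := by
  induction M with
  | var n => intros; rfl
  | srt s => intros; rfl
  | cst n A => intros; rfl
  | app a b ha hb => intros; simp [ren, sub, ha, hb]
  | lam a b ha hb => intros; simp [ren, sub, ha, hb, up_upR]
  | pi a b ha hb => intros; simp [ren, sub, ha, hb, up_upR]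

theorem ren_sub (M : Tm S) : ∀ (f : ℕ → Tm S) (g : ℕ → ℕ), ren g (sub f M) = sub (ren g ∘ f) M := by
  induction M with
  | var n => intros; rfl
  | srt s => intros; rfl
  | cst n A => intros; rfl
  | app a b ha hb => intros; simp [ren, sub, ha, hb]
  | lam a b ha hb => intros; simp [ren, sub, ha, hb, ren_up]
  | pi a b ha hb => intros; simp [ren, sub, ha, hb, ren_up]

theorem sub_up (f g : ℕ → Tm S) : sub (up g) ∘ up f = up (sub g ∘ f) := by
  funext n
  cases n with
  | zero => rfl
  | succ n => simp only [Function.comp, up_succ, sub_ren, ren_sub]; rfl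

theorem sub_sub (M : Tm S) : ∀ f g : ℕ → Tm S, sub g (sub f M) = sub (sub g ∘ f) M := by
  induction M with
  | var n => intros; rfl
  | srt s => intros; rfl
  | cst n A => intros; rfl
  | app a b ha hb => intros; simp [sub, ha, hb]
  | lam a b ha hb => intros; simp [sub, ha, hb, sub_up]
  | pi a b ha hb => intros; simp [sub, ha, hb, sub_up]

theorem up_var : up (var : ℕ → Tm S) = var := by funext n; cases n <;> rfl

theorem sub_var (M : Tm S) : sub var M = M := by
  induction M with
  | var n => rfl
  | srt s => rfl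
  | cst n A => rfl
  | app a b ha hb => simp [sub, ha, hb]
  | lam a b ha hb => simp [sub, ha, hb, up_var]
  | pi a b ha hb => simp [sub, ha, hb, up_var]

theorem ren_eq_sub (M : Tm S) (f : ℕ → ℕ) : ren f M = sub (var ∘ f) M := by
  rw [← sub_ren, sub_var]

theorem sub_scons_sh (M a : Tm S) (f : ℕ → Tm S) : sub (scons a f) (sh M) = sub f M := by
  rw [sh, sub_ren]; rfl

theorem inst_sh (M a : Tm S) : inst (sh M) a = M := by
  rw [inst, sub_scons_sh, sub_var]

theorem ren_sh (M : Tm S) (f : ℕ → ℕ) : ren (upR f) (sh M) = sh (ren f M) := by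
  simp only [sh, ren_ren]; rfl

theorem sub_up_sh (M : Tm S) (f : ℕ → Tm S) : sub (up f) (sh M) = sh (sub f M) := by
  simp only [sh, sub_ren, ren_sub]; rfl

theorem ren_inst (B N : Tm S) (f : ℕ → ℕ) :
    ren f (inst B N) = inst (ren (upR f) B) (ren f N) := by
  simp only [inst, ren_sub, sub_ren]
  congr 1
  funext n; cases n <;> rfl

theorem sub_inst (B N : Tm S) (f : ℕ → Tm S) :
    sub f (inst B N) = inst (sub (up f) B) (sub f N) := by
  simp only [inst, sub_sub]
  congr 1
  funext n
  cases n with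
  | zero => rfl
  | succ n =>
    simp only [Function.comp, scons_succ, up_succ, sub, sub_ren]
    exact (sub_var (f n)).symm

theorem inst_var_zero (B : Tm S) : inst (ren (upR Nat.succ) B) (var 0) = B := by
  rw [inst, sub_ren]
  conv => rhs; rw [← sub_var B]
  congr 1
  funext n; cases n <;> rfl

end Tm

end Vale.Agent.P340.St
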