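import Vale.Agent.P340.StTargetBase

/-!
The translation of every well-typed memory term is the erasure of a typed term.
-/

namespace Vale.Agent.P340.St

open Relation Classical

universe u
variable {S : Type u} [Inhabited S] {P : Sys S} {c : S} {D : Tm S} (h : Cls P c D)
include h

theorem above_ne {k : Cl S} (hk : Above P c k) : k ≠ .inl c := by
  rintro rfl; exact h.nd.acyc _ hk

theorem above_arg {Γ : List (Tm S)} {s : S} (hs : ReflTransGen P.Ax c s) {A : Tm S}
    (hA : Has P Γ A (.srt s)) : Above P c (cl P (ctxC P Γ) A) := by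
  rw [cl_type h.nd.toStrat hA, above_memC h.nd]; exact hs

theorem eq_or_above {s t : S} (hr : P.Rule s t t) (ht : t = c) :
    s = c ∨ TransGen P.Ax c s := by
  subst ht
  rcases Relation.reflTransGen_iff_eq_or_transGen.1 (h.nd.nd _ _ _ hr) with e | e
  · exact .inl e
  · exact .inr e

theorem node_var (Γ : List (Tm S)) (i : ℕ) : TransOK P c D Γ (.var i) := by
  intro T Δ σ z r hT he _ K u hK hu
  show Real P c Δ D _
  simp only [tkc, tk]
  split_ifs with hp
  · refine real_unit h ?_ hu
    rwa [vty, if_neg (show (MTm.var i : MTm S).cls P Γ ≠ .inl c from above_ne h hp)] at hK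
  · obtain ⟨A, hA, hc⟩ := hT.gen_var
    obtain ⟨h₁, h₂⟩ := he.hvar i A hA hp
    have hk : (Sum.inl (ctxC P Γ i) : Cl S) = .inl c → Has P Γ T (.srt c) :=
      fun e => term_sort h hT e
    have hV := vty_typed h (Sum.inl (ctxC P Γ i)) he.wf he.sat hk
    have hcv := vty_conv h (σ := σ) (k := Sum.inl (ctxC P Γ i)) hk (var_sort h hT.wf hA) hc
    have hreal : Real P c Δ (comp D (vty P c D (ctxC P Γ) σ (.inl (ctxC P Γ i)) T))
        (.var (r i)) :=
      real_conv h (A := comp D _) ⟨.var (z i), h₁, by rw [← h₂]; rfl⟩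
        (comp_typed h.rule h.hD hV) hcv.symm.comp
    exact real_app h hreal ⟨K, hK, hu⟩ (arr_D h hV)

theorem node_srt (Γ : List (Tm S)) (s : S) : TransOK P c D Γ (.srt s) := by
  intro T Δ σ z r hT he _ K u hK hu
  show Real P c Δ D _
  simp only [tkc, tk]
  have hk : (MTm.srt s : MTm S).cls P Γ = .inl c → Has P Γ T (.srt c) :=
    fun e => term_sort h hT e
  split_ifs with hp
  · refine real_unit h ?_ hu
    rwa [vty, if_neg (show (MTm.srt s : MTm S).cls P Γ ≠ .inl c from above_ne h hp)] at hK
  · obtain ⟨t, ht, hc⟩ := hT.gen_srt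
    have hs : Has P Γ (Tm.srt s) (Tm.srt t) := hT.wf.weakenClosed (.ax ht)
    have hk₀ : (MTm.srt s : MTm S).cls P Γ = .inl c → Has P Γ (Tm.srt t) (.srt c) :=
      fun e => term_sort h hs e
    have hV := vty_typed h ((MTm.srt s : MTm S).cls P Γ) he.wf he.sat hk
    have hcv := vty_conv h (σ := σ) hk hk₀ hc
    have hclosed : Has P [] (vty P c D (ctxC P Γ) σ ((MTm.srt s : MTm S).cls P Γ) (Tm.srt t))
        (.srt c) := by
      unfold vty
      split_ifs with hk'
      · rw [val_srt]
        obtain ⟨c', hc', hcc⟩ := (hk₀ hk').gen_srt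
        rw [hcc.srt_inj]
        exact .ax hc'
      · exact h.hD
    exact real_app h (real_conv h (h.head₀ he.wf Tag.srtT (comp_typed h.rule h.hD hclosed))
      (comp_typed h.rule h.hD hV) hcv.symm.comp) ⟨K, hK, hu⟩ (arr_D h hV)

theorem node_mem (Γ : List (Tm S)) (p q : MTm S) (hg : Good P Γ (.mem p q))
    (hp' : TransOK P c D Γ p) (hq' : TransOK P c D Γ q) : TransOK P c D Γ (.mem p q) := by
  intro T Δ σ z r hT he hm K u hK hu
  show Real P c Δ D _
  obtain ⟨-, hq, s, t, hr, hcp, hcq⟩ := hg
  simp only [tkc, tk]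
  split_ifs with hp
  · refine real_unit h ?_ hu
    rwa [vty, if_neg (show (MTm.mem p q).cls P Γ ≠ .inl c from above_ne h hp)] at hK
  · obtain ⟨Tq, hTq⟩ := hq.typed
    have hmq : Mode P c D Γ σ (q.cls P Γ) := by
      refine hm.mono hp fun e => ?_
      have htc : t = c := Sum.inl.inj (hcp.symm.trans e)
      rcases hcq with hcq | hcq
      · rcases eq_or_above h hr htc with rfl | hs
        · exact .inl hcq
        · exact .inr (by rw [hcq]; exact hs)
      · refine .inr ?_
        rw [hcq, above_memC h.nd]
        subst htc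
        exact h.nd.nd _ _ _ hr
    obtain ⟨hV, hV₀, hthunk⟩ := real_thunk h hq' hTq he hmq
    exact real_mem h hV hV₀ hthunk (hp' T Δ σ z r hT he hm K u hK hu)

theorem node_app (Γ : List (Tm S)) (f a : MTm S) (hg : Good P Γ (.app f a))
    (hf' : TransOK P c D Γ f) (ha' : TransOK P c D Γ a) : TransOK P c D Γ (.app f a) := by
  intro T Δ σ z r hT he hm K u hK hu
  show Real P c Δ D _
  simp only [tkc, tk]
  have hkeq : (MTm.app f a).cls P Γ = f.cls P Γ := rfl
  obtain ⟨A, B, hf, ha, hc⟩ := (show Has P Γ (Tm.app (MTm.strip f) (MTm.strip a)) T from hT).gen_app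
  obtain ⟨sF, hsF⟩ : ∃ s, Has P Γ (Tm.pi A B) (.srt s) := by
    rcases hf.correct with e | ⟨_, e⟩
    · exact e
    · cases e
  obtain ⟨s, t, u', hA, hB, hr₀, hcu⟩ := hsF.gen_pi
  have hu' : u' = t := h.nd.cod _ _ _ hr₀
  subst hu'
  rw [hcu.srt_inj] at hsF
  have hcf : f.cls P Γ = .inl u' := cl_term h.nd.toStrat hf hsF
  have hca : a.cls P Γ = .inl s := cl_term h.nd.toStrat ha hA
  split_ifs with hp hact
  · refine real_unit h ?_ hu
    rwa [vty, if_neg (show (MTm.app f a).cls P Γ ≠ .inl c from above_ne h hp)] at hK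
  · have htc : u' = c := Sum.inl.inj (hcf.symm.trans hact)
    rw [htc] at hr₀ hB hsF
    clear hcu
    have hs := eq_or_above h hr₀ rfl
    have hka : f.cls P Γ = .inl c → a.cls P Γ = .inl c ∨ Above P c (a.cls P Γ) := fun _ => by
      rcases hs with e | e
      · exact .inl (by rw [hca, e])
      · exact .inr (by rw [hca]; exact e)
    have hma : Mode P c D Γ σ (a.cls P Γ) := hm.mono hp hka
    have hT' : Has P Γ T (.srt c) := term_sort h hT hact
    have hV := val_typed h hT' he.wf he.sat
    have hW := val_typed h hsF he.wf he.sat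
    have hact' : f.cls P Γ = .inl c := hact
    rw [hkeq, vty, if_pos hact'] at hK
    have key : Real P c (val P c D (ctxC P Γ) σ (Tm.pi A B) :: Δ) D
        (.app (.app (.var 0) (.lam (tkc P c (ctxC P Γ) a (fun i => r i + 2) (.var 0))))
          (UTm.ren Nat.succ u)) := by
      have he₁ := he.push h hT.wf hW
      obtain ⟨hVa, -, hthunk⟩ := real_thunk h ha' ha he₁ (hma.shift h Nat.succ)
      have hK' : Real P c (val P c D (ctxC P Γ) σ (Tm.pi A B) :: Δ)
          (arr (Tm.sh (val P c D (ctxC P Γ) σ T)) D) (UTm.ren Nat.succ u) := by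
        refine ⟨Tm.sh K, ?_, ?_⟩
        · have := hK.sh hW
          simpa only [Tm.sh, arr_ren, D_ren h] using this
        · rw [h.er_shift hK (arr_D h hV) hW, hu]
      have hVs := hV.sh hW
      have hres : ∀ (t : Tm S), (Poly P c → s ≠ c →
          t = tau P c D (ctxC P Γ) σ (MTm.strip a)) →
          Conv (val P c D (ctxC P (A :: Γ)) (Tm.scons t σ) B) (val P c D (ctxC P Γ) σ T) := by
        intro t ht
        rw [← val_inst h σ hA hB hr₀ ha t ht]
        exact val_conv h σ (hB.inst ha) hT' hc.symm
      have hv : Has P (val P c D (ctxC P Γ) σ (Tm.pi A B) :: Δ) (Tm.var 0)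
          (Tm.sh (val P c D (ctxC P Γ) σ (Tm.pi A B))) := Has.var hW
      rcases hs with hsc | hsa
      · have hA' : Has P Γ A (.srt c) := by rw [← hsc]; exact hA
        have hVA := val_typed h hA' he.wf he.sat
        have hVB : Has P Δ (val P c D (ctxC P (A :: Γ)) (Tm.scons D σ) B) (.srt c) :=
          val_typed h hB he.wf fun hp' => (he.sat hp').skip D (by
            rw [cl_type h.nd.toStrat hA', bindC_memC h.nd.toStrat]; exact h.nd.acyc c)
        have hty := arr_typed h.rule (comp_typed h.rule h.hD (hVA.sh hW))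
          (comp_typed h.rule h.hD (hVB.sh hW))
        have hcv : Conv (Tm.sh (val P c D (ctxC P Γ) σ (Tm.pi A B)))
            (arr (comp D (Tm.sh (val P c D (ctxC P Γ) σ A)))
              (comp D (Tm.sh (val P c D (ctxC P (A :: Γ)) (Tm.scons D σ) B)))) := by
          have := (val_pi_eq h σ hA' hB).ren Nat.succ
          simpa only [Tm.sh, arr_ren, comp_ren h.scopedD] using this
        have hva : vty P c D (ctxC P Γ) (Tm.ren Nat.succ ∘ σ) (a.cls P Γ) A
            = Tm.sh (val P c D (ctxC P Γ) σ A) := by
          rw [vty, if_pos (by rw [hca, hsc]), val_shift h hA']; rfl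
        rw [hva] at hthunk
        have happ := real_app h (real_conv h ⟨.var 0, hv, rfl⟩ hty hcv) hthunk
          (comp_typed h.rule h.hD (hVA.sh hW))
        have hr' := (hres D (fun _ hne => absurd hsc hne)).ren Nat.succ
        exact real_app h (real_conv h happ (comp_typed h.rule h.hD hVs) hr'.comp) hK'
          (arr_D h hVs)
      · have hne : s ≠ c := h.ne_above hsa
        have hva : vty P c D (ctxC P Γ) (Tm.ren Nat.succ ∘ σ) (a.cls P Γ) A = D := by
          rw [vty, if_neg (by rw [hca]; exact fun e => hne (Sum.inl.inj e))]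
        rw [hva] at hthunk
        have hDD := (Wf.cons he.wf hW).weakenClosed h.hD
        by_cases hP' : Poly P c
        · have hτA : Has P Δ (tau P c D (ctxC P Γ) σ A) (.srt s) :=
            tau_typed h.nd h.rule h.hD hA he.wf (he.sat hP')
              (above_arg h hsa.to_reflTransGen hA)
          have hτa : Has P Δ (tau P c D (ctxC P Γ) σ (MTm.strip a))
              (tau P c D (ctxC P Γ) σ A) :=
            tau_typed h.nd h.rule h.hD ha he.wf (he.sat hP')
              (show Above P c (a.cls P Γ) by rw [hca]; exact hsa)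
          have hsat := (he.sat hP').up h.scopedD hτA
          have hwA : Wf P (tau P c D (ctxC P Γ) σ A :: Δ) := .cons he.wf hτA
          have hVup : Has P (tau P c D (ctxC P Γ) σ A :: Δ)
              (val P c D (ctxC P (A :: Γ)) (Tm.up σ) B) (.srt c) :=
            val_typed h hB hwA fun _ => hsat
          have hcv := val_pi_above h σ hA hB hr₀ hne
          rw [if_pos hP'] at hcv
          have hpi : Has P Δ (Tm.pi (tau P c D (ctxC P Γ) σ A) (arr (comp D D)
              (comp D (val P c D (ctxC P (A :: Γ)) (Tm.up σ) B)))) (.srt c) :=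
            .pi hτA (arr_typed h.rule (hwA.weakenClosed (compD_closed h))
              (comp_typed h.rule h.hD hVup)) hr₀
          have hv₁ : Has P (val P c D (ctxC P Γ) σ (Tm.pi A B) :: Δ) (Tm.var 0) _ :=
            .conv hv (hpi.sh hW) (hcv.ren Nat.succ)
          have hv₂ := Has.app (show Has P _ _ (Tm.pi (Tm.sh (tau P c D (ctxC P Γ) σ A))
              (Tm.ren (upR Nat.succ) (arr (comp D D)
                (comp D (val P c D (ctxC P (A :: Γ)) (Tm.up σ) B))))) from hv₁)
            (hτa.sh hW)
          rw [Tm.sh, ← Tm.ren_inst] at hv₂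
          have he₂ : Tm.inst (arr (comp D D)
                (comp D (val P c D (ctxC P (A :: Γ)) (Tm.up σ) B)))
              (tau P c D (ctxC P Γ) σ (MTm.strip a))
            = arr (comp D D) (comp D (val P c D (ctxC P (A :: Γ))
              (Tm.scons (tau P c D (ctxC P Γ) σ (MTm.strip a)) σ) B)) := by
            rw [Tm.inst, arr_sub, comp_sub h.scopedD, comp_sub h.scopedD, h.scopedD.sub_closed]
            congr 2
            simp only [val, if_pos hP']
            rw [← tau_scope h.nd h.scopedD B _ _ _ _ hB (h.above_type hB)]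
            congr 1
            funext i
            cases i with
            | zero => rfl
            | succ i =>
              simp only [Function.comp, Tm.up_succ, Tm.sub_ren]
              exact Tm.sub_var _
          rw [he₂, arr_ren, comp_ren h.scopedD, comp_ren h.scopedD, D_ren h] at hv₂
          have her : er P c (ctxC P (val P c D (ctxC P Γ) σ (Tm.pi A B) :: Δ))
              (Tm.app (Tm.var 0) (Tm.sh (tau P c D (ctxC P Γ) σ (MTm.strip a)))) = .var 0 := by
            rw [h.er_app_drop (hτa.sh hW) (hτA.sh hW) hne]; rfl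
          have happ := real_app h ⟨_, hv₂, her⟩ hthunk
            (comp_typed h.rule h.hD hDD)
          have hr' := (hres _ (fun _ _ => rfl)).ren Nat.succ
          exact real_app h (real_conv h happ (comp_typed h.rule h.hD hVs) hr'.comp) hK'
            (arr_D h hVs)
        · have hcv := val_pi_above h σ hA hB hr₀ hne
          rw [if_neg hP'] at hcv
          have hVB : Has P Δ (val P c D (ctxC P (A :: Γ)) (Tm.scons D σ) B) (.srt c) :=
            he.wf.weakenClosed (val_closed h hB hP' _)
          have hty := arr_typed h.rule (comp_typed h.rule h.hD hDD)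
            (comp_typed h.rule h.hD (hVB.sh hW))
          have hcv' : Conv (Tm.sh (val P c D (ctxC P Γ) σ (Tm.pi A B)))
              (arr (comp D D)
                (comp D (Tm.sh (val P c D (ctxC P (A :: Γ)) (Tm.scons D σ) B)))) := by
            have := hcv.ren Nat.succ
            simpa only [Tm.sh, arr_ren, comp_ren h.scopedD, D_ren h] using this
          have happ := real_app h (real_conv h ⟨.var 0, hv, rfl⟩ hty hcv') hthunk
            (comp_typed h.rule h.hD hDD)
          have hr' := (hres D (fun hh _ => absurd hh hP')).ren Nat.succ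
          exact real_app h (real_conv h happ (comp_typed h.rule h.hD hVs) hr'.comp) hK'
            (arr_D h hVs)
    obtain ⟨b, hb₁, hb₂⟩ := key
    refine hf' _ Δ σ z r hf he hm (Tm.lam (val P c D (ctxC P Γ) σ (Tm.pi A B)) b) _ ?_ ?_
    · rw [vty, if_pos hact']
      refine h.lam_arr hW (he.wf.weakenClosed h.hD) ?_
      rw [D_sh h]
      exact hb₁
    · rw [h.er_lam hW, hb₂]
  · have hmf : Mode P c D Γ σ (f.cls P Γ) := hm
    have hma : Mode P c D Γ σ (a.cls P Γ) := hm.mono hp fun e => absurd e hact
    obtain ⟨-, -, htf⟩ := real_thunk h hf' hf he hmf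
    have hact' : ¬ f.cls P Γ = .inl c := hact
    rw [vty, if_neg hact'] at htf
    obtain ⟨hVa, hVa₀, hta⟩ := real_thunk h ha' ha he hma
    have hH := h.head Tag.joinT (fun V => arr (comp D D) (arr (comp D V) (comp D D))) hVa hVa₀
      (fun Δ V hV => arr_typed h.rule (hV.wf.weakenClosed (compD_closed h))
        (arr_typed h.rule (comp_typed h.rule h.hD hV) (hV.wf.weakenClosed (compD_closed h))))
      (fun g V => by simp only [arr_sub, comp_sub h.scopedD, h.scopedD.sub_closed])
    rw [hkeq, vty, if_neg hact'] at hK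
    exact real_app h (real_app h (real_app h hH htf (he.wf.weakenClosed (compD_closed h))) hta
      (comp_typed h.rule h.hD hVa)) ⟨K, hK, hu⟩ (arr_D h (he.wf.weakenClosed h.hD))

end Vale.Agent.P340.St
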