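import Vale.Agent.P340.StTarget

/-!
Binders, and the conclusion that translations are erasures of typed terms.
-/

namespace Vale.Agent.P340.St

open Relation Classical

universe u
variable {S : Type u} [Inhabited S] {P : Sys S} {c : S} {D : Tm S} (h : Cls P c D)
include h

theorem bind_sat {Γ Δ : List (Tm S)} {σ : ℕ → Tm S} {z r : ℕ → ℕ} (he : Env P c D Γ Δ σ z r)
    {A : Tm S} {s : S} (hA : Has P Γ A (.srt s)) (t : Tm S)
    (ht : Poly P c → TransGen P.Ax c s → Has P Δ t (tau P c D (ctxC P Γ) σ A))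
    (hp : Poly P c) : Sat P c D (A :: Γ) Δ (Tm.scons t σ) := by
  by_cases hs : TransGen P.Ax c s
  · exact (he.sat hp).cons (ht hp hs)
  · exact (he.sat hp).skip t (by rwa [cl_type h.nd.toStrat hA, bindC_memC h.nd.toStrat])

/-- Outside active nodes a higher-class binder is replaced by a closed dummy. -/
theorem bind_closed {Γ Δ : List (Tm S)} {σ : ℕ → Tm S} (hw : Wf P Δ)
    (hm : Poly P c → Sat P c D Γ [] σ) {A : Tm S} {s : S} (hA : Has P Γ A (.srt s)) :
    ∃ t : Tm S,
      (Poly P c → TransGen P.Ax c s → Has P Δ t (tau P c D (ctxC P Γ) σ A)) ∧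
      (∀ (g : ℕ → ℕ), Poly P c → Sat P c D (A :: Γ) [] (Tm.ren g ∘ Tm.scons t σ)) := by
  by_cases hp : Poly P c ∧ TransGen P.Ax c s
  · have haA : Above P c (cl P (ctxC P Γ) A) := above_arg h hp.2.to_reflTransGen hA
    have hτ : Has P [] (tau P c D (ctxC P Γ) σ A) (.srt s) :=
      tau_typed h.nd h.rule h.hD hA .nil (hm hp.1) haA
    have hd : Has P [] (Tm.cst 7 (tau P c D (ctxC P Γ) σ A)) (tau P c D (ctxC P Γ) σ A) :=
      .cst 7 h.nd.cok hτ
    exact ⟨_, fun _ _ => hw.weakenClosed hd,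
      fun g hq => closedSat_bind h (hm hq) hA _ (fun _ => hd) g⟩
  · exact ⟨D, fun h₁ h₂ => absurd ⟨h₁, h₂⟩ hp,
      fun g hq => closedSat_bind h (hm hq) hA D (fun hs => absurd ⟨hq, hs⟩ hp) g⟩

theorem node_lam (Γ : List (Tm S)) (A b : MTm S) (hA' : TransOK P c D Γ A)
    (hb' : TransOK P c D (MTm.strip A :: Γ) b) : TransOK P c D Γ (.lam A b) := by
  intro T Δ σ z r hT he hm K u hK hu
  show Real P c Δ D _
  simp only [tkc, tk]
  split_ifs with hp hact
  · refine real_unit h ?_ hu
    rwa [vty, if_neg (show (MTm.lam A b).cls P Γ ≠ .inl c from above_ne h hp)] at hK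
  all_goals (
    obtain ⟨B, v, hb, hpi, hc⟩ :=
      (show Has P Γ (Tm.lam (MTm.strip A) (MTm.strip b)) T from hT).gen_lam
    obtain ⟨s, t, u', hA, hB, hr₀, hcu⟩ := hpi.gen_pi
    have hu' : u' = t := h.nd.cod _ _ _ hr₀
    subst hu'
    rw [hcu.srt_inj] at hpi
    clear hcu
    have hcb : b.cls P (MTm.strip A :: Γ) = .inl u' := cl_term h.nd.toStrat hb hB
    have hcl : (MTm.lam A b).cls P Γ = .inl u' := hcb
    have hcA : A.cls P Γ = memC P s := cl_type h.nd.toStrat hA)
  · have hact' : (MTm.lam A b).cls P Γ = .inl c := hact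
    have htc : u' = c := Sum.inl.inj (hcl.symm.trans hact')
    rw [htc] at hr₀ hB hpi hcb hcl
    have hs := eq_or_above h hr₀ rfl
    have hrs : ReflTransGen P.Ax c s := h.nd.nd _ _ _ hr₀
    have hmA : Mode P c D Γ σ (A.cls P Γ) := fun _ => .inr (.inr (above_arg h hrs hA))
    have hnA : ¬ A.cls P Γ = .inl c := above_ne h (above_arg h hrs hA)
    have hT' : Has P Γ T (.srt c) := term_sort h hT hact'
    have hV := val_typed h hT' he.wf he.sat
    rw [vty, if_pos hact'] at hK
    have hmb : ∀ σ', Mode P c D (MTm.strip A :: Γ) σ' (b.cls P (MTm.strip A :: Γ)) :=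
      fun σ' _ => .inr (.inl hcb)
    have hwrap : ∀ {Δ₁ : List (Tm S)} {σ₁ : ℕ → Tm S} {z₁ : ℕ → ℕ},
        Env P c D Γ Δ₁ σ₁ z₁ (Nat.succ ∘ r) →
        (Poly P c → Sat P c D Γ [] σ₁ ∨ A.cls P Γ = .inl c ∨ Above P c (A.cls P Γ)) →
        ∀ X w, Has P Δ₁ X (.srt c) → Real P c (X :: Δ₁) D w →
          Real P c (X :: Δ₁) D (.app (.app (.cst Tag.memT)
            (.lam (tkc P c (ctxC P Γ) A (fun i => r i + 3) (.var 0)))) w) := by
      intro Δ₁ σ₁ z₁ he₁ hm₁ X w hX hw
      obtain ⟨hV₁, hV₀, hth⟩ := real_thunk h hA' hA (he₁.push h hT.wf hX)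
        (fun _ => .inr (.inr (above_arg h hrs hA)))
      exact real_mem h hV₁ hV₀ hth hw
    refine real_app h (A := val P c D (ctxC P Γ) σ T) ⟨K, hK, hu⟩ ?_ hV
    have hcvT := val_conv h σ hT' hpi hc
    rcases hs with hsc | hsa
    · have hA₀ : Has P Γ (MTm.strip A) (.srt c) := by rw [← hsc]; exact hA
      obtain ⟨hW, he'⟩ := he.bind h hT.wf hA D (fun _ hh => absurd hsc (h.ne_above hh))
      have hVW := vty_typed h (Γ := Γ) (T := MTm.strip A) (Sum.inl s) he.wf he.sat
        (fun e => by cases e; exact hA)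
      obtain ⟨hVb, hX⟩ := real_body h hb' hA hb (σ := σ) hVW
        (fun hp' => vty_closed h σ _ (fun e => by cases e; exact hA) hp') he'
        (bind_sat h he hA D fun _ hh => absurd hsc (h.ne_above hh)) (hmb _)
        (fun w => .app (.app (.cst Tag.memT)
          (.lam (tkc P c (ctxC P Γ) A (fun i => r i + 3) (.var 0)))) w)
        (hwrap (he.push h hT.wf hW) (fun _ => .inr (.inr (above_arg h hrs hA))))
      refine real_conv h hX hV (Conv.trans ?_ hcvT.symm)
      have e₁ : vty P c D (ctxC P Γ) σ (.inl s) (MTm.strip A)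
          = val P c D (ctxC P Γ) σ (MTm.strip A) := by rw [vty, if_pos (by rw [hsc])]
      rw [e₁, vty, if_pos hcb]
      exact (val_pi_eq h σ hA₀ hB).symm
    · have hne : s ≠ c := h.ne_above hsa
      have hcv := val_pi_above h σ hA hB hr₀ hne
      by_cases hP' : Poly P c
      · rw [if_pos hP'] at hcv
        obtain ⟨hτ, hW, he'⟩ := he.bindType h hT.wf hA hP' hsa
        have hsat' := (he.sat hP').up h.scopedD hτ
        obtain ⟨hVb, hX⟩ := real_body h hb' hA hb (σ := σ) (Δ := _ :: Δ) (W := D)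
          (σ' := Tm.up σ) (z := Nat.succ ∘ z) (r := r) (hW.wf.weakenClosed h.hD)
          (fun _ => h.hD) he' (fun _ => hsat') (hmb _)
          (fun w => .app (.app (.cst Tag.memT)
            (.lam (tkc P c (ctxC P Γ) A (fun i => r i + 3) (.var 0)))) w)
          (hwrap ((he.pushType h hT.wf hτ hne).push h hT.wf hW)
            (fun _ => .inr (.inr (above_arg h hrs hA))))
        obtain ⟨X, hX₁, hX₂⟩ := hX
        rw [vty, if_pos hcb] at hX₁ hVb
        have hty : Has P Δ (Tm.pi (tau P c D (ctxC P Γ) σ (MTm.strip A)) (arr (comp D D)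
            (comp D (val P c D (ctxC P (MTm.strip A :: Γ)) (Tm.up σ) B)))) (.srt c) :=
          .pi hτ (arr_typed h.rule hW (comp_typed h.rule h.hD hVb)) hr₀
        refine real_conv h (A := Tm.pi _ _)
          ⟨Tm.lam (tau P c D (ctxC P Γ) σ (MTm.strip A)) X, .lam hX₁ hty, ?_⟩ hV
          (hcv.symm.trans hcvT.symm)
        rw [h.er_lam_drop hτ hne, hX₂]
        rfl
      · rw [if_neg hP'] at hcv
        obtain ⟨hW, he'⟩ := he.bind h hT.wf hA D (fun hh => absurd hh hP')
        have e₁ : vty P c D (ctxC P Γ) σ (.inl s) (MTm.strip A) = D := by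
          rw [vty, if_neg fun e => hne (Sum.inl.inj e)]
        rw [e₁] at hW he'
        obtain ⟨hVb, hX⟩ := real_body h hb' hA hb (σ := σ) (W := D)
          (he.wf.weakenClosed h.hD) (fun _ => h.hD) he' (fun hh => absurd hh hP') (hmb _)
          (fun w => .app (.app (.cst Tag.memT)
            (.lam (tkc P c (ctxC P Γ) A (fun i => r i + 3) (.var 0)))) w)
          (hwrap (he.push h hT.wf hW) (fun _ => .inr (.inr (above_arg h hrs hA))))
        refine real_conv h hX hV (Conv.trans ?_ hcvT.symm)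
        rw [vty, if_pos hcb]
        exact hcv.symm
  · have hact' : ¬ (MTm.lam A b).cls P Γ = .inl c := hact
    have htc : u' ≠ c := fun e => hact' (by rw [hcl, e])
    have hclosed : Poly P c → Sat P c D Γ [] σ := fun hq =>
      (hm hq).elim id fun e => e.elim (fun e => absurd e hact') fun e => absurd e hp
    obtain ⟨t, ht₁, ht₂⟩ := bind_closed h he.wf hclosed hA
    obtain ⟨hW, he'⟩ := he.bind h hT.wf hA t ht₁
    have hVW := vty_typed h (Γ := Γ) (T := MTm.strip A) (Sum.inl s) he.wf he.sat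
      (fun e => by cases e; exact hA)
    have hW₀ : ¬ Poly P c → Has P [] (vty P c D (ctxC P Γ) σ (.inl s) (MTm.strip A)) (.srt c) :=
      fun hp' => vty_closed h σ _ (fun e => by cases e; exact hA) hp'
    obtain ⟨hVb, hX⟩ := real_body h hb' hA hb (σ := σ) hVW hW₀ he'
      (bind_sat h he hA t ht₁) (fun hq => .inl (ht₂ Nat.succ hq)) id (fun _ _ _ hw => hw)
    have eb : vty P c D (ctxC P (MTm.strip A :: Γ)) (Tm.scons t σ)
        (b.cls P (MTm.strip A :: Γ)) B = D := by
      rw [vty, if_neg (by rw [hcb]; exact fun e => htc (Sum.inl.inj e))]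
    rw [eb] at hX
    obtain ⟨hVA, -, hth⟩ := real_thunk h hA' hA he (fun hq => .inl (hclosed hq))
    have hVA₀ : Has P [] (vty P c D (ctxC P Γ) σ (A.cls P Γ) (Tm.srt s)) (.srt c) := by
      unfold vty
      split_ifs with hk
      · rw [val_srt]
        obtain ⟨c', hc', hcc⟩ := (term_sort h hA hk).gen_srt
        rw [hcc.srt_inj]; exact .ax hc'
      · exact h.hD
    generalize vty P c D (ctxC P Γ) σ (A.cls P Γ) (Tm.srt s) = VA at hVA hVA₀ hth
    have hH := h.head Tag.lamT
      (fun W => arr (comp D VA) (arr (arr (comp D W) (comp D D)) (comp D D))) hVW hW₀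
      (fun Δ W hW' => arr_typed h.rule
        (hW'.wf.weakenClosed (comp_typed h.rule h.hD hVA₀))
        (arr_typed h.rule (arr_typed h.rule (comp_typed h.rule h.hD hW')
          (hW'.wf.weakenClosed (compD_closed h))) (hW'.wf.weakenClosed (compD_closed h))))
      (fun g V => by
        simp only [arr_sub, comp_sub h.scopedD, h.scopedD.sub_closed,
          hVA₀.scoped.1.sub_closed])
    have hty := arr_typed h.rule (comp_typed h.rule h.hD hVW)
      (he.wf.weakenClosed (compD_closed h))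
    rw [vty, if_neg hact'] at hK
    exact real_app h (real_app h (real_app h hH hth (comp_typed h.rule h.hD hVA)) hX hty)
      ⟨K, hK, hu⟩ (arr_D h (he.wf.weakenClosed h.hD))

theorem node_pi (Γ : List (Tm S)) (A b : MTm S) (hA' : TransOK P c D Γ A)
    (hb' : TransOK P c D (MTm.strip A :: Γ) b) : TransOK P c D Γ (.pi A b) := by
  intro T Δ σ z r hT he hm K u hK hu
  show Real P c Δ D _
  simp only [tkc, tk]
  split_ifs with hp
  · refine real_unit h ?_ hu
    rwa [vty, if_neg (show (MTm.pi A b).cls P Γ ≠ .inl c from above_ne h hp)] at hK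
  obtain ⟨s, t, u', hA, hB, hr₀, hc⟩ :=
    (show Has P Γ (Tm.pi (MTm.strip A) (MTm.strip b)) T from hT).gen_pi
  have hu' : u' = t := h.nd.cod _ _ _ hr₀
  subst hu'
  have hcb : b.cls P (MTm.strip A :: Γ) = memC P u' := cl_type h.nd.toStrat hB
  have hcl : (MTm.pi A b).cls P Γ = memC P u' := hcb
  have hcA : A.cls P Γ = memC P s := cl_type h.nd.toStrat hA
  have hres₀ : Has P [] (vty P c D (ctxC P Γ) σ (memC P u') (Tm.srt u')) (.srt c) := by
    unfold vty
    split_ifs with hk
    · rw [val_srt]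
      obtain ⟨c', hc', hcc⟩ := (term_sort h hB (hcb.trans hk)).gen_srt
      rw [hcc.srt_inj]; exact .ax hc'
    · exact h.hD
  have hkT : (MTm.pi A b).cls P Γ = .inl c → Has P Γ T (.srt c) := fun e => term_sort h hT e
  have hV := vty_typed h ((MTm.pi A b).cls P Γ) he.wf he.sat hkT
  have hcvT : Conv (vty P c D (ctxC P Γ) σ (memC P u') (Tm.srt u'))
      (vty P c D (ctxC P Γ) σ ((MTm.pi A b).cls P Γ) T) := by
    rw [← hcl]
    refine vty_conv h (fun e => ?_) hkT hc.symm
    exact term_sort h (Has.pi hA hB hr₀) e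
  have hmA : Mode P c D Γ σ (A.cls P Γ) := by
    refine hm.mono hp fun e => ?_
    rw [hcA]
    rcases Relation.reflTransGen_iff_eq_or_transGen.1 (h.nd.nd _ _ _ hr₀) with e' | e'
    · exact .inl (by rw [e', ← hcl]; exact e)
    · refine .inr ((above_memC h.nd).2 ?_)
      rw [hcl] at e
      by_cases hex : ∃ x, P.Ax u' x
      · obtain ⟨x, hx⟩ := hex
        rw [memC_ax h.nd.toStrat hx] at e
        cases e
        obtain ⟨y, hy, hys⟩ := Relation.TransGen.head'_iff.1 e'
        rwa [← h.nd.func _ _ _ hx hy] at hys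
      · rw [memC_top fun x hx => hex ⟨x, hx⟩] at e; cases e
  obtain ⟨hVA, -, hth⟩ := real_thunk h hA' hA he hmA
  have hVA₀ : Has P [] (vty P c D (ctxC P Γ) σ (A.cls P Γ) (Tm.srt s)) (.srt c) := by
    unfold vty
    split_ifs with hk
    · rw [val_srt]
      obtain ⟨c', hc', hcc⟩ := (term_sort h hA hk).gen_srt
      rw [hcc.srt_inj]; exact .ax hc'
    · exact h.hD
  generalize vty P c D (ctxC P Γ) σ (A.cls P Γ) (Tm.srt s) = VA at hVA hVA₀ hth
  have finish : ∀ {M₀ : Tm S} {ub : UTm}, Has P [] M₀ (.srt c) → Real P c Δ M₀ ub →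
      Real P c Δ D (.app (.app (.app (.cst Tag.piT)
        (.lam (tkc P c (ctxC P Γ) A (Nat.succ ∘ r) (.var 0)))) ub) u) := by
    intro M₀ ub hM₀ hb
    have hT₀ : Has P [] (arr (comp D VA)
        (arr M₀ (comp D (vty P c D (ctxC P Γ) σ (memC P u') (Tm.srt u'))))) (.srt c) :=
      arr_typed h.rule (comp_typed h.rule h.hD hVA₀)
        (arr_typed h.rule hM₀ (comp_typed h.rule h.hD hres₀))
    have h₁ := real_app h (real_app h (h.head₀ he.wf Tag.piT hT₀) hth
      (comp_typed h.rule h.hD hVA)) hb (he.wf.weakenClosed hM₀)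
    exact real_app h (real_conv h h₁ (comp_typed h.rule h.hD hV) hcvT.comp) ⟨K, hK, hu⟩
      (arr_D h hV)
  by_cases hreal : (MTm.pi A b).cls P Γ = .inl c ∧ Poly P c ∧ TransGen P.Ax c s
  · obtain ⟨hnode, hP', hsa⟩ := hreal
    have hne : s ≠ c := h.ne_above hsa
    obtain ⟨hτ, hW, he'⟩ := he.bindType h hT.wf hA hP' hsa
    obtain ⟨hVb, hX⟩ := real_body h hb' hA hB (σ := σ) (Δ := _ :: Δ) (W := D)
      (σ' := Tm.up σ) (z := Nat.succ ∘ z) (r := r) (hW.wf.weakenClosed h.hD)
      (fun _ => h.hD) he' (fun _ => (he.sat hP').up h.scopedD hτ)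
      (fun _ => .inr (.inl (by rw [hcb, ← hcl]; exact hnode))) id (fun _ _ _ hw => hw)
    have hbt : memC P u' = .inl c := hcl.symm.trans hnode
    rw [vty, if_pos (hcb.trans hbt), val_srt] at hX
    obtain ⟨c', hc', hcc⟩ := (term_sort h hB (hcb.trans hbt)).gen_srt
    rw [← hcc.srt_inj] at hc'
    have hp₀ : Has P [] (Tm.srt u') (.srt c) := .ax hc'
    have hat : Has P [] (arr (arr (comp D D) (comp D (Tm.srt u'))) (Tm.srt u')) (.srt c) :=
      arr_typed h.rule (arr_typed h.rule (compD_closed h) (comp_typed h.rule h.hD hp₀)) hp₀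
    have hty := arr_typed h.rule hW
      (comp_typed h.rule h.hD (hW.wf.weakenClosed hp₀))
    obtain ⟨X, hX₁, hX₂⟩ := real_app h (h.head₀ hW.wf Tag.atomT hat) hX hty
    refine finish hp₀ ⟨Tm.pi (tau P c D (ctxC P Γ) σ (MTm.strip A)) X, .pi hτ hX₁ hr₀, ?_⟩
    rw [h.er_pi_drop hτ hne, hX₂]
    rfl
  · obtain ⟨t, ht₁, ht₂⟩ : ∃ t : Tm S,
        (Poly P c → TransGen P.Ax c s → Has P Δ t (tau P c D (ctxC P Γ) σ (MTm.strip A))) ∧
        Mode P c D (MTm.strip A :: Γ) (Tm.ren Nat.succ ∘ Tm.scons t σ)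
          (b.cls P (MTm.strip A :: Γ)) := by
      by_cases hn : (MTm.pi A b).cls P Γ = .inl c
      · exact ⟨D, fun hq hs => absurd ⟨hn, hq, hs⟩ hreal,
          fun _ => .inr (.inl (by rw [hcb, ← hcl]; exact hn))⟩
      · have hclosed : Poly P c → Sat P c D Γ [] σ := fun hq =>
          (hm hq).elim id fun e => e.elim (fun e => absurd e hn) fun e => absurd e hp
        obtain ⟨t, h₁, h₂⟩ := bind_closed h he.wf hclosed hA
        exact ⟨t, h₁, fun hq => .inl (h₂ Nat.succ hq)⟩
    obtain ⟨hW, he'⟩ := he.bind h hT.wf hA t ht₁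
    have hVW := vty_typed h (Γ := Γ) (T := MTm.strip A) (Sum.inl s) he.wf he.sat
      (fun e => by cases e; exact hA)
    have hW₀ : ¬ Poly P c → Has P [] (vty P c D (ctxC P Γ) σ (.inl s) (MTm.strip A)) (.srt c) :=
      fun hp' => vty_closed h σ _ (fun e => by cases e; exact hA) hp'
    obtain ⟨hVb, hX⟩ := real_body h hb' hA hB (σ := σ) hVW hW₀ he'
      (bind_sat h he hA t ht₁) ht₂ id (fun _ _ _ hw => hw)
    have eb : vty P c D (ctxC P (MTm.strip A :: Γ)) (Tm.scons t σ)
        (b.cls P (MTm.strip A :: Γ)) (Tm.srt u')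
      = vty P c D (ctxC P Γ) σ (memC P u') (Tm.srt u') := by
      rw [hcb]; simp only [vty, val_srt]
    rw [eb] at hX
    generalize vty P c D (ctxC P Γ) σ (memC P u') (Tm.srt u') = VB at hres₀ hX finish
    have hH := h.head Tag.atomT (fun W => arr (arr (comp D W) (comp D VB)) D) hVW hW₀
      (fun Δ W hW' => arr_typed h.rule (arr_typed h.rule (comp_typed h.rule h.hD hW')
        (hW'.wf.weakenClosed (comp_typed h.rule h.hD hres₀))) (hW'.wf.weakenClosed h.hD))
      (fun g V => by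
        simp only [arr_sub, comp_sub h.scopedD, h.scopedD.sub_closed, hres₀.scoped.1.sub_closed])
    have hty := arr_typed h.rule (comp_typed h.rule h.hD hVW)
      (he.wf.weakenClosed (comp_typed h.rule h.hD hres₀))
    exact finish h.hD (real_app h hH hX hty)

/-- Every typed memory term has a realized translation. -/
theorem trans_ok (N : MTm S) : ∀ Γ : List (Tm S), Good P Γ N → TransOK P c D Γ N := by
  induction N with
  | var i => intro Γ _; exact node_var h Γ i
  | srt s => intro Γ _; exact node_srt h Γ s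
  | app f a ihf iha =>
    intro Γ hg; exact node_app h Γ f a hg (ihf Γ hg.2.1) (iha Γ hg.2.2)
  | lam A b ihA ihb =>
    intro Γ hg; exact node_lam h Γ A b (ihA Γ hg.2.1) (ihb _ hg.2.2)
  | pi A b ihA ihb =>
    intro Γ hg; exact node_pi h Γ A b (ihA Γ hg.2.1) (ihb _ hg.2.2)
  | mem p q ihp ihq =>
    intro Γ hg; exact node_mem h Γ p q hg (ihp Γ hg.1) (ihq Γ hg.2.1)

end Vale.Agent.P340.St
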