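import Vale.Agent.P340.StHeads

/-!
Building blocks for showing that the translation of a typed memory term is the erasure of a
typed term of the same system.
-/

namespace Vale.Agent.P340.St

open Relation Classical

universe u
variable {S : Type u} [Inhabited S] {P : Sys S} {c : S} {D : Tm S}

/-- The translation for class `c`. -/
noncomputable abbrev tkc (P : Sys S) (c : S) :
    (ℕ → S) → MTm S → (ℕ → ℕ) → UTm → UTm :=
  tk P (fun k => k = .inl c) (fun k => Above P c k)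

/-- The translation of `N` is realized by typed terms in every environment. -/
def TransOK (P : Sys S) (c : S) (D : Tm S) (Γ : List (Tm S)) (N : MTm S) : Prop :=
  ∀ T Δ σ z r, Has P Γ (MTm.strip N) T → Env P c D Γ Δ σ z r →
    Mode P c D Γ σ (N.cls P Γ) → ∀ K u,
      Has P Δ K (arr (vty P c D (ctxC P Γ) σ (N.cls P Γ) T) D) →
      er P c (ctxC P Δ) K = u → Real P c Δ D (tkc P c (ctxC P Γ) N r u)

variable (h : Cls P c D)
include h

theorem D_ren (g : ℕ → ℕ) : Tm.ren g D = D := h.scopedD.ren_closed g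

theorem D_sh : Tm.sh D = D := h.scopedD.ren_closed Nat.succ

theorem real_app {Δ : List (Tm S)} {A B : Tm S} {uf ua : UTm} (hf : Real P c Δ (arr A B) uf)
    (ha : Real P c Δ A ua) (hA : Has P Δ A (.srt c)) :
    Real P c Δ B (.app uf ua) := by
  obtain ⟨f, hft, rfl⟩ := hf
  obtain ⟨a, hat, rfl⟩ := ha
  exact ⟨.app f a, h.app_arr hft hat, h.er_app hat hA f⟩

theorem real_lam {Δ : List (Tm S)} {A B : Tm S} {u : UTm} (hA : Has P Δ A (.srt c))
    (hB : Has P Δ B (.srt c)) (hb : Real P c (A :: Δ) (Tm.sh B) u) :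
    Real P c Δ (arr A B) (.lam u) := by
  obtain ⟨b, hbt, rfl⟩ := hb
  exact ⟨.lam A b, h.lam_arr hA hB hbt, h.er_lam hA b⟩

theorem real_conv {Δ : List (Tm S)} {A B : Tm S} {s : S} {u : UTm} (ha : Real P c Δ A u)
    (hB : Has P Δ B (.srt s)) (hc : Conv A B) : Real P c Δ B u := by
  obtain ⟨a, hat, rfl⟩ := ha
  exact ⟨a, .conv hat hB hc, rfl⟩

theorem real_var0 {Δ : List (Tm S)} {A : Tm S} {s : S} (hA : Has P Δ A (.srt s)) :
    Real P c (A :: Δ) (Tm.sh A) (.var 0) :=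
  ⟨.var 0, .var hA, rfl⟩

theorem arr_D {Δ : List (Tm S)} {V : Tm S} (hV : Has P Δ V (.srt c)) :
    Has P Δ (arr V D) (.srt c) :=
  arr_typed h.rule hV (hV.wf.weakenClosed h.hD)

theorem compD_closed : Has P [] (comp D D) (.srt c) := comp_typed h.rule h.hD h.hD

/-- A memory node in the target. -/
theorem real_mem {Δ : List (Tm S)} {V : Tm S} {ua ub : UTm} (hV : Has P Δ V (.srt c))
    (hV₀ : ¬ Poly P c → Has P [] V (.srt c)) (ha : Real P c Δ (comp D V) ua)
    (hb : Real P c Δ D ub) : Real P c Δ D (.app (.app (.cst Tag.memT) ua) ub) := by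
  have hH := h.head Tag.memT (fun V => arr (comp D V) (arr D D)) hV hV₀
    (fun Δ V hV => arr_typed h.rule (comp_typed h.rule h.hD hV)
      (arr_D h (hV.wf.weakenClosed h.hD)))
    (fun f V => by simp only [arr_sub, comp_sub h.scopedD, h.scopedD.sub_closed])
  exact real_app h (real_app h hH ha (comp_typed h.rule h.hD hV)) hb (hV.wf.weakenClosed h.hD)

theorem real_unit {Δ : List (Tm S)} {K : Tm S} {u : UTm} (hK : Has P Δ K (arr D D))
    (he : er P c (ctxC P Δ) K = u) : Real P c Δ D (.app (.cst Tag.unitT) u) := by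
  have hD' := hK.wf.weakenClosed h.hD
  exact real_app h (h.head₀ hK.wf Tag.unitT (compD_closed h)) ⟨K, hK, he⟩ (arr_D h hD')

omit h in
theorem Mode.mono {Γ : List (Tm S)} {σ : ℕ → Tm S} {k k' : Cl S} (hm : Mode P c D Γ σ k)
    (hnp : ¬ Above P c k) (hk : k = .inl c → k' = .inl c ∨ Above P c k') :
    Mode P c D Γ σ k' := by
  intro hp
  rcases hm hp with h₁ | h₁ | h₁
  · exact .inl h₁
  · exact .inr (hk h₁)
  · exact absurd h₁ hnp

theorem Mode.shift {Γ : List (Tm S)} {σ : ℕ → Tm S} {k : Cl S} (hm : Mode P c D Γ σ k)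
    (g : ℕ → ℕ) : Mode P c D Γ (Tm.ren g ∘ σ) k := by
  intro hp
  refine (hm hp).imp_left fun hs i A hA hi => ?_
  rw [tau_shift h.scopedD]
  have h₁ := hs i A hA hi
  exact h₁.ren .nil (fun j B hB => by cases hB)

theorem closedSat_bind {Γ : List (Tm S)} {σ : ℕ → Tm S} (hs : Sat P c D Γ [] σ) {A : Tm S}
    {s : S} (hA : Has P Γ A (.srt s)) (t : Tm S)
    (ht : TransGen P.Ax c s → Has P [] t (tau P c D (ctxC P Γ) σ A)) (g : ℕ → ℕ) :
    Sat P c D (A :: Γ) [] (Tm.ren g ∘ Tm.scons t σ) := by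
  have h₁ : Sat P c D (A :: Γ) [] (Tm.scons t σ) := by
    by_cases hab : TransGen P.Ax c s
    · exact hs.cons (ht hab)
    · exact hs.skip t (by rwa [cl_type h.nd.toStrat hA, bindC_memC h.nd.toStrat])
  intro i B hB hi
  rw [tau_shift h.scopedD]
  exact (h₁ i B hB hi).ren .nil (fun j C hC => by cases hC)

theorem vty_conv {Γ : List (Tm S)} {σ : ℕ → Tm S} {k : Cl S} {A B : Tm S}
    (hA : k = .inl c → Has P Γ A (.srt c)) (hB : k = .inl c → Has P Γ B (.srt c))
    (hc : Conv A B) :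
    Conv (vty P c D (ctxC P Γ) σ k A) (vty P c D (ctxC P Γ) σ k B) := by
  unfold vty
  split_ifs with hk
  · exact val_conv h σ (hA hk) (hB hk) hc
  · exact Conv.refl _

omit h in
theorem Conv.arr {A A' B B' : Tm S} (h₁ : Conv A A') (h₂ : Conv B B') :
    Conv (St.arr A B) (St.arr A' B') := by
  obtain ⟨X, hX₁, hX₂⟩ := conv_iff.1 h₁
  obtain ⟨Y, hY₁, hY₂⟩ := conv_iff.1 h₂
  exact conv_iff.2 ⟨St.arr X Y, Steps.pi hX₁ (hY₁.ren _), Steps.pi hX₂ (hY₂.ren _)⟩

omit h in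
theorem Conv.comp {A A' : Tm S} (h₁ : Conv A A') : Conv (St.comp D A) (St.comp D A') :=
  (h₁.arr (Conv.refl D)).arr (Conv.refl D)


/-- The thunk of a translated term. -/
theorem real_thunk {Γ Δ : List (Tm S)} {N : MTm S} (hN : TransOK P c D Γ N) {T : Tm S}
    {σ : ℕ → Tm S} {z r : ℕ → ℕ} (hT : Has P Γ (MTm.strip N) T) (he : Env P c D Γ Δ σ z r)
    (hm : Mode P c D Γ σ (N.cls P Γ)) :
    Has P Δ (vty P c D (ctxC P Γ) σ (N.cls P Γ) T) (.srt c) ∧
    (¬ Poly P c → Has P [] (vty P c D (ctxC P Γ) σ (N.cls P Γ) T) (.srt c)) ∧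
    Real P c Δ (comp D (vty P c D (ctxC P Γ) σ (N.cls P Γ) T))
      (.lam (tkc P c (ctxC P Γ) N (Nat.succ ∘ r) (.var 0))) := by
  have hk : N.cls P Γ = .inl c → Has P Γ T (.srt c) := fun e => term_sort h hT e
  have hV := vty_typed h (N.cls P Γ) he.wf he.sat hk
  refine ⟨hV, fun hp => vty_closed h σ _ hk hp, ?_⟩
  have hX := arr_D h hV
  refine real_lam h hX (hV.wf.weakenClosed h.hD) ?_
  rw [D_sh h]
  refine hN T _ _ _ _ hT (he.push h hT.wf hX) (hm.shift h Nat.succ) (.var 0) (.var 0) ?_ rfl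
  have := Has.var hX
  rw [vty_shift h σ _ hk]
  rwa [Tm.sh, arr_ren, D_ren h] at this

/-- The body of a translated binder. -/
theorem real_body {Γ Δ : List (Tm S)} {b : MTm S} {A B : Tm S} {s : S} {σ : ℕ → Tm S}
    {z r : ℕ → ℕ} (hb : TransOK P c D (A :: Γ) b) (hA : Has P Γ A (.srt s))
    (hB : Has P (A :: Γ) (MTm.strip b) B) {W : Tm S} {σ' : ℕ → Tm S}
    (hW : Has P Δ W (.srt c)) (hW₀ : ¬ Poly P c → Has P [] W (.srt c))
    (he : Env P c D (A :: Γ) (comp D W :: Δ) (Tm.ren Nat.succ ∘ σ') (upR z) (upR r))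
    (hσ' : Poly P c → Sat P c D (A :: Γ) Δ σ')
    (hm : Mode P c D (A :: Γ) (Tm.ren Nat.succ ∘ σ') (b.cls P (A :: Γ))) (wrapU : UTm → UTm)
    (hwrap : ∀ X u, Has P (comp D W :: Δ) X (.srt c) →
      Real P c (X :: comp D W :: Δ) D u → Real P c (X :: comp D W :: Δ) D (wrapU u)) :
    Has P Δ (vty P c D (ctxC P (A :: Γ)) σ' (b.cls P (A :: Γ)) B) (.srt c) ∧
    Real P c Δ (arr (comp D W) (comp D (vty P c D (ctxC P (A :: Γ)) σ' (b.cls P (A :: Γ)) B)))
      (.lam (.lam (wrapU (.app (.app (.cst Tag.memT) (.var 1))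
        (tkc P c (ctxC P (A :: Γ)) b (bind2 r) (.var 0)))))) := by
  have hk : b.cls P (A :: Γ) = .inl c → Has P (A :: Γ) B (.srt c) := fun e => term_sort h hB e
  have hV := vty_typed h (b.cls P (A :: Γ)) hW.wf hσ' hk
  refine ⟨hV, ?_⟩
  set V := vty P c D (ctxC P (A :: Γ)) σ' (b.cls P (A :: Γ)) B with hVdef
  have hCW := comp_typed h.rule h.hD hW
  have hV' : Has P (comp D W :: Δ) (Tm.sh V) (.srt c) := hV.sh hCW
  have hX := arr_D h hV'
  refine real_lam h hCW (comp_typed h.rule h.hD hV) ?_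
  rw [Tm.sh, comp_ren h.scopedD]
  refine real_lam h hX (hV'.wf.weakenClosed h.hD) ?_
  rw [D_sh h]
  refine hwrap _ _ hX ?_
  have he' := he.push h hB.wf hX
  refine real_mem h (V := Tm.sh (Tm.sh W)) ((hW.sh hCW).sh hX) (fun hp => ?_) ?_ ?_
  · have h₀ := hW₀ hp
    rwa [Tm.sh, Tm.sh, h₀.scoped.1.ren_closed, h₀.scoped.1.ren_closed]
  · refine ⟨.var 1, ?_, ?_⟩
    · have := (Has.var hCW).sh hX
      simpa only [Tm.sh, Tm.ren, comp_ren h.scopedD] using this
    · show UTm.var (rk c (ctxC P _) 1) = _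
      exact congrArg UTm.var ((h.rk_shift hX 0).trans rfl)
  · refine hb B _ _ (Nat.succ ∘ upR z) (bind2 r) hB ?_ (hm.shift h Nat.succ) (.var 0) (.var 0) ?_ rfl
    · rw [show bind2 r = Nat.succ ∘ upR r by funext n; cases n <;> rfl]
      exact he'
    · have := Has.var hX
      rw [vty_shift h _ _ hk, vty_shift h _ _ hk, ← hVdef]
      simpa only [Tm.sh, arr_ren, D_ren h] using this

end Vale.Agent.P340.St
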