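import Vale.Agent.P340.StMem

/-!
Nondependent stratified specifications and the translation of the types of class-`c` terms.
-/

namespace Vale.Agent.P340.St

open Relation Classical

universe u
variable {S : Type u}

/-- Nondependent: a product may only quantify over sorts at or above its own; no axiom cycles;
constants are allowed. -/
structure NonDep (P : Sys S) : Prop extends Strat P where
  nd : ∀ s t u, P.Rule s t u → ReflTransGen P.Ax t s
  acyc : ∀ s, ¬ TransGen P.Ax s s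
  cok : P.cstOK

/-- The classes strictly above `c`. -/
def Above (P : Sys S) (c : S) : Cl S → Prop
  | .inl e => TransGen P.Ax c e
  | .inr t => ReflTransGen P.Ax c t

def arr (A B : Tm S) : Tm S := Tm.pi A (Tm.sh B)

/-- Computations of a value type. -/
def comp (D V : Tm S) : Tm S := arr (arr V D) D

theorem arr_ren (A B : Tm S) (h : ℕ → ℕ) :
    Tm.ren h (arr A B) = arr (Tm.ren h A) (Tm.ren h B) := by
  simp only [arr, Tm.ren, Tm.ren_sh]

theorem arr_sub (A B : Tm S) (f : ℕ → Tm S) :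
    Tm.sub f (arr A B) = arr (Tm.sub f A) (Tm.sub f B) := by
  simp only [arr, Tm.sub, Tm.sub_up_sh]

theorem comp_ren {D : Tm S} (hD : Scoped 0 D) (V : Tm S) (h : ℕ → ℕ) :
    Tm.ren h (comp D V) = comp D (Tm.ren h V) := by
  simp only [comp, arr_ren, hD.ren_closed]

theorem comp_sub {D : Tm S} (hD : Scoped 0 D) (V : Tm S) (f : ℕ → Tm S) :
    Tm.sub f (comp D V) = comp D (Tm.sub f V) := by
  simp only [comp, arr_sub, hD.sub_closed]

variable [Inhabited S]

noncomputable def tau (P : Sys S) (c : S) (D : Tm S) : (ℕ → S) → (ℕ → Tm S) → Tm S → Tm S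
  | _, σ, .var i => σ i
  | _, _, .srt s => .srt s
  | _, _, .cst n A => .cst n (tau P c D (fun _ => default) (fun _ => D) A)
  | cs, σ, .app f a => .app (tau P c D cs σ f) (tau P c D cs σ a)
  | cs, σ, .lam A b =>
    .lam (tau P c D cs σ A) (tau P c D (cons (bindC P (cl P cs A)) cs) (Tm.up σ) b)
  | cs, σ, .pi A b =>
    if bindC P (cl P (cons (bindC P (cl P cs A)) cs) b) = c then
      if bindC P (cl P cs A) = c then
        arr (comp D (tau P c D cs σ A))
          (comp D (tau P c D (cons (bindC P (cl P cs A)) cs) (Tm.scons D σ) b))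
      else
        .pi (tau P c D cs σ A) (arr (comp D D)
          (comp D (tau P c D (cons (bindC P (cl P cs A)) cs) (Tm.up σ) b)))
    else .pi (tau P c D cs σ A) (tau P c D (cons (bindC P (cl P cs A)) cs) (Tm.up σ) b)

variable {P : Sys S} {c : S} {D : Tm S}

theorem tau_shift (hD : Scoped 0 D) (M : Tm S) : ∀ (cs : ℕ → S) (σ : ℕ → Tm S) (h : ℕ → ℕ),
    tau P c D cs (Tm.ren h ∘ σ) M = Tm.ren h (tau P c D cs σ M) := by
  induction M with
  | var i => intros; rfl
  | srt s => intros; rfl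
  | cst n A _ => intros; rfl
  | app f a ihf iha => intro cs σ h; simp only [tau, Tm.ren, ihf, iha]
  | lam A b ihA ihb =>
    intro cs σ h
    simp only [tau, Tm.ren, ihA, ← ihb, Tm.ren_up]
  | pi A b ihA ihb =>
    intro cs σ h
    have e₁ : Tm.scons D (Tm.ren h ∘ σ) = Tm.ren h ∘ Tm.scons D σ := by
      funext n; cases n with
      | zero => exact (hD.ren_closed h).symm
      | succ n => rfl
    simp only [tau]
    split_ifs
    · simp only [ihA, e₁, ihb, arr_ren, comp_ren hD]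
    · simp only [Tm.ren, ihA, arr_ren, comp_ren hD, hD.ren_closed, ← ihb, Tm.ren_up]
    · simp only [Tm.ren, ihA, ← ihb, Tm.ren_up]

theorem tau_src (M : Tm S) : ∀ (cs : ℕ → S) (σ : ℕ → Tm S) (h : ℕ → ℕ),
    tau P c D cs σ (Tm.ren h M) = tau P c D (cs ∘ h) (σ ∘ h) M := by
  induction M with
  | var i => intros; rfl
  | srt s => intros; rfl
  | cst n A _ => intros; rfl
  | app f a ihf iha => intro cs σ h; simp only [tau, Tm.ren, ihf, iha]
  | lam A b ihA ihb =>
    intro cs σ h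
    simp only [tau, Tm.ren, ihA, ihb, cl_ren, cons_upR', Tm.up_upR]
  | pi A b ihA ihb =>
    intro cs σ h
    have e : Tm.scons D σ ∘ upR h = Tm.scons D (σ ∘ h) := by funext n; cases n <;> rfl
    simp only [tau, Tm.ren, ihA, ihb, cl_ren, cons_upR', Tm.up_upR, e]
where
  cons_upR' {a : S} {cs : ℕ → S} {h : ℕ → ℕ} : cons a cs ∘ upR h = cons a (cs ∘ h) := by
    funext n; cases n <;> rfl

theorem tau_sh (hD : Scoped 0 D) (cs : ℕ → S) (σ : ℕ → Tm S) (a : S) (M : Tm S) :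
    tau P c D (cons a cs) (Tm.up σ) (Tm.sh M) = Tm.sh (tau P c D cs σ M) := by
  rw [Tm.sh, tau_src, show Tm.up σ ∘ Nat.succ = Tm.ren Nat.succ ∘ σ from rfl, tau_shift hD]
  rfl

theorem tau_scons (cs : ℕ → S) (σ : ℕ → Tm S) (a : S) (t : Tm S) (M : Tm S) :
    tau P c D (cons a cs) (Tm.scons t σ) (Tm.sh M) = tau P c D cs σ M := by
  rw [Tm.sh, tau_src]; rfl

omit [Inhabited S] in
theorem Above.trans {d : S} (h : ReflTransGen P.Ax c d) {k : Cl S} (hk : Above P d k) :
    Above P c k := by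
  cases k with
  | inl e => exact TransGen.trans_right h hk
  | inr t => exact h.trans hk

variable (hP : NonDep P)
include hP

omit [Inhabited S] in
theorem above_memC {b : S} : Above P c (memC P b) ↔ ReflTransGen P.Ax c b := by
  by_cases h : ∃ t, P.Ax b t
  · obtain ⟨t, ht⟩ := h
    have hh : ∃ t, P.Ax b t := ⟨t, ht⟩
    rw [memC, dif_pos hh, hP.func _ _ _ hh.choose_spec ht]
    constructor
    · intro hc
      obtain ⟨x, hx, hxt⟩ := TransGen.tail'_iff.1 hc
      rwa [hP.inj _ _ _ hxt ht] at hx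
    · intro hc; exact TransGen.tail' hc ht
  · rw [memC, dif_neg h]; exact Iff.rfl

theorem above_app {Γ : List (Tm S)} {f a T : Tm S} (h : Has P Γ (.app f a) T)
    (hc : Above P c (cl P (ctxC P Γ) (.app f a))) :
    Above P c (cl P (ctxC P Γ) f) ∧ Above P c (cl P (ctxC P Γ) a) := by
  obtain ⟨s, t, hr, hf, ha⟩ := app_classes hP.toStrat h
  simp only [cl] at hc
  refine ⟨hc, ?_⟩
  rw [hf] at hc
  rw [ha]
  exact TransGen.trans_left hc (hP.nd _ _ _ hr)

theorem above_lam {Γ : List (Tm S)} {A b T : Tm S} (h : Has P Γ (.lam A b) T)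
    (hc : Above P c (cl P (ctxC P Γ) (.lam A b))) :
    Above P c (cl P (ctxC P Γ) A) ∧ Above P c (cl P (ctxC P (A :: Γ)) b) ∧
      TransGen P.Ax c (bindC P (cl P (ctxC P Γ) A)) := by
  obtain ⟨B, u, hb, hpi, -⟩ := h.gen_lam
  obtain ⟨s, t, u', hA, hB, hr, -⟩ := hpi.gen_pi
  have hc' : Above P c (cl P (ctxC P (A :: Γ)) b) := hc
  rw [cl_term hP.toStrat hb hB] at hc'
  have hs : TransGen P.Ax c s := TransGen.trans_left hc' (hP.nd _ _ _ hr)
  refine ⟨?_, hc, ?_⟩
  · rw [cl_type hP.toStrat hA, above_memC hP]; exact hs.to_reflTransGen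
  · rw [cl_type hP.toStrat hA, bindC_memC hP.toStrat]; exact hs

theorem above_pi {Γ : List (Tm S)} {A b T : Tm S} (h : Has P Γ (.pi A b) T)
    (hc : Above P c (cl P (ctxC P Γ) (.pi A b))) :
    ∃ s t, Has P Γ A (.srt s) ∧ Has P (A :: Γ) b (.srt t) ∧ P.Rule s t t ∧
      ReflTransGen P.Ax c t ∧ ReflTransGen P.Ax c s ∧
      bindC P (cl P (ctxC P Γ) A) = s ∧ bindC P (cl P (ctxC P (A :: Γ)) b) = t ∧
      Above P c (cl P (ctxC P Γ) A) ∧ Above P c (cl P (ctxC P (A :: Γ)) b) := by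
  obtain ⟨s, t, u, hA, hB, hr, -⟩ := h.gen_pi
  have hc' : Above P c (cl P (ctxC P (A :: Γ)) b) := hc
  have ht : ReflTransGen P.Ax c t := by rwa [cl_type hP.toStrat hB, above_memC hP] at hc'
  have hs : ReflTransGen P.Ax c s := ht.trans (hP.nd _ _ _ hr)
  exact ⟨s, t, hA, hB, by rwa [hP.cod _ _ _ hr] at hr, ht, hs,
    by rw [cl_type hP.toStrat hA, bindC_memC hP.toStrat],
    by rw [cl_type hP.toStrat hB, bindC_memC hP.toStrat],
    by rw [cl_type hP.toStrat hA, above_memC hP]; exact hs, hc'⟩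

/-- The translation commutes with substitution. -/
theorem tau_sub (hD : Scoped 0 D) (M : Tm S) : ∀ (Γ : List (Tm S)) (T : Tm S) (cs' : ℕ → S)
    (f : ℕ → Tm S) (σ σ' : ℕ → Tm S), Has P Γ M T → Above P c (cl P (ctxC P Γ) M) →
    (∀ i, cl P cs' (f i) = .inl (ctxC P Γ i)) →
    (∀ i, TransGen P.Ax c (ctxC P Γ i) → tau P c D cs' σ' (f i) = σ i) →
    tau P c D cs' σ' (Tm.sub f M) = tau P c D (ctxC P Γ) σ M := by
  have upc : ∀ (Γ : List (Tm S)) (A : Tm S) (cs' : ℕ → S) (f : ℕ → Tm S),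
      (∀ i, cl P cs' (f i) = .inl (ctxC P Γ i)) →
      ∀ i, cl P (cons (bindC P (cl P (ctxC P Γ) A)) cs') (Tm.up f i)
        = .inl (ctxC P (A :: Γ) i) := by
    intro Γ A cs' f hf i
    cases i with
    | zero => rfl
    | succ i => rw [Tm.up_succ, ← Tm.sh, cl_sh]; exact hf i
  have upt : ∀ (Γ : List (Tm S)) (A : Tm S) (cs' : ℕ → S) (f σ σ' : ℕ → Tm S),
      (∀ i, TransGen P.Ax c (ctxC P Γ i) → tau P c D cs' σ' (f i) = σ i) →
      ∀ i, TransGen P.Ax c (ctxC P (A :: Γ) i) →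
        tau P c D (cons (bindC P (cl P (ctxC P Γ) A)) cs') (Tm.up σ') (Tm.up f i)
          = Tm.up σ i := by
    intro Γ A cs' f σ σ' hf i hi
    cases i with
    | zero => rfl
    | succ i =>
      rw [Tm.up_succ, ← Tm.sh, tau_sh hD, hf i hi]
      rfl
  induction M with
  | var i => intro Γ T cs' f σ σ' _ ha _ hf; exact hf i ha
  | srt s => intros; rfl
  | cst n A _ => intros; rfl
  | app p q ihp ihq =>
    intro Γ T cs' f σ σ' h ha hc hf
    obtain ⟨h₁, h₂⟩ := above_app hP h ha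
    obtain ⟨X, Y, hp, hq, -⟩ := h.gen_app
    simp only [Tm.sub, tau, ihp Γ _ cs' f σ σ' hp h₁ hc hf, ihq Γ _ cs' f σ σ' hq h₂ hc hf]
  | lam A b ihA ihb =>
    intro Γ T cs' f σ σ' h ha hc hf
    obtain ⟨h₁, h₂, -⟩ := above_lam hP h ha
    obtain ⟨B, u, hb, hpi, -⟩ := h.gen_lam
    obtain ⟨s, t, u', hA, -, -, -⟩ := hpi.gen_pi
    simp only [Tm.sub, tau, ihA Γ _ cs' f σ σ' hA h₁ hc hf, cl_sub A _ _ _ hc]
    rw [ihb (A :: Γ) _ _ _ (Tm.up σ) _ hb h₂ (upc Γ A cs' f hc) (upt Γ A cs' f σ σ' hf)]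
    rfl
  | pi A b ihA ihb =>
    intro Γ T cs' f σ σ' h ha hc hf
    obtain ⟨s, t, hA, hB, -, -, -, hbs, -, h₁, h₂⟩ := above_pi hP h ha
    have e₁ : cl P (cons (bindC P (cl P (ctxC P Γ) A)) cs') (Tm.sub (Tm.up f) b)
        = cl P (ctxC P (A :: Γ)) b := cl_sub b _ _ _ (upc Γ A cs' f hc)
    simp only [Tm.sub, tau, cl_sub A _ _ _ hc, ihA Γ _ cs' f σ σ' hA h₁ hc hf, e₁]
    rw [ihb (A :: Γ) _ _ _ (Tm.up σ) _ hB h₂ (upc Γ A cs' f hc) (upt Γ A cs' f σ σ' hf)]
    by_cases hd : bindC P (cl P (cons (bindC P (cl P (ctxC P Γ) A)) (ctxC P Γ)) b) = c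
    · by_cases hb : bindC P (cl P (ctxC P Γ) A) = c
      · rw [ihb (A :: Γ) _ _ _ (Tm.scons D σ) (Tm.scons D σ') hB h₂ (upc Γ A cs' f hc) (by
          rintro (_ | i) hi
          · exact absurd (show TransGen P.Ax c c from hb ▸ hi) (hP.acyc c)
          · rw [Tm.up_succ, ← Tm.sh, tau_scons]; exact hf i hi)]
        rfl
      · rw [if_pos hd, if_neg hb]
        simp only [show cl P (ctxC P (A :: Γ)) b
          = cl P (cons (bindC P (cl P (ctxC P Γ) A)) (ctxC P Γ)) b from rfl, if_pos hd, if_neg hb]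
        rfl
    · simp only [show cl P (ctxC P (A :: Γ)) b
          = cl P (cons (bindC P (cl P (ctxC P Γ) A)) (ctxC P Γ)) b from rfl, if_neg hd]
      rfl

/-- Substitution of one variable. -/
theorem tau_inst (hD : Scoped 0 D) {Γ : List (Tm S)} {A B N T : Tm S} {s : S}
    (hB : Has P (A :: Γ) B T) (ha : Above P c (cl P (ctxC P (A :: Γ)) B))
    (hN : Has P Γ N A) (hA : Has P Γ A (.srt s)) (σ : ℕ → Tm S) :
    tau P c D (ctxC P Γ) σ (Tm.inst B N) =
      tau P c D (ctxC P (A :: Γ)) (Tm.scons (tau P c D (ctxC P Γ) σ N) σ) B := by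
  refine tau_sub hP hD B (A :: Γ) T _ _ _ _ hB ha ?_ ?_
  · rintro (_ | i)
    · rw [ctxC_cons hP.toStrat hA]; exact cl_term hP.toStrat hN hA
    · rfl
  · rintro (_ | i) _
    · rfl
    · rfl

theorem tau_congr (hD : Scoped 0 D) {Γ : List (Tm S)} {M T : Tm S} (h : Has P Γ M T)
    (ha : Above P c (cl P (ctxC P Γ) M)) {σ σ' : ℕ → Tm S}
    (hs : ∀ i, TransGen P.Ax c (ctxC P Γ i) → σ i = σ' i) :
    tau P c D (ctxC P Γ) σ M = tau P c D (ctxC P Γ) σ' M := by
  have := tau_sub hP hD M Γ T (ctxC P Γ) Tm.var σ' σ h ha (fun i => rfl) hs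
  rwa [Tm.sub_var] at this

theorem tau_scope (hD : Scoped 0 D) (M : Tm S) : ∀ (Γ : List (Tm S)) (T : Tm S)
    (σ : ℕ → Tm S) (g : ℕ → Tm S), Has P Γ M T → Above P c (cl P (ctxC P Γ) M) →
    tau P c D (ctxC P Γ) (Tm.sub g ∘ σ) M = Tm.sub g (tau P c D (ctxC P Γ) σ M) := by
  induction M with
  | var i => intros; rfl
  | srt s => intros; rfl
  | cst n A _ => intros; rfl
  | app p q ihp ihq =>
    intro Γ T σ g h ha
    obtain ⟨h₁, h₂⟩ := above_app hP h ha
    obtain ⟨X, Y, hp, hq, -⟩ := h.gen_app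
    simp only [tau, Tm.sub, ihp Γ _ σ g hp h₁, ihq Γ _ σ g hq h₂]
  | lam A b ihA ihb =>
    intro Γ T σ g h ha
    obtain ⟨h₁, h₂, -⟩ := above_lam hP h ha
    obtain ⟨B, u, hb, hpi, -⟩ := h.gen_lam
    obtain ⟨s, t, u', hA, -, -, -⟩ := hpi.gen_pi
    simp only [tau, Tm.sub, ihA Γ _ σ g hA h₁, ← Tm.sub_up]
    exact congrArg _ (ihb (A :: Γ) _ _ _ hb h₂)
  | pi A b ihA ihb =>
    intro Γ T σ g h ha
    obtain ⟨s, t, hA, hB, -, -, -, -, -, h₁, h₂⟩ := above_pi hP h ha
    have e₁ : Tm.scons D (Tm.sub g ∘ σ) = Tm.sub g ∘ Tm.scons D σ := by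
      funext n; cases n with
      | zero => exact (hD.sub_closed g).symm
      | succ n => rfl
    have hb := fun σ g => ihb (A :: Γ) _ σ g hB h₂
    simp only [ctxC] at hb
    simp only [tau]
    split_ifs
    · simp only [ihA Γ _ σ g hA h₁, e₁, hb, arr_sub, comp_sub hD]
    · simp only [Tm.sub, ihA Γ _ σ g hA h₁, arr_sub, comp_sub hD, hD.sub_closed, ← Tm.sub_up, hb]
    · simp only [Tm.sub, ihA Γ _ σ g hA h₁, ← Tm.sub_up, hb]

/-- The translation preserves reduction. -/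
theorem tau_step (hD : Scoped 0 D) {M N : Tm S} (hs : Step M N) :
    ∀ {Γ : List (Tm S)} {T : Tm S} (σ : ℕ → Tm S), Has P Γ M T →
      Above P c (cl P (ctxC P Γ) M) →
      Steps (tau P c D (ctxC P Γ) σ M) (tau P c D (ctxC P Γ) σ N) := by
  induction hs with
  | beta A M N =>
    intro Γ T σ h ha
    obtain ⟨hf, -⟩ := above_app hP h ha
    obtain ⟨h₁, h₂, -⟩ := above_lam hP (h.gen_app.choose_spec.choose_spec.1) hf
    obtain ⟨s, t, hA, hN, -, -, -, -⟩ := redex_classes hP.toStrat h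
    obtain ⟨X, Y, hl, -, -⟩ := h.gen_app
    obtain ⟨B, u, hM, -, -⟩ := hl.gen_lam
    simp only [tau]
    refine .single ?_
    have hb := Step.beta (tau P c D (ctxC P Γ) σ A)
      (tau P c D (ctxC P (A :: Γ)) (Tm.up σ) M) (tau P c D (ctxC P Γ) σ N)
    convert hb using 1
    · rfl
    · rw [tau_inst hP hD hM h₂ hN hA, Tm.inst, ← tau_scope hP hD M _ _ _ _ hM h₂]
      congr 1
      funext i
      cases i with
      | zero => rfl
      | succ i => simp only [Function.comp, Tm.up_succ, Tm.sub_ren]; exact (Tm.sub_var _).symm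
  | @appL M M' N hM ih =>
    intro Γ T σ h ha
    obtain ⟨h₁, -⟩ := above_app hP h ha
    obtain ⟨X, Y, hp, -, -⟩ := h.gen_app
    exact Steps.app (ih σ hp h₁) .refl
  | @appR M N N' hN ih =>
    intro Γ T σ h ha
    obtain ⟨-, h₂⟩ := above_app hP h ha
    obtain ⟨X, Y, -, hq, -⟩ := h.gen_app
    exact Steps.app .refl (ih σ hq h₂)
  | @lamL A A' M hA ih =>
    intro Γ T σ h ha
    obtain ⟨h₁, -, -⟩ := above_lam hP h ha
    obtain ⟨B, u, hb, hpi, -⟩ := h.gen_lam
    obtain ⟨s, t, u', hA', -, -, -⟩ := hpi.gen_pi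
    simp only [tau, cl_steps hP.toStrat hA' (.single hA)]
    exact Steps.lam (ih σ hA' h₁) .refl
  | @lamR A M M' hM ih =>
    intro Γ T σ h ha
    obtain ⟨-, h₂, -⟩ := above_lam hP h ha
    obtain ⟨B, u, hb, -, -⟩ := h.gen_lam
    simp only [tau]
    exact Steps.lam .refl (ih (Tm.up σ) hb h₂)
  | @piL A A' B hA ih =>
    intro Γ T σ h ha
    obtain ⟨s, t, hA', -, -, -, -, -, -, h₁, -⟩ := above_pi hP h ha
    have := ih σ hA' h₁
    simp only [tau, cl_steps hP.toStrat hA' (.single hA)]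
    split_ifs
    · exact Steps.pi (Steps.pi (Steps.pi this .refl) .refl) .refl
    · exact Steps.pi this .refl
    · exact Steps.pi this .refl
  | @piR A B B' hB ih =>
    intro Γ T σ h ha
    obtain ⟨s, t, -, hB', -, -, -, -, -, -, h₂⟩ := above_pi hP h ha
    have e := cl_steps hP.toStrat hB' (.single hB)
    simp only [ctxC] at e
    simp only [tau, e]
    split_ifs
    · refine Steps.pi .refl (Steps.ren ?_ _)
      exact Steps.pi (Steps.pi (ih _ hB' h₂) .refl) .refl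
    · refine Steps.pi .refl (Steps.pi .refl (Steps.ren ?_ _))
      exact Steps.pi (Steps.pi (ih _ hB' h₂) .refl) .refl
    · exact Steps.pi .refl (ih _ hB' h₂)

theorem tau_steps (hD : Scoped 0 D) {Γ : List (Tm S)} {M N T : Tm S} (σ : ℕ → Tm S)
    (h : Has P Γ M T) (ha : Above P c (cl P (ctxC P Γ) M)) (hs : Steps M N) :
    Steps (tau P c D (ctxC P Γ) σ M) (tau P c D (ctxC P Γ) σ N) := by
  induction hs with
  | refl => exact .refl
  | tail h₁ h₂ ih =>
    exact ih.trans (tau_step hP hD h₂ (Γ := Γ) σ (h.steps h₁)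
      (by rw [cl_steps hP.toStrat h h₁]; exact ha))

theorem tau_conv (hD : Scoped 0 D) {Γ : List (Tm S)} {M N T T' : Tm S} (σ : ℕ → Tm S)
    (h : Has P Γ M T) (h' : Has P Γ N T') (ha : Above P c (cl P (ctxC P Γ) M))
    (hc : Conv M N) : Conv (tau P c D (ctxC P Γ) σ M) (tau P c D (ctxC P Γ) σ N) := by
  obtain ⟨C, h₁, h₂⟩ := conv_iff.1 hc
  have ha' : Above P c (cl P (ctxC P Γ) N) := by
    rw [← cl_steps hP.toStrat h' h₂, cl_steps hP.toStrat h h₁]; exact ha
  exact conv_iff.2 ⟨_, tau_steps hP hD σ h ha h₁, tau_steps hP hD σ h' ha' h₂⟩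

end Vale.Agent.P340.St
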