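import Vale.Agent.P340.StTau

/-!
Typing of the translated types.
-/

namespace Vale.Agent.P340.St

open Relation Classical

universe u
variable {S : Type u} [Inhabited S] {P : Sys S} {c : S} {D : Tm S}

theorem arr_typed {Γ : List (Tm S)} {A B : Tm S} {s : S} (hr : P.Rule s c c)
    (hA : Has P Γ A (.srt s)) (hB : Has P Γ B (.srt c)) : Has P Γ (arr A B) (.srt c) :=
  .pi hA (hB.sh hA) hr

theorem comp_typed (hr : P.Rule c c c) (hD : Has P [] D (.srt c)) {Γ : List (Tm S)} {V : Tm S}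
    (hV : Has P Γ V (.srt c)) : Has P Γ (comp D V) (.srt c) :=
  arr_typed hr (arr_typed hr hV (hV.wf.weakenClosed hD)) (hV.wf.weakenClosed hD)

theorem tau_scoped (M : Tm S) : ∀ (n : ℕ), Scoped n M → ∀ (cs : ℕ → S) (σ σ' : ℕ → Tm S),
    (∀ i, i < n → σ i = σ' i) → tau P c D cs σ M = tau P c D cs σ' M := by
  induction M with
  | var i => intro n h cs σ σ' hs; exact hs i h
  | srt s => intros; rfl
  | cst n A _ => intros; rfl
  | app f a ihf iha =>
    intro n h cs σ σ' hs; simp only [tau, ihf n h.1 cs σ σ' hs, iha n h.2 cs σ σ' hs]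
  | lam A b ihA ihb =>
    intro n h cs σ σ' hs
    have hb := fun cs => ihb (n + 1) h.2 cs (Tm.up σ) (Tm.up σ') (by
      rintro (_ | i) hi
      · rfl
      · simp [hs i (by omega)])
    simp only [tau, ihA n h.1 cs σ σ' hs, hb]
  | pi A b ihA ihb =>
    intro n h cs σ σ' hs
    have hb := fun cs => ihb (n + 1) h.2 cs (Tm.up σ) (Tm.up σ') (by
      rintro (_ | i) hi
      · rfl
      · simp [hs i (by omega)])
    have hb' := fun cs => ihb (n + 1) h.2 cs (Tm.scons D σ) (Tm.scons D σ') (by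
      rintro (_ | i) hi
      · rfl
      · simp [hs i (by omega)])
    simp only [tau, ihA n h.1 cs σ σ' hs, hb, hb']

/-- The valuation types every variable of a class above `c`. -/
def Sat (P : Sys S) (c : S) (D : Tm S) (Γ Δ : List (Tm S)) (σ : ℕ → Tm S) : Prop :=
  ∀ i A, At Γ i A → TransGen P.Ax c (ctxC P Γ i) → Has P Δ (σ i) (tau P c D (ctxC P Γ) σ A)

theorem Sat.tail {Γ Δ : List (Tm S)} {σ : ℕ → Tm S} {A : Tm S}
    (h : Sat P c D (A :: Γ) Δ σ) : Sat P c D Γ Δ (σ ∘ Nat.succ) := by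
  intro i B hB hi
  have := h _ _ (hB.succ A) hi
  rwa [Tm.sh, tau_src] at this

theorem Sat.up (hD : Scoped 0 D) {Γ Δ : List (Tm S)} {σ : ℕ → Tm S} {A : Tm S} {s : S}
    (h : Sat P c D Γ Δ σ) (hA : Has P Δ (tau P c D (ctxC P Γ) σ A) (.srt s)) :
    Sat P c D (A :: Γ) (tau P c D (ctxC P Γ) σ A :: Δ) (Tm.up σ) := by
  intro i B hB hi
  cases hB with
  | zero => simp only [ctxC, tau_sh hD]; exact .var hA
  | succ _ hB =>
    simp only [ctxC, tau_sh hD]
    exact (h _ _ hB hi).sh hA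

/-- Extending a valuation at a variable whose class is not above `c`. -/
theorem Sat.skip {Γ Δ : List (Tm S)} {σ : ℕ → Tm S} {A : Tm S} (t : Tm S)
    (h : Sat P c D Γ Δ σ) (hA : ¬ TransGen P.Ax c (bindC P (cl P (ctxC P Γ) A))) :
    Sat P c D (A :: Γ) Δ (Tm.scons t σ) := by
  intro i B hB hi
  cases hB with
  | zero => exact absurd hi hA
  | succ _ hB =>
    simp only [ctxC, tau_scons]
    exact h _ _ hB hi

/-- Extending a valuation by a value of the translated type. -/
theorem Sat.cons {Γ Δ : List (Tm S)} {σ : ℕ → Tm S} {A t : Tm S}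
    (h : Sat P c D Γ Δ σ) (ht : Has P Δ t (tau P c D (ctxC P Γ) σ A)) :
    Sat P c D (A :: Γ) Δ (Tm.scons t σ) := by
  intro i B hB hi
  cases hB with
  | zero => simp only [ctxC, tau_scons]; exact ht
  | succ _ hB =>
    simp only [ctxC, tau_scons]
    exact h _ _ hB hi

theorem Sat.weak (hD : Scoped 0 D) {Γ Δ : List (Tm S)} {σ : ℕ → Tm S} {A : Tm S} {s : S}
    (h : Sat P c D Γ Δ σ) (hA : Has P Δ A (.srt s)) :
    Sat P c D Γ (A :: Δ) (Tm.ren Nat.succ ∘ σ) := by
  intro i B hB hi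
  rw [tau_shift hD]
  exact (h _ _ hB hi).sh hA

variable (hP : NonDep P)
include hP

theorem tau_typed (hr : P.Rule c c c) (hD : Has P [] D (.srt c))
    {Γ : List (Tm S)} {M T : Tm S} (h : Has P Γ M T) :
    ∀ {Δ : List (Tm S)} {σ : ℕ → Tm S}, Wf P Δ → Sat P c D Γ Δ σ →
      Above P c (cl P (ctxC P Γ) M) →
      Has P Δ (tau P c D (ctxC P Γ) σ M) (tau P c D (ctxC P Γ) σ T) := by
  have hDc : Scoped 0 D := hD.scoped.1
  induction h with
  | ax ha => intro Δ σ hw _ _; exact hw.weakenClosed (.ax ha)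
  | @cst A s n hok hA ih =>
    intro Δ σ hw hs ha
    have hA' : Above P c (cl P (ctxC P []) A) := by
      rw [cl_type hP.toStrat hA, above_memC hP]
      have := cl_term hP.toStrat (Has.cst n hok hA) hA
      rw [this] at ha
      exact ha.to_reflTransGen
    have key := ih (Δ := []) (σ := fun _ => D) .nil (fun i B hB _ => by cases hB) hA'
    have e : tau P c D (ctxC P []) σ A = tau P c D (ctxC P []) (fun _ => D) A :=
      tau_scoped A 0 hA.scoped.1 _ _ _ (fun i hi => absurd hi (by omega))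
    rw [e]
    exact hw.weakenClosed (.cst n hok key)
  | @var Γ A s hA _ =>
    intro Δ σ hw hs ha
    exact hs _ _ (.zero A Γ) ha
  | @weak Γ M B A s hM hA ihM _ =>
    intro Δ σ hw hs ha
    simp only [Tm.sh, tau_src] at ha ⊢
    rw [cl_ren] at ha
    exact ihM hw hs.tail ha
  | @pi Γ A B s t u hA hB hr' ihA ihB =>
    intro Δ σ hw hs ha
    obtain ⟨s', t', hA', hB', -, hct, hcs, hbs, hbt, h₁, h₂⟩ :=
      above_pi hP (Has.pi hA hB hr') ha
    cases uniq_sort hP.toStrat hA hA'
    cases uniq_sort hP.toStrat hB hB'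
    have hut : u = t := hP.cod _ _ _ hr'
    have hA'' : Has P Δ (tau P c D (ctxC P Γ) σ A) (.srt s) := ihA hw hs h₁
    simp only [tau]
    rw [show bindC P (cl P (cons (bindC P (cl P (ctxC P Γ) A)) (ctxC P Γ)) B) = t from hbt,
      hbs]
    split_ifs with hd hb
    · subst hut hd hb
      have hns : ¬ TransGen P.Ax s (bindC P (cl P (ctxC P Γ) A)) := by
        rw [hbs]; exact hP.acyc _
      have hB'' := ihB hw (hs.skip D hns) h₂
      simp only [ctxC, hbs] at hB''
      exact arr_typed hr (comp_typed hr hD hA'') (comp_typed hr hD hB'')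
    · subst hut hd
      have hB'' := ihB (.cons hw hA'') (hs.up hDc hA'') h₂
      simp only [ctxC, hbs] at hB''
      refine .pi hA'' (arr_typed hr (comp_typed hr hD (Has.wf hB'' |>.weakenClosed hD))
        (comp_typed hr hD hB'')) hr'
    · have hB'' := ihB (.cons hw hA'') (hs.up hDc hA'') h₂
      simp only [ctxC, hbs] at hB''
      exact .pi hA'' hB'' hr'
  | @lam Γ A B M s hM hPi ihM ihP =>
    intro Δ σ hw hs ha
    have hl := Has.lam hM hPi
    obtain ⟨h₁, h₂, hb⟩ := above_lam hP hl ha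
    obtain ⟨sA, t, u, hA, hB, hru, hcu⟩ := hPi.gen_pi
    have hst : s = t := by rw [hcu.srt_inj, hP.cod _ _ _ hru]
    have hcls : cl P (ctxC P (A :: Γ)) M = .inl t := cl_term hP.toStrat hM hB
    have hct : TransGen P.Ax c t := by rw [hcls] at h₂; exact h₂
    have haPi : Above P c (cl P (ctxC P Γ) (Tm.pi A B)) := by
      rw [cl_type hP.toStrat hPi, above_memC hP, hst]; exact hct.to_reflTransGen
    have hPi' := ihP hw hs haPi
    obtain ⟨s', t', -, -, -, -, -, hbs, hbt, -, -⟩ := above_pi hP hPi haPi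
    simp only [tau] at hPi' ⊢
    have htc : bindC P (cl P (cons (bindC P (cl P (ctxC P Γ) A)) (ctxC P Γ)) B) ≠ c := by
      show bindC P (cl P (ctxC P (A :: Γ)) B) ≠ c
      rw [cl_type hP.toStrat hB, bindC_memC hP.toStrat]
      rintro rfl
      exact hP.acyc _ hct
    rw [if_neg htc] at hPi' ⊢
    obtain ⟨x, -, -, hA'', -, -, -⟩ := hPi'.gen_pi
    exact .lam (ihM (.cons hw hA'') (hs.up hDc hA'') h₂) hPi'
  | @app Γ A B M N hM hN ihM ihN =>
    intro Δ σ hw hs ha
    obtain ⟨h₁, h₂⟩ := above_app hP (Has.app hM hN) ha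
    rcases hM.correct with ⟨u, hu⟩ | ⟨u, e⟩
    swap
    · cases e
    obtain ⟨sA, t, u', hA, hB, hru, hcu⟩ := hu.gen_pi
    have hut : u = t := by rw [hcu.srt_inj, hP.cod _ _ _ hru]
    have hct : TransGen P.Ax c t := by
      rw [cl_term hP.toStrat hM hu, hut] at h₁; exact h₁
    have h₃ : Above P c (cl P (ctxC P (A :: Γ)) B) := by
      rw [cl_type hP.toStrat hB, above_memC hP]; exact hct.to_reflTransGen
    have hM' := ihM hw hs h₁
    have hN' := ihN hw hs h₂
    simp only [tau] at hM' ⊢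
    have htc : bindC P (cl P (cons (bindC P (cl P (ctxC P Γ) A)) (ctxC P Γ)) B) ≠ c := by
      show bindC P (cl P (ctxC P (A :: Γ)) B) ≠ c
      rw [cl_type hP.toStrat hB, bindC_memC hP.toStrat]
      rintro rfl
      exact hP.acyc _ hct
    rw [if_neg htc] at hM'
    rw [tau_inst hP hDc hB h₃ hN hA]
    have := Has.app hM' hN'
    rw [show Tm.inst (tau P c D (cons (bindC P (cl P (ctxC P Γ) A)) (ctxC P Γ)) (Tm.up σ) B)
        (tau P c D (ctxC P Γ) σ N)
      = tau P c D (ctxC P (A :: Γ)) (Tm.scons (tau P c D (ctxC P Γ) σ N) σ) B by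
      rw [Tm.inst]
      show Tm.sub _ (tau P c D (ctxC P (A :: Γ)) (Tm.up σ) B) = _
      rw [← tau_scope hP hDc B _ _ _ _ hB h₃]
      congr 1
      funext i
      cases i with
      | zero => rfl
      | succ i => simp only [Function.comp, Tm.up_succ, Tm.sub_ren]; exact Tm.sub_var _] at this
    exact this
  | @conv Γ M A B s hM hB hc ihM ihB =>
    intro Δ σ hw hs ha
    have hcs : cl P (ctxC P Γ) M = .inl s := cl_term hP.toStrat (Has.conv hM hB hc) hB
    have haB : Above P c (cl P (ctxC P Γ) B) := by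
      rw [cl_type hP.toStrat hB, above_memC hP]
      rw [hcs] at ha
      exact ha.to_reflTransGen
    refine .conv (ihM hw hs ha) (ihB hw hs haB) ?_
    rcases hM.correct with ⟨s', hA⟩ | ⟨s', rfl⟩
    · exact (tau_conv hP hDc σ hB hA haB hc.symm).symm
    · obtain ⟨C, h₁, h₂⟩ := conv_iff.1 hc
      rw [h₁.srt_inv] at h₂
      exact (Conv.of_steps (tau_steps hP hDc σ hB haB h₂)).symm

end Vale.Agent.P340.St
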