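import Vale.Agent.P340.StTauTyped

/-!
Value types of class-`c` terms: the translation of types when `c` is quantifiable by its own
types, and otherwise the simple skeleton of the normal form.
-/

namespace Vale.Agent.P340.St

open Relation Classical

universe u
variable {S : Type u}

def NormalTm (M : Tm S) : Prop := ∀ N, ¬ Step M N

noncomputable def nf (M : Tm S) : Tm S :=
  if h : ∃ N, Steps M N ∧ NormalTm N then h.choose else M

theorem NormalTm.steps_eq {M N : Tm S} (h : NormalTm M) (hs : Steps M N) : N = M := by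
  induction hs with
  | refl => rfl
  | tail _ hs ih => subst ih; exact absurd hs (h _)

theorem NormalTm.conv_eq {M N : Tm S} (hM : NormalTm M) (hN : NormalTm N) (hc : Conv M N) :
    M = N := by
  obtain ⟨C, h₁, h₂⟩ := conv_iff.1 hc
  rw [← hM.steps_eq h₁, hN.steps_eq h₂]

/-- Terms whose head is a variable or a constant. -/
inductive Stuck : Tm S → Prop where
  | var (i : ℕ) : Stuck (.var i)
  | cst (n : ℕ) (A : Tm S) : Stuck (.cst n A)
  | app {f : Tm S} (a : Tm S) : Stuck f → Stuck (.app f a)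

theorem Stuck.step {M N : Tm S} (h : Stuck M) : Step M N → Stuck N := by
  induction h generalizing N with
  | var => intro h; cases h
  | cst => intro h; cases h
  | app a hf ih =>
    intro h
    cases h with
    | beta => cases hf
    | appL _ h => exact .app _ (ih h)
    | appR _ h => exact .app _ hf

theorem Stuck.steps {M N : Tm S} (h : Stuck M) (hs : Steps M N) : Stuck N := by
  induction hs with
  | refl => exact h
  | tail _ hs ih => exact ih.step hs

variable [Inhabited S]

/-- The simple skeleton of a normal type of sort `c`. -/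
noncomputable def skel (P : Sys S) (c : S) (D : Tm S) : (ℕ → S) → Tm S → Tm S
  | _, .srt s => .srt s
  | cs, .pi A b =>
    if bindC P (cl P cs A) = c then
      arr (comp D (skel P c D cs A)) (comp D (skel P c D (cons (bindC P (cl P cs A)) cs) b))
    else arr (comp D D) (comp D (skel P c D (cons (bindC P (cl P cs A)) cs) b))
  | _, .var _ => D
  | _, .cst _ _ => D
  | _, .app _ _ => D
  | _, .lam _ _ => D

/-- The data of one class `c` with the rule `(c,c)`. -/
structure Cls (P : Sys S) (c : S) (D : Tm S) : Prop where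
  nd : NonDep P
  rule : P.Rule c c c
  hD : Has P [] D (.srt c)
  wn : ∀ Γ M A, Has P Γ M A → ∃ N, Steps M N ∧ NormalTm N

/-- Can class `c` quantify over its own types? -/
def Poly (P : Sys S) (c : S) : Prop := ∃ c', P.Ax c c' ∧ P.Rule c' c c

/-- The value type of a class-`c` type `A`. -/
noncomputable def val (P : Sys S) (c : S) (D : Tm S) (cs : ℕ → S) (σ : ℕ → Tm S) (A : Tm S) :
    Tm S :=
  if Poly P c then tau P c D cs σ A else skel P c D cs (nf A)

variable {P : Sys S} {c : S} {D : Tm S}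

theorem Cls.nf_spec (h : Cls P c D) {Γ : List (Tm S)} {M A : Tm S} (hM : Has P Γ M A) :
    Steps M (nf M) ∧ NormalTm (nf M) := by
  have := h.wn Γ M A hM
  rw [nf, dif_pos this]
  exact this.choose_spec

theorem Cls.nf_conv (h : Cls P c D) {Γ : List (Tm S)} {M N A B : Tm S} (hM : Has P Γ M A)
    (hN : Has P Γ N B) (hc : Conv M N) : nf M = nf N :=
  (h.nf_spec hM).2.conv_eq (h.nf_spec hN).2
    (((Conv.of_steps (h.nf_spec hM).1).symm.trans hc).trans (Conv.of_steps (h.nf_spec hN).1))

variable (h : Cls P c D)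
include h

theorem Cls.scopedD : Scoped 0 D := h.hD.scoped.1

theorem Cls.ne_above {s : S} (hs : TransGen P.Ax c s) : s ≠ c := by
  rintro rfl; exact h.nd.acyc _ hs

theorem Cls.memC_ne : memC P c ≠ .inl c := by
  by_cases hc : ∃ t, P.Ax c t
  · obtain ⟨t, ht⟩ := hc
    rw [memC_ax h.nd.toStrat ht]
    intro e
    exact h.ne_above (.single ht) (Sum.inl.inj e)
  · rw [memC_top fun t ht => hc ⟨t, ht⟩]; simp

theorem Cls.above_type {Γ : List (Tm S)} {A : Tm S} (hA : Has P Γ A (.srt c)) :
    Above P c (cl P (ctxC P Γ) A) := by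
  rw [cl_type h.nd.toStrat hA, above_memC h.nd]

theorem skel_typed {T : Tm S} : ∀ {Γ : List (Tm S)}, Has P Γ T (.srt c) →
    Has P [] (skel P c D (ctxC P Γ) T) (.srt c) := by
  induction T with
  | var i => intros; exact h.hD
  | cst n A _ => intros; exact h.hD
  | app f a _ _ => intros; exact h.hD
  | lam A b _ _ => intros; exact h.hD
  | srt s =>
    intro Γ hT
    obtain ⟨t, ht, hc⟩ := hT.gen_srt
    rw [← hc.srt_inj] at ht
    exact .ax ht
  | pi A b ihA ihb =>
    intro Γ hT
    obtain ⟨s, t, u, hA, hb, hr, hc⟩ := hT.gen_pi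
    have htc : t = c := by rw [← h.nd.cod _ _ _ hr, ← hc.srt_inj]
    subst htc
    have e : bindC P (cl P (ctxC P Γ) A) = s := by
      rw [cl_type h.nd.toStrat hA, bindC_memC h.nd.toStrat]
    simp only [skel]
    split_ifs with hs
    · rw [e] at hs
      subst hs
      exact arr_typed h.rule (comp_typed h.rule h.hD (ihA hA))
        (comp_typed h.rule h.hD (ihb hb))
    · exact arr_typed h.rule (comp_typed h.rule h.hD h.hD) (comp_typed h.rule h.hD (ihb hb))

theorem stuck_sub (f : ℕ → Tm S) {M : Tm S} : ∀ {Γ : List (Tm S)} {A B : Tm S},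
    Has P Γ M (.pi A B) → NormalTm M → (∀ X Y, M ≠ .lam X Y) →
    cl P (ctxC P Γ) M = memC P c →
    (∀ i, .inl (ctxC P Γ i) = memC P c → ∃ j, f i = .var j) → Stuck (Tm.sub f M) := by
  induction M with
  | var i =>
    intro Γ A B _ _ _ hc hf
    obtain ⟨j, hj⟩ := hf i hc
    rw [Tm.sub, hj]
    exact .var j
  | cst n A _ => intros; exact .cst _ _
  | srt s =>
    intro Γ A B hM
    obtain ⟨t, -, hc⟩ := hM.gen_srt
    exact hc.symm.srt_pi.elim
  | pi X Y _ _ =>
    intro Γ A B hM
    obtain ⟨_, _, _, -, -, -, hc⟩ := hM.gen_pi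
    exact hc.symm.srt_pi.elim
  | lam X Y _ _ => intro Γ A B _ _ hnl; exact absurd rfl (hnl X Y)
  | app p q ihp _ =>
    intro Γ A B hM hn _ hc hf
    obtain ⟨X, Y, hp, -, -⟩ := hM.gen_app
    exact .app _ (ihp hp (fun N hN => hn _ (.appL q hN))
      (fun X Y e => hn _ (e ▸ Step.beta X Y q)) hc hf)

/-- Skeletons are stable under substitutions that fix the variables of type-level classes. -/
theorem skel_sub {T : Tm S} : ∀ {Γ Δ : List (Tm S)} {f : ℕ → Tm S} {T' : Tm S},
    Has P Γ T (.srt c) → NormalTm T → Wf P Δ → SubOK P f Γ Δ →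
    (∀ i, .inl (ctxC P Γ i) = memC P c → ∃ j, f i = .var j) →
    Steps (Tm.sub f T) T' → skel P c D (ctxC P Δ) T' = skel P c D (ctxC P Γ) T := by
  induction T with
  | var i =>
    intro Γ Δ f T' hT _ _ _ hf hs
    obtain ⟨j, hj⟩ := hf i (by have := cl_type h.nd.toStrat hT; exact this)
    simp only [Tm.sub, hj] at hs
    rw [show T' = .var j from NormalTm.steps_eq (fun N hN => by cases hN) hs]
    rfl
  | cst n A _ =>
    intro Γ Δ f T' _ _ _ _ _ hs
    rw [show T' = .cst n A from NormalTm.steps_eq (fun N hN => by cases hN) hs]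
    rfl
  | srt s =>
    intro Γ Δ f T' _ _ _ _ _ hs
    rw [hs.srt_inv]
    rfl
  | lam A b _ _ =>
    intro Γ Δ f T' hT
    obtain ⟨_, _, -, -, hc⟩ := hT.gen_lam
    exact hc.srt_pi.elim
  | app p q _ _ =>
    intro Γ Δ f T' hT hn _ _ hf hs
    obtain ⟨X, Y, hp, -, -⟩ := hT.gen_app
    have hst : Stuck (Tm.sub f (.app p q)) :=
      .app _ (stuck_sub h f hp (fun N hN => hn _ (.appL q hN))
        (fun X Y e => hn _ (e ▸ Step.beta X Y q))
        (by have := cl_type h.nd.toStrat hT; exact this) hf)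
    have := hst.steps hs
    cases this <;> rfl
  | pi A b ihA ihb =>
    intro Γ Δ f T' hT hn hw hok hf hs
    obtain ⟨s, t, u, hA, hb, hr, hc⟩ := hT.gen_pi
    obtain ⟨A', b', rfl, hA', hb'⟩ := hs.pi_inv
    have htc : t = c := by rw [← h.nd.cod _ _ _ hr, ← hc.srt_inj]
    subst htc
    have hAf := hA.subst hw hok
    have e₁ : bindC P (cl P (ctxC P Γ) A) = s := by
      rw [cl_type h.nd.toStrat hA, bindC_memC h.nd.toStrat]
    have e₂ : bindC P (cl P (ctxC P Δ) A') = s := by
      rw [cl_type h.nd.toStrat (hAf.steps hA'), bindC_memC h.nd.toStrat]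
    have hw' : Wf P (Tm.sub f A :: Δ) := .cons hw hAf
    have hbody := ihb hb (fun N hN => hn _ (.piR A hN)) hw' (hok.up hAf) (by
      rintro (_ | i) hi
      · exact ⟨0, rfl⟩
      · obtain ⟨j, hj⟩ := hf i hi
        exact ⟨j + 1, by rw [Tm.up_succ, hj]; rfl⟩) hb'
    rw [ctxC_cons h.nd.toStrat hAf] at hbody
    simp only [skel, e₁, e₂, hbody]
    rw [ctxC_cons h.nd.toStrat hA]
    split_ifs with hsc
    · subst hsc
      rw [ihA hA (fun N hN => hn _ (.piL b hN)) hw hok hf hA']
    · rfl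

theorem val_typed {Γ Δ : List (Tm S)} {A : Tm S} {σ : ℕ → Tm S} (hA : Has P Γ A (.srt c))
    (hw : Wf P Δ) (hs : Poly P c → Sat P c D Γ Δ σ) :
    Has P Δ (val P c D (ctxC P Γ) σ A) (.srt c) := by
  unfold val
  split_ifs with hp
  · exact tau_typed h.nd h.rule h.hD hA hw (hs hp) (h.above_type hA)
  · exact hw.weakenClosed (skel_typed h (hA.steps (h.nf_spec hA).1))

theorem val_closed {Γ : List (Tm S)} {A : Tm S} (hA : Has P Γ A (.srt c)) (hp : ¬ Poly P c)
    (σ : ℕ → Tm S) : Has P [] (val P c D (ctxC P Γ) σ A) (.srt c) := by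
  rw [val, if_neg hp]
  exact skel_typed h (hA.steps (h.nf_spec hA).1)

theorem val_conv {Γ : List (Tm S)} {A B : Tm S} (σ : ℕ → Tm S) (hA : Has P Γ A (.srt c))
    (hB : Has P Γ B (.srt c)) (hc : Conv A B) :
    Conv (val P c D (ctxC P Γ) σ A) (val P c D (ctxC P Γ) σ B) := by
  unfold val
  split_ifs
  · exact tau_conv h.nd h.scopedD σ hA hB (h.above_type hA) hc
  · rw [h.nf_conv hA hB hc]; exact Conv.refl _

omit h in
theorem val_srt (cs : ℕ → S) (σ : ℕ → Tm S) (s : S) :
    val P c D cs σ (.srt s) = .srt s := by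
  unfold val
  split_ifs
  · rfl
  · have : nf (Tm.srt s : Tm S) = .srt s := by
      have he : ∃ N : Tm S, Steps (.srt s) N ∧ NormalTm N :=
        ⟨_, .refl, fun N hN => by cases hN⟩
      rw [nf, dif_pos he]
      exact he.choose_spec.1.srt_inv
    rw [this]
    rfl

/-- The value type of a function with an argument of class `c`. -/
theorem val_pi_eq {Γ : List (Tm S)} {A B : Tm S} (σ : ℕ → Tm S) (hA : Has P Γ A (.srt c))
    (hB : Has P (A :: Γ) B (.srt c)) :
    Conv (val P c D (ctxC P Γ) σ (.pi A B)) (arr (comp D (val P c D (ctxC P Γ) σ A))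
      (comp D (val P c D (ctxC P (A :: Γ)) (Tm.scons D σ) B))) := by
  have hP := h.nd.toStrat
  have eA : bindC P (cl P (ctxC P Γ) A) = c := by rw [cl_type hP hA, bindC_memC hP]
  have eB : bindC P (cl P (cons c (ctxC P Γ)) B) = c := by
    rw [← ctxC_cons hP hA, cl_type hP hB, bindC_memC hP]
  have hpi : Has P Γ (.pi A B) (.srt c) := .pi hA hB h.rule
  unfold val
  split_ifs
  · simp only [tau, eA, eB, if_true, ctxC]
    exact Conv.refl _
  · obtain ⟨h₁, h₂⟩ := h.nf_spec hpi
    obtain ⟨A', B', he, hA', hB'⟩ := h₁.pi_inv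
    have e₁ : nf A = A' := by
      refine (h.nf_spec hA).2.conv_eq (fun N hN => h₂ _ (by rw [he]; exact .piL _ hN)) ?_
      exact (Conv.of_steps (h.nf_spec hA).1).symm.trans (Conv.of_steps hA')
    have e₂ : nf B = B' := by
      refine (h.nf_spec hB).2.conv_eq (fun N hN => h₂ _ (by rw [he]; exact .piR _ hN)) ?_
      exact (Conv.of_steps (h.nf_spec hB).1).symm.trans (Conv.of_steps hB')
    have eA' : bindC P (cl P (ctxC P Γ) A') = c := by
      rw [cl_steps hP hA hA', eA]
    rw [he, e₁, e₂]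
    simp only [skel, eA', if_true, ctxC, eA]
    exact Conv.refl _

/-- The value type of a function with an argument of a higher class. -/
theorem val_pi_above {Γ : List (Tm S)} {A B : Tm S} {s : S} (σ : ℕ → Tm S)
    (hA : Has P Γ A (.srt s)) (hB : Has P (A :: Γ) B (.srt c)) (hr : P.Rule s c c) (hs : s ≠ c) :
    Conv (val P c D (ctxC P Γ) σ (.pi A B))
      (if Poly P c then
        .pi (tau P c D (ctxC P Γ) σ A) (arr (comp D D)
          (comp D (val P c D (ctxC P (A :: Γ)) (Tm.up σ) B)))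
      else arr (comp D D) (comp D (val P c D (ctxC P (A :: Γ)) (Tm.scons D σ) B))) := by
  have hP := h.nd.toStrat
  have eA : bindC P (cl P (ctxC P Γ) A) = s := by rw [cl_type hP hA, bindC_memC hP]
  have eB : bindC P (cl P (cons s (ctxC P Γ)) B) = c := by
    rw [← ctxC_cons hP hA, cl_type hP hB, bindC_memC hP]
  have hpi : Has P Γ (.pi A B) (.srt c) := .pi hA hB hr
  unfold val
  split_ifs
  · simp only [tau, eA, eB, if_true, if_neg hs, ctxC]
    exact Conv.refl _
  · obtain ⟨h₁, h₂⟩ := h.nf_spec hpi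
    obtain ⟨A', B', he, hA', hB'⟩ := h₁.pi_inv
    have e₂ : nf B = B' := by
      refine (h.nf_spec hB).2.conv_eq (fun N hN => h₂ _ (by rw [he]; exact .piR _ hN)) ?_
      exact (Conv.of_steps (h.nf_spec hB).1).symm.trans (Conv.of_steps hB')
    have eA' : bindC P (cl P (ctxC P Γ) A') = s := by
      rw [cl_steps hP hA hA', eA]
    rw [he, e₂]
    simp only [skel, eA', if_neg hs, ctxC, eA]
    exact Conv.refl _

/-- The value type of an instance. -/
theorem val_inst {Γ : List (Tm S)} {A B N : Tm S} {s : S} (σ : ℕ → Tm S)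
    (hA : Has P Γ A (.srt s)) (hB : Has P (A :: Γ) B (.srt c)) (hr : P.Rule s c c)
    (hN : Has P Γ N A) (t : Tm S)
    (ht : Poly P c → s ≠ c → t = tau P c D (ctxC P Γ) σ N) :
    val P c D (ctxC P Γ) σ (Tm.inst B N) = val P c D (ctxC P (A :: Γ)) (Tm.scons t σ) B := by
  have hP := h.nd.toStrat
  unfold val
  split_ifs with hp
  · rw [tau_inst h.nd h.scopedD hB (h.above_type hB) hN hA]
    refine tau_congr h.nd h.scopedD hB (h.above_type hB) ?_
    rintro (_ | i) hi
    · rw [ctxC_cons hP hA] at hi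
      simp only [Tm.scons_zero]
      exact (ht hp (h.ne_above hi)).symm
    · rfl
  · obtain ⟨hB₁, hB₂⟩ := h.nf_spec hB
    have hI : Has P Γ (Tm.inst B N) (.srt c) := hB.inst hN
    have hsteps : Steps (Tm.sub (Tm.scons N Tm.var) (nf B)) (nf (Tm.inst B N)) := by
      obtain ⟨h₁, h₂⟩ := h.nf_spec hI
      obtain ⟨C, hC₁, hC₂⟩ := church_rosser h₁ (hB₁.sub (Tm.scons N Tm.var))
      rw [h₂.steps_eq hC₁] at hC₂
      exact hC₂
    refine skel_sub h (hB.steps hB₁) hB₂ hN.wf (SubOK.scons hN) ?_ hsteps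
    rintro (_ | i) hi
    · exfalso
      rw [ctxC_cons hP hA, cons_zero] at hi
      by_cases hex : ∃ t, P.Ax c t
      · obtain ⟨c', hc'⟩ := hex
        rw [memC_ax hP hc'] at hi
        exact hp ⟨c', hc', by rw [← Sum.inl.inj hi]; exact hr⟩
      · rw [memC_top fun t ht => hex ⟨t, ht⟩] at hi
        cases hi
    · exact ⟨i, rfl⟩

theorem val_shift {Γ : List (Tm S)} {A : Tm S} (hA : Has P Γ A (.srt c)) (σ : ℕ → Tm S)
    (g : ℕ → ℕ) :
    val P c D (ctxC P Γ) (Tm.ren g ∘ σ) A = Tm.ren g (val P c D (ctxC P Γ) σ A) := by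
  by_cases hp : Poly P c
  · simp only [val, if_pos hp]
    exact tau_shift h.scopedD A _ _ _
  · rw [(val_closed h hA hp σ).scoped.1.ren_closed]
    simp only [val, if_neg hp]

theorem val_weak {Γ : List (Tm S)} {A B : Tm S} {s : S} (hA : Has P Γ A (.srt c))
    (hB : Has P Γ B (.srt s)) (σ : ℕ → Tm S) (t : Tm S) :
    val P c D (ctxC P (B :: Γ)) (Tm.scons t σ) (Tm.sh A) = val P c D (ctxC P Γ) σ A := by
  unfold val
  split_ifs
  · exact tau_scons _ _ _ _ _
  · obtain ⟨h₁, h₂⟩ := h.nf_spec hA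
    have hA' := hA.sh hB
    obtain ⟨h₁', h₂'⟩ := h.nf_spec hA'
    refine skel_sub h (hA.steps h₁) h₂ (.cons hA.wf hB) (f := Tm.var ∘ Nat.succ) ?_
      (fun i _ => ⟨i + 1, rfl⟩) ?_
    · intro i C hC
      rw [← Tm.ren_eq_sub]
      exact (Wf.cons hA.wf hB).var (hC.succ B)
    · rw [← Tm.ren_eq_sub]
      obtain ⟨C, hC₁, hC₂⟩ := church_rosser h₁' (h₁.ren Nat.succ)
      rw [h₂'.steps_eq hC₁] at hC₂
      exact hC₂

end Vale.Agent.P340.St
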