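import Mathlib.Tactic
import Vale.Agent.P340.Defs

/-!
# The substitution calculus, β-steps under substitution, strong normalization
-/

namespace Vale.Agent.P340

universe u
variable {S : Type u}

open Expr Relation

theorem upRen_id : upRen (id : ℕ → ℕ) = id := by
  funext i; cases i <;> rfl

theorem upRen_comp (ρ₁ ρ₂ : ℕ → ℕ) : upRen ρ₂ ∘ upRen ρ₁ = upRen (ρ₂ ∘ ρ₁) := by
  funext i; cases i <;> rfl

namespace Expr

theorem ren_id (M : Expr S) : M.ren id = M := by
  induction M <;> simp_all [ren, upRen_id]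

theorem ren_ren (M : Expr S) (ρ₁ ρ₂ : ℕ → ℕ) : (M.ren ρ₁).ren ρ₂ = M.ren (ρ₂ ∘ ρ₁) := by
  induction M generalizing ρ₁ ρ₂ <;> simp_all [ren, upRen_comp]

theorem up_comp_upRen (ρ : ℕ → ℕ) (σ : ℕ → Expr S) :
    (up σ) ∘ upRen ρ = up (σ ∘ ρ) := by
  funext i; cases i <;> rfl

theorem sub_ren_comp (M : Expr S) (ρ : ℕ → ℕ) (σ : ℕ → Expr S) :
    (M.ren ρ).sub σ = M.sub (σ ∘ ρ) := by
  induction M generalizing ρ σ <;> simp_all [ren, sub, up_comp_upRen]

theorem shift_ren (M : Expr S) (ρ : ℕ → ℕ) : (M.ren ρ).shift = M.shift.ren (upRen ρ) := by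
  simp only [shift, ren_ren]; rfl

theorem ren_up (σ : ℕ → Expr S) (ρ : ℕ → ℕ) :
    (fun i => (up σ i).ren (upRen ρ)) = up (fun i => (σ i).ren ρ) := by
  funext i; cases i with
  | zero => rfl
  | succ n => simp [up, shift_ren]

theorem ren_sub_comp (M : Expr S) (σ : ℕ → Expr S) (ρ : ℕ → ℕ) :
    (M.sub σ).ren ρ = M.sub (fun i => (σ i).ren ρ) := by
  induction M generalizing σ ρ <;> simp_all [ren, sub, ren_up]

theorem shift_sub (M : Expr S) (σ : ℕ → Expr S) : M.shift.sub (up σ) = (M.sub σ).shift := by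
  simp only [shift, sub_ren_comp, ren_sub_comp]
  rfl

theorem up_sub (σ τ : ℕ → Expr S) :
    (fun i => (up σ i).sub (up τ)) = up (fun i => (σ i).sub τ) := by
  funext i; cases i with
  | zero => rfl
  | succ n => simp [up, shift_sub]

theorem sub_sub (M : Expr S) (σ τ : ℕ → Expr S) :
    (M.sub σ).sub τ = M.sub (fun i => (σ i).sub τ) := by
  induction M generalizing σ τ <;> simp_all [sub, up_sub]

theorem up_var : up (var : ℕ → Expr S) = var := by
  funext i; cases i <;> rfl

theorem sub_var (M : Expr S) : M.sub var = M := by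
  induction M <;> simp_all [sub, up_var]

theorem up_var_comp (ρ : ℕ → ℕ) :
    up (fun i => (var (ρ i) : Expr S)) = fun i => var (upRen ρ i) := by
  funext i; cases i <;> rfl

theorem ren_eq_sub (M : Expr S) (ρ : ℕ → ℕ) : M.ren ρ = M.sub (fun i => var (ρ i)) := by
  induction M generalizing ρ <;> simp_all [ren, sub, up_var_comp]

theorem shift_sub_scons (M N : Expr S) (σ : ℕ → Expr S) :
    M.shift.sub (scons N σ) = M.sub σ := by
  simp only [shift, sub_ren_comp]; rfl

theorem shift_inst (M N : Expr S) : M.shift.inst N = M := by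
  simp [inst, shift_sub_scons, sub_var]

theorem up_sub_scons (N : Expr S) (σ τ : ℕ → Expr S) :
    (fun i => (up σ i).sub (scons N τ)) = scons N (fun i => (σ i).sub τ) := by
  funext i; cases i with
  | zero => rfl
  | succ n => simp [up, scons, shift_sub_scons]

theorem sub_up_inst (M N : Expr S) (σ : ℕ → Expr S) :
    (M.sub (up σ)).inst N = M.sub (scons N σ) := by
  simp [inst, sub_sub, up_sub_scons, sub_var]

theorem inst_sub (M N : Expr S) (σ : ℕ → Expr S) :
    (M.inst N).sub σ = M.sub (scons (N.sub σ) σ) := by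
  simp only [inst, sub_sub]
  congr 1
  funext i; cases i <;> rfl

theorem inst_sub_comm (M N : Expr S) (σ : ℕ → Expr S) :
    (M.inst N).sub σ = (M.sub (up σ)).inst (N.sub σ) := by
  rw [inst_sub, sub_up_inst]

theorem inst_ren_comm (M N : Expr S) (ρ : ℕ → ℕ) :
    (M.inst N).ren ρ = (M.ren (upRen ρ)).inst (N.ren ρ) := by
  rw [ren_eq_sub, inst_sub, inst, sub_ren_comp, ren_eq_sub N]
  congr 1
  funext i; cases i <;> rfl

theorem ren_upRen_inst (M N : Expr S) (ρ : ℕ → ℕ) :
    (M.ren (upRen ρ)).inst N = M.sub (scons N (fun i => var (ρ i))) := by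
  rw [inst, sub_ren_comp]
  congr 1
  funext i; cases i <;> rfl

theorem inst_var_zero_shift (M : Expr S) : (M.ren (upRen Nat.succ)).inst (var 0) = M := by
  rw [ren_upRen_inst]
  conv_rhs => rw [← sub_var M]
  congr 1
  funext i; cases i <;> rfl

end Expr

/-! ### β-steps -/

theorem Beta.ren {M N : Expr S} (h : Beta M N) (ρ : ℕ → ℕ) : Beta (M.ren ρ) (N.ren ρ) := by
  induction h generalizing ρ with
  | redex A M N => rw [inst_ren_comm]; exact Beta.redex _ _ _
  | appL N _ ih => exact Beta.appL _ (ih _)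
  | appR M _ ih => exact Beta.appR _ (ih _)
  | lamL M _ ih => exact Beta.lamL _ (ih _)
  | lamR A _ ih => exact Beta.lamR _ (ih _)
  | piL B _ ih => exact Beta.piL _ (ih _)
  | piR A _ ih => exact Beta.piR _ (ih _)

theorem Beta.sub {M N : Expr S} (h : Beta M N) (σ : ℕ → Expr S) :
    Beta (M.sub σ) (N.sub σ) := by
  induction h generalizing σ with
  | redex A M N => rw [inst_sub_comm]; exact Beta.redex _ _ _
  | appL N _ ih => exact Beta.appL _ (ih _)
  | appR M _ ih => exact Beta.appR _ (ih _)
  | lamL M _ ih => exact Beta.lamL _ (ih _)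
  | lamR A _ ih => exact Beta.lamR _ (ih _)
  | piL B _ ih => exact Beta.piL _ (ih _)
  | piR A _ ih => exact Beta.piR _ (ih _)

/-- Multi-step β-reduction. -/
def Steps : Expr S → Expr S → Prop := ReflTransGen Beta

namespace Steps

theorem refl (M : Expr S) : Steps M M := ReflTransGen.refl
theorem single {M N : Expr S} (h : Beta M N) : Steps M N := ReflTransGen.single h
theorem trans {M N K : Expr S} (h : Steps M N) (h' : Steps N K) : Steps M K :=
  ReflTransGen.trans h h'

theorem map (f : Expr S → Expr S) (hf : ∀ M N, Beta M N → Beta (f M) (f N)) {M N : Expr S}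
    (h : Steps M N) : Steps (f M) (f N) := by
  induction h with
  | refl => exact refl _
  | tail _ hb ih => exact ReflTransGen.tail ih (hf _ _ hb)

theorem ren {M N : Expr S} (h : Steps M N) (ρ : ℕ → ℕ) : Steps (M.ren ρ) (N.ren ρ) :=
  Steps.map (fun M => Expr.ren M ρ) (fun _ _ hh => hh.ren ρ) h

theorem sub {M N : Expr S} (h : Steps M N) (σ : ℕ → Expr S) : Steps (M.sub σ) (N.sub σ) :=
  Steps.map (fun M => Expr.sub M σ) (fun _ _ hh => hh.sub σ) h

theorem app {M M' N N' : Expr S} (h : Steps M M') (h' : Steps N N') :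
    Steps (.app M N) (.app M' N') :=
  (Steps.map (fun X => Expr.app X N) (fun _ _ hh => Beta.appL _ hh) h).trans
    (Steps.map (fun X => Expr.app M' X) (fun _ _ hh => Beta.appR _ hh) h')

theorem lam {M M' N N' : Expr S} (h : Steps M M') (h' : Steps N N') :
    Steps (.lam M N) (.lam M' N') :=
  (Steps.map (fun X => Expr.lam X N) (fun _ _ hh => Beta.lamL _ hh) h).trans
    (Steps.map (fun X => Expr.lam M' X) (fun _ _ hh => Beta.lamR _ hh) h')

theorem pi {M M' N N' : Expr S} (h : Steps M M') (h' : Steps N N') :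
    Steps (.pi M N) (.pi M' N') :=
  (Steps.map (fun X => Expr.pi X N) (fun _ _ hh => Beta.piL _ hh) h).trans
    (Steps.map (fun X => Expr.pi M' X) (fun _ _ hh => Beta.piR _ hh) h')

theorem conv {M N : Expr S} (h : Steps M N) : Conv M N := by
  induction h with
  | refl => exact EqvGen.refl _
  | tail _ h ih => exact EqvGen.trans _ _ _ ih (EqvGen.rel _ _ h)

theorem sub_congr (M : Expr S) {σ τ : ℕ → Expr S} (h : ∀ i, Steps (σ i) (τ i)) :
    Steps (M.sub σ) (M.sub τ) := by
  induction M generalizing σ τ with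
  | var i => exact h i
  | sort s => exact Steps.refl _
  | app M N ih₁ ih₂ => exact Steps.app (ih₁ h) (ih₂ h)
  | lam A M ih₁ ih₂ =>
    refine Steps.lam (ih₁ h) (ih₂ ?_)
    intro i; cases i with
    | zero => exact Steps.refl _
    | succ n => exact (h n).ren _
  | pi A M ih₁ ih₂ =>
    refine Steps.pi (ih₁ h) (ih₂ ?_)
    intro i; cases i with
    | zero => exact Steps.refl _
    | succ n => exact (h n).ren _

theorem sort_inv {s : S} {M : Expr S} (h : Steps (.sort s) M) : M = .sort s := by
  induction h with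
  | refl => rfl
  | tail _ h ih => subst ih; cases h

theorem var_inv {i : ℕ} {M : Expr S} (h : Steps (.var i) M) : M = .var i := by
  induction h with
  | refl => rfl
  | tail _ h ih => subst ih; cases h

theorem pi_inv {A B M : Expr S} (h : Steps (.pi A B) M) :
    ∃ A' B', M = .pi A' B' ∧ Steps A A' ∧ Steps B B' := by
  induction h with
  | refl => exact ⟨A, B, rfl, Steps.refl _, Steps.refl _⟩
  | tail _ h ih =>
    obtain ⟨A', B', rfl, h₁, h₂⟩ := ih
    cases h with
    | piL _ h => exact ⟨_, _, rfl, ReflTransGen.tail h₁ h, h₂⟩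
    | piR _ h => exact ⟨_, _, rfl, h₁, ReflTransGen.tail h₂ h⟩

end Steps

/-! ### Reflection of steps through renamings -/

theorem Beta.ren_inv {M : Expr S} {ρ : ℕ → ℕ} {W : Expr S} (h : Beta (M.ren ρ) W) :
    ∃ M', Beta M M' ∧ W = M'.ren ρ := by
  induction M generalizing ρ W with
  | var i => cases h
  | sort s => cases h
  | app M N ihM ihN =>
    generalize hw : (Expr.app M N).ren ρ = X at h
    cases h with
    | redex A M₀ N₀ =>
      simp only [Expr.ren, Expr.app.injEq] at hw
      obtain ⟨h₁, rfl⟩ := hw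
      cases M with
      | lam A' M' =>
        simp only [Expr.ren, Expr.lam.injEq] at h₁
        obtain ⟨rfl, rfl⟩ := h₁
        exact ⟨M'.inst N, Beta.redex _ _ _, (inst_ren_comm _ _ _).symm⟩
      | var i => simp [Expr.ren] at h₁
      | sort s => simp [Expr.ren] at h₁
      | app a b => simp [Expr.ren] at h₁
      | pi a b => simp [Expr.ren] at h₁
    | appL N₀ h =>
      simp only [Expr.ren, Expr.app.injEq] at hw
      obtain ⟨rfl, rfl⟩ := hw
      obtain ⟨M', hM, rfl⟩ := ihM h
      exact ⟨.app M' N, Beta.appL _ hM, rfl⟩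
    | appR M₀ h =>
      simp only [Expr.ren, Expr.app.injEq] at hw
      obtain ⟨rfl, rfl⟩ := hw
      obtain ⟨N', hN, rfl⟩ := ihN h
      exact ⟨.app M N', Beta.appR _ hN, rfl⟩
    | lamL => simp [Expr.ren] at hw
    | lamR => simp [Expr.ren] at hw
    | piL => simp [Expr.ren] at hw
    | piR => simp [Expr.ren] at hw
  | lam A M ihA ihM =>
    simp only [Expr.ren] at h
    cases h with
    | lamL _ h =>
      obtain ⟨A', hA, rfl⟩ := ihA h
      exact ⟨.lam A' M, Beta.lamL _ hA, rfl⟩
    | lamR _ h =>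
      obtain ⟨M', hM, rfl⟩ := ihM h
      exact ⟨.lam A M', Beta.lamR _ hM, rfl⟩
  | pi A M ihA ihM =>
    simp only [Expr.ren] at h
    cases h with
    | piL _ h =>
      obtain ⟨A', hA, rfl⟩ := ihA h
      exact ⟨.pi A' M, Beta.piL _ hA, rfl⟩
    | piR _ h =>
      obtain ⟨M', hM, rfl⟩ := ihM h
      exact ⟨.pi A M', Beta.piR _ hM, rfl⟩

/-! ### Strong normalization of a single expression -/

/-- Strong normalization of one expression. -/
def SN (M : Expr S) : Prop := Acc (fun N K : Expr S => Beta K N) M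

namespace SN

theorem step {M N : Expr S} (h : SN M) (hs : Beta M N) : SN N := h.inv hs

theorem steps {M N : Expr S} (h : SN M) (hs : Steps M N) : SN N := by
  induction hs with
  | refl => exact h
  | tail _ h' ih => exact ih.step h'

theorem intro {M : Expr S} (h : ∀ N, Beta M N → SN N) : SN M := Acc.intro _ h

theorem of_map {f : Expr S → Expr S} (hf : ∀ M N, Beta M N → Beta (f M) (f N)) {M : Expr S}
    (h : SN (f M)) : SN M := by
  generalize hX : f M = X at h
  induction h generalizing M with
  | intro X _ ih =>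
    subst hX
    exact SN.intro fun N hN => ih _ (hf _ _ hN) rfl

theorem of_sub {M : Expr S} {σ : ℕ → Expr S} (h : SN (M.sub σ)) : SN M :=
  of_map (f := fun M => M.sub σ) (fun _ _ hh => hh.sub σ) h

theorem of_app_left {M N : Expr S} (h : SN (.app M N)) : SN M :=
  of_map (f := fun X => Expr.app X N) (fun _ _ hh => Beta.appL _ hh) h

theorem ren {M : Expr S} (h : SN M) (ρ : ℕ → ℕ) : SN (M.ren ρ) := by
  induction h with
  | intro M _ ih =>
    refine SN.intro fun W hW => ?_
    obtain ⟨M', hM, rfl⟩ := Beta.ren_inv hW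
    exact ih _ hM

theorem sort (s : S) : SN (Expr.sort s) := SN.intro fun _ h => by cases h
theorem var (i : ℕ) : SN (Expr.var i : Expr S) := SN.intro fun _ h => by cases h

theorem lam {A M : Expr S} (hA : SN A) (hM : SN M) : SN (.lam A M) := by
  induction hA generalizing M with
  | intro A hAacc ihA =>
    induction hM with
    | intro M hMacc ihM =>
      refine SN.intro fun W hW => ?_
      cases hW with
      | lamL _ h => exact ihA _ h (Acc.intro M hMacc)
      | lamR _ h => exact ihM _ h

theorem pi {A M : Expr S} (hA : SN A) (hM : SN M) : SN (.pi A M) := by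
  induction hA generalizing M with
  | intro A hAacc ihA =>
    induction hM with
    | intro M hMacc ihM =>
      refine SN.intro fun W hW => ?_
      cases hW with
      | piL _ h => exact ihA _ h (Acc.intro M hMacc)
      | piR _ h => exact ihM _ h

theorem sort_app {s : S} {N : Expr S} (hN : SN N) : SN (.app (.sort s) N) := by
  induction hN with
  | intro N hNacc ih =>
    refine SN.intro fun W hW => ?_
    cases hW with
    | appL _ h => cases h
    | appR _ h => exact ih _ h

theorem normal_form {M : Expr S} (h : SN M) :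
    ∃ N, Steps M N ∧ ∀ N', ¬ Beta N N' := by
  induction h with
  | intro M _ ih =>
    by_cases hM : ∃ N, Beta M N
    · obtain ⟨N, hN⟩ := hM
      obtain ⟨K, hK, hK'⟩ := ih N hN
      exact ⟨K, Steps.trans (Steps.single hN) hK, hK'⟩
    · exact ⟨M, Steps.refl _, fun N hN => hM ⟨N, hN⟩⟩

theorem not_seq {M : Expr S} (h : SN M) :
    ¬ ∃ f : ℕ → Expr S, f 0 = M ∧ ∀ n, Beta (f n) (f (n + 1)) := by
  induction h with
  | intro M _ ih =>
    rintro ⟨f, rfl, hf⟩
    exact ih (f 1) (hf 0) ⟨fun n => f (n + 1), rfl, fun n => hf (n + 1)⟩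

theorem irrefl {M : Expr S} (h : SN M) : ¬ Beta M M := by
  induction h with
  | intro M _ ih => exact fun hb => ih M hb hb

end SN

end Vale.Agent.P340
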