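import Vale.Agent.P340.Erase

/-!
# Reducibility candidates on skeletons, shapes and values
-/

namespace Vale.Agent.P340

universe u
variable {S : Type u}

open Expr Relation

/-- An expression which is not an abstraction. -/
def Neutral (t : Sk S) : Prop := ∀ A M, t ≠ Expr.lam A M

/-- Reducibility candidates, closed under renaming. -/
structure IsCand (X : Set (Sk S)) : Prop where
  sn : ∀ t ∈ X, SN t
  red : ∀ t ∈ X, ∀ t', Beta t t' → t' ∈ X
  neutral : ∀ t, Neutral t → (∀ t', Beta t t' → t' ∈ X) → t ∈ X
  ren : ∀ t ∈ X, ∀ ρ, t.ren ρ ∈ X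

/-- The type of candidates. -/
abbrev Cand (S : Type u) : Type u := {X : Set (Sk S) // IsCand X}

theorem cst_normal (t : Sk S) : ¬ Beta (cst : Sk S) t := fun h => by cases h

theorem cst_mem (X : Cand S) : (cst : Sk S) ∈ X.1 :=
  X.2.neutral _ (fun _ _ h => by cases h) (fun t h => absurd h (cst_normal t))

theorem var_mem (X : Cand S) (i : ℕ) : (Expr.var i : Sk S) ∈ X.1 :=
  X.2.neutral _ (fun _ _ h => by cases h) (fun _ h => by cases h)

theorem Cand.steps_mem (X : Cand S) {t t' : Sk S} (h : Steps t t') (ht : t ∈ X.1) :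
    t' ∈ X.1 := by
  induction h with
  | refl => exact ht
  | tail _ hb ih => exact X.2.red _ ih _ hb

theorem pi_mem (X : Cand S) {A B : Sk S} (hA : SN A) (hB : SN B) : Expr.pi A B ∈ X.1 := by
  induction hA generalizing B with
  | intro A hAacc ihA =>
    induction hB with
    | intro B hBacc ihB =>
      refine X.2.neutral _ (fun _ _ h => by cases h) ?_
      intro t ht
      cases ht with
      | piL _ h => exact ihA _ h (Acc.intro B hBacc)
      | piR _ h => exact ihB _ h

theorem skPi_mem (X : Cand S) {a b : Option S} {A B : Sk S} (hA : SN A) (hB : SN B) :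
    skPi a b A B ∈ X.1 :=
  pi_mem X (SN.sort_app hA) hB

/-- The candidate of all strongly normalizing skeletons. -/
def snC : Cand S :=
  ⟨{t | SN t}, fun _ h => h, fun _ h _ hb => SN.step h hb, fun _ _ h => SN.intro h,
    fun _ h ρ => SN.ren h ρ⟩

theorem isCand_piC {I : Type u} (G : I → Prop) (U : Set (Sk S)) (hU : ∀ u ∈ U, SN u)
    (hU' : ∀ u ∈ U, ∀ u', Beta u u' → u' ∈ U) (Y : I → Cand S) :
    IsCand {t : Sk S | SN t ∧ ∀ ρ i u, G i → u ∈ U → Expr.app (t.ren ρ) u ∈ (Y i).1} where
  sn _ h := h.1
  red t h t' hb := ⟨h.1.step hb, fun ρ i u hi hu =>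
    (Y i).2.red _ (h.2 ρ i u hi hu) _ (Beta.appL _ (hb.ren ρ))⟩
  neutral t hn h := by
    refine ⟨SN.intro fun t' ht => (h t' ht).1, fun ρ i u hi hu => ?_⟩
    have hsn := hU u hu
    induction hsn with
    | intro u _ ih =>
      refine (Y i).2.neutral _ (fun _ _ e => by cases e) ?_
      intro w hw
      generalize hX : t.ren ρ = X at hw
      cases hw with
      | redex A M _ =>
        cases t with
        | lam A' M' => exact absurd rfl (hn A' M')
        | var j => cases hX
        | sort s => cases hX
        | app p q => cases hX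
        | pi p q => cases hX
      | appL _ hb =>
        subst hX
        obtain ⟨t', ht', rfl⟩ := hb.ren_inv
        exact (h t' ht').2 ρ i u hi hu
      | appR _ hb =>
        subst hX
        exact ih _ hb (hU' u hu _ hb)
  ren t h ρ := ⟨h.1.ren ρ, fun ρ' i u hi hu => by rw [ren_ren]; exact h.2 _ i u hi hu⟩

/-- The candidate of products. -/
def piC {I : Type u} (G : I → Prop) (U : Cand S ⊕ PUnit.{u+1}) (Y : I → Cand S) : Cand S :=
  match U with
  | .inl X => ⟨_, isCand_piC G X.1 X.2.sn X.2.red Y⟩
  | .inr _ => ⟨_, isCand_piC G {cst} (fun _ h => h ▸ SN.sort _)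
      (fun _ h u' hb => absurd (h ▸ hb) (cst_normal u')) Y⟩

/-- The argument set of a product candidate. -/
def argSet : Cand S ⊕ PUnit.{u+1} → Set (Sk S)
  | .inl X => X.1
  | .inr _ => {cst}

theorem argSet_cst (U : Cand S ⊕ PUnit.{u+1}) : (cst : Sk S) ∈ argSet U := by
  cases U with
  | inl X => exact cst_mem X
  | inr _ => rfl

theorem argSet_sn {U : Cand S ⊕ PUnit.{u+1}} {t : Sk S} (h : t ∈ argSet U) : SN t := by
  cases U with
  | inl X => exact X.2.sn _ h
  | inr _ => exact (Set.mem_singleton_iff.1 h) ▸ SN.sort _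

theorem mem_piC {I : Type u} {G : I → Prop} {U : Cand S ⊕ PUnit.{u+1}} {Y : I → Cand S}
    {t : Sk S} : t ∈ (piC G U Y).1 ↔
      SN t ∧ ∀ ρ i u, G i → u ∈ argSet U → Expr.app (t.ren ρ) u ∈ (Y i).1 := by
  cases U <;> rfl

theorem piC_congr {I : Type u} {G G' : I → Prop} {U U' : Cand S ⊕ PUnit.{u+1}}
    {Y Y' : I → Cand S} (hG : ∀ i, G i ↔ G' i) (hU : U = U') (hY : ∀ i, G i → Y i = Y' i) :
    piC G U Y = piC G' U' Y' := by
  subst hU
  refine Subtype.ext (Set.ext fun t => ?_)
  rw [mem_piC, mem_piC]
  refine and_congr_right fun _ => ⟨fun h ρ i u hi hu => ?_, fun h ρ i u hi hu => ?_⟩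
  · rw [← hY i ((hG i).2 hi)]; exact h ρ i u ((hG i).2 hi) hu
  · rw [hY i hi]; exact h ρ i u ((hG i).1 hi) hu

/-- Functions of a skeleton argument in a candidate. -/
def arrC (U : Cand S) (Y : Cand S) : Cand S :=
  piC (fun _ : PUnit.{u+1} => True) (.inl U) (fun _ => Y)

/-- Functions of the inert constant. -/
def hiC (Y : Cand S) : Cand S :=
  piC (fun _ : PUnit.{u+1} => True) (.inr ⟨⟩) (fun _ => Y)

theorem mem_snC {t : Sk S} : t ∈ (snC : Cand S).1 ↔ SN t := Iff.rfl

/-- The iterated candidates used when a colour has no arrows. -/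
def linN : ℕ → Cand S
  | 0 => snC
  | n + 1 => hiC (linN n)

/-- The candidate of skeletons that stay strongly normalizing when applied to constants. -/
def linC : Cand S :=
  ⟨{t | ∀ n, t ∈ (linN n).1},
    { sn := fun _ h => mem_snC.1 (h 0)
      red := fun t h t' hb n => (linN n).2.red t (h n) t' hb
      neutral := fun t hn h n => (linN n).2.neutral t hn fun t' ht => h t' ht n
      ren := fun t h ρ n => (linN n).2.ren t (h n) ρ }⟩

theorem linC_app {t : Sk S} (h : t ∈ (linC : Cand S).1) :
    Expr.app t cst ∈ (linC : Cand S).1 := by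
  intro n
  have := (mem_piC.1 (h (n + 1))).2 id ⟨⟩ cst trivial rfl
  rwa [ren_id] at this

theorem linC_intro {t : Sk S}
    (h : ∀ ρ, Expr.app (t.ren ρ) cst ∈ (linC : Cand S).1) : t ∈ (linC : Cand S).1 := by
  have hsn : SN t := by
    have := mem_snC.1 (h id 0)
    rw [ren_id] at this
    exact SN.of_app_left this
  intro n
  cases n with
  | zero => exact mem_snC.2 hsn
  | succ n =>
    refine mem_piC.2 ⟨hsn, fun ρ _ u _ hu => ?_⟩
    obtain rfl : u = cst := hu
    exact h ρ n

/-- Weak head expansion. -/
theorem lam_app_mem (Y : Cand S) {M u : Sk S} (hu : SN u) (h : M.inst u ∈ Y.1) :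
    Expr.app (Expr.lam cst M) u ∈ Y.1 := by
  have hM : SN M := SN.of_sub (Y.2.sn _ h)
  induction hM generalizing u with
  | intro M hMacc ihM =>
    induction hu with
    | intro u huacc ihu =>
      refine Y.2.neutral _ (fun _ _ e => by cases e) ?_
      intro w hw
      cases hw with
      | redex _ _ _ => exact h
      | appL _ hb =>
        cases hb with
        | lamL _ hb => exact absurd hb (cst_normal _)
        | lamR _ hb => exact ihM _ hb (Acc.intro u huacc) (Y.2.red _ h _ (hb.sub _))
      | @appR _ _ u' hb =>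
        refine ihu _ hb (Y.steps_mem ?_ h)
        refine Steps.sub_congr M fun i => ?_
        cases i with
        | zero => exact Steps.single hb
        | succ n => exact Steps.refl _

/-! ### Shapes and values -/

/-- Shapes of kinds. -/
inductive Shape : Type
  | base
  | arr (σ τ : Shape)
  | hi (τ : Shape)

/-- Candidates given by shapes. -/
def candSh : Shape → Cand S
  | .base => snC
  | .arr σ τ => arrC (candSh σ) (candSh τ)
  | .hi τ => hiC (candSh τ)

/-- Values of a shape, relative to a type of lower items. -/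
def DomAux (S : Type u) (I : Type u) : Shape → Type u
  | .base => Cand S
  | .arr σ τ => DomAux S I σ → DomAux S I τ
  | .hi τ => (Sk S × I) → DomAux S I τ

/-- A default value of each shape. -/
def dflt {I : Type u} : (sh : Shape) → DomAux S I sh
  | .base => (snC : Cand S)
  | .arr _ τ => fun _ => dflt τ
  | .hi τ => fun _ => dflt τ

/-- Tuples of values of ranks below `n`. -/
def Tup (S : Type u) : ℕ → Type u
  | 0 => PUnit
  | n + 1 => Tup S n × ((sh : Shape) × DomAux S (Tup S n) sh)

/-- Values of rank `n`. -/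
def Val (S : Type u) (n : ℕ) : Type u := (sh : Shape) × DomAux S (Tup S n) sh

/-- The default value. -/
def vdflt (n : ℕ) : Val S n := ⟨.base, (snC : Cand S)⟩

/-- Read a component of a tuple. -/
def getTup : (n : ℕ) → Tup S n → (m : ℕ) → Val S m
  | 0, _, m => vdflt m
  | n + 1, w, m => if h : m = n then h ▸ w.2 else getTup n w.1 m

/-- Build a tuple. -/
def mkTup : (n : ℕ) → ((m : ℕ) → Val S m) → Tup S n
  | 0, _ => PUnit.unit
  | n + 1, f => (mkTup n f, f n)

theorem getTup_mkTup {n m : ℕ} (h : m < n) (f : (m : ℕ) → Val S m) :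
    getTup n (mkTup n f) m = f m := by
  induction n with
  | zero => omega
  | succ n ih =>
    simp only [getTup, mkTup]
    split
    · next e => subst e; rfl
    · exact ih (by omega)

/-- The family with one prescribed component. -/
def single (m : ℕ) (v : Val S m) : (j : ℕ) → Val S j := Function.update (fun j => vdflt j) m v

theorem single_self (m : ℕ) (v : Val S m) : single m v m = v := Function.update_self _ _ _

open Classical in
/-- Read a value at a given shape. -/
noncomputable def coerce {n : ℕ} (sh : Shape) (v : Val S n) : DomAux S (Tup S n) sh :=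
  if h : v.1 = sh then h ▸ v.2 else dflt sh

theorem coerce_self {n : ℕ} (v : Val S n) : coerce v.1 v = v.2 := by simp [coerce]

theorem coerce_eta {n : ℕ} {sh : Shape} (v : Val S n) (h : v.1 = sh) :
    (⟨sh, coerce sh v⟩ : Val S n) = v := by
  subst h; simp only [coerce_self]; rfl

theorem coerce_mk {n : ℕ} (sh : Shape) (x : DomAux S (Tup S n) sh) :
    coerce sh (⟨sh, x⟩ : Val S n) = x := by simp [coerce]

/-- Read a value as a candidate. -/
noncomputable def toC {n : ℕ} (v : Val S n) : Cand S := coerce .base v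

/-- A candidate as a value. -/
def mkC (n : ℕ) (X : Cand S) : Val S n := ⟨.base, X⟩

theorem toC_mkC (n : ℕ) (X : Cand S) : toC (mkC n X) = X := coerce_mk _ _

theorem mkC_fst (n : ℕ) (X : Cand S) : (mkC n X).1 = .base := rfl

/-- Application of values. -/
noncomputable def vapp {n : ℕ} : Val S n → Val S n → Val S n
  | ⟨.arr σ τ, F⟩, x => ⟨τ, F (coerce σ x)⟩
  | ⟨.base, _⟩, _ => vdflt n
  | ⟨.hi _, _⟩, _ => vdflt n

/-- Application of a value to a higher item. -/
def happ {n : ℕ} : Val S n → Sk S × Tup S n → Val S n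
  | ⟨.hi τ, F⟩, p => ⟨τ, F p⟩
  | ⟨.base, _⟩, _ => vdflt n
  | ⟨.arr _ _, _⟩, _ => vdflt n

/-- Abstraction of values. -/
noncomputable def vlam {n : ℕ} (σ τ : Shape) (body : DomAux S (Tup S n) σ → Val S n) : Val S n :=
  ⟨.arr σ τ, fun v => coerce τ (body v)⟩

/-- Abstraction over a higher item. -/
noncomputable def vhi {n : ℕ} (τ : Shape) (body : Sk S × Tup S n → Val S n) : Val S n :=
  ⟨.hi τ, fun p => coerce τ (body p)⟩

theorem vapp_fst {n : ℕ} {f x : Val S n} {σ τ : Shape} (h : f.1 = .arr σ τ) :
    (vapp f x).1 = τ := by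
  obtain ⟨sh, F⟩ := f
  subst h; rfl

theorem happ_fst {n : ℕ} {f : Val S n} {p : Sk S × Tup S n} {τ : Shape} (h : f.1 = .hi τ) :
    (happ f p).1 = τ := by
  obtain ⟨sh, F⟩ := f
  subst h; rfl

/-- Environment entries: a skeleton and a value for every rank. -/
structure Entry (S : Type u) where
  /-- The skeleton substituted for the variable. -/
  sk : Sk S
  /-- The values of the variable. -/
  val : (m : ℕ) → Val S m

/-- Environments. -/
abbrev Env (S : Type u) : Type u := ℕ → Entry S

/-- Extend an environment. -/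
def econs (ε : Entry S) (e : Env S) : Env S
  | 0 => ε
  | n + 1 => e n

/-- The skeleton substitution of an environment. -/
def esk (e : Env S) : ℕ → Sk S := fun i => (e i).sk

theorem esk_econs (ε : Entry S) (e : Env S) : esk (econs ε e) = scons ε.sk (esk e) := by
  funext i; cases i <;> rfl

end Vale.Agent.P340
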